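import Vale.Agent.P262S.Defs

/-! # Elementary facts on the schedule and weights (module Basic). -/

open Finset

namespace Vale.Agent.P262S


/-- The numeric heart of the weight chain. -/
lemma W_chain_arith {x : ℝ} (h0 : 0 ≤ x) (h1 : x ≤ 1) :
    (1 + 3 / 4 * x) / 2 * (1 + x / 50) ^ 6 ≤ (1 + x) / 2 := by
  obtain ⟨y, hy⟩ : ∃ y, y = x / 50 := ⟨_, rfl⟩
  have hy0 : 0 ≤ y := by rw [hy]; positivity
  have hy1 : y ≤ 1 / 50 := by rw [hy]; linarith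
  rw [← hy]
  have hx : x = 50 * y := by rw [hy]; ring
  have h3 : (1 + y) ^ 3 ≤ 1 + 3.0604 * y := by nlinarith [mul_nonneg hy0 hy0, mul_nonneg (mul_nonneg hy0 hy0) hy0]
  have h6 : (1 + y) ^ 6 ≤ 1 + 6.31 * y := by
    have h31 : 0 ≤ (1 + y) ^ 3 := by positivity
    have h7 : (1 + y) ^ 6 = ((1 + y) ^ 3) ^ 2 := by ring
    rw [h7]
    have h8 : ((1 + y) ^ 3) ^ 2 ≤ (1 + 3.0604 * y) ^ 2 := pow_le_pow_left₀ h31 h3 2
    refine h8.trans ?_
    nlinarith [mul_nonneg hy0 hy0]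
  have h9 : 0 ≤ (1 + 3 / 4 * x) / 2 := by positivity
  have h10 := mul_le_mul_of_nonneg_left h6 h9
  refine h10.trans ?_
  rw [hx]
  nlinarith [mul_nonneg hy0 hy0]

lemma scale_arith_old {c : ℝ} {a : ℕ} {T : ℝ} (hc : 1 ≤ 3 * c) (hT : (2 / 3 : ℝ) ^ a ≤ T) :
    1 ≤ 3 * (c * (3 / 4 : ℝ) ^ a) * T * 2 ^ a := by
  have e : (3 / 4 : ℝ) ^ a * (2 / 3 : ℝ) ^ a * 2 ^ a = 1 := by
    rw [← mul_pow, ← mul_pow]
    norm_num
  have h1 : 0 < (3 / 4 : ℝ) ^ a * 2 ^ a := by positivity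
  have h2 : (3 / 4 : ℝ) ^ a * 2 ^ a * (2 / 3 : ℝ) ^ a ≤ (3 / 4 : ℝ) ^ a * 2 ^ a * T :=
    mul_le_mul_of_nonneg_left hT h1.le
  have h3 : (3 / 4 : ℝ) ^ a * 2 ^ a * (2 / 3 : ℝ) ^ a = 1 := by rw [← e]; ring
  rw [h3] at h2
  have h4 : 3 * (c * (3 / 4 : ℝ) ^ a) * T * 2 ^ a = (3 * c) * ((3 / 4 : ℝ) ^ a * 2 ^ a * T) := by ring
  rw [h4]
  nlinarith

lemma ph_arith_old {c k : ℝ} {a : ℕ} {T : ℝ} (hk : 0 ≤ k) (hc : c ≤ k) (hT : (2 / 3 : ℝ) ^ a ≤ T) :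
    c * (4 / 3 : ℝ) ^ a ≤ k * T * 2 ^ a := by
  have e : (4 / 3 : ℝ) ^ a = (2 / 3 : ℝ) ^ a * 2 ^ a := by
    rw [← mul_pow]
    norm_num
  calc c * (4 / 3 : ℝ) ^ a ≤ k * (4 / 3 : ℝ) ^ a := mul_le_mul_of_nonneg_right hc (by positivity)
    _ = k * ((2 / 3 : ℝ) ^ a * 2 ^ a) := by rw [e]
    _ ≤ k * (T * 2 ^ a) :=
        mul_le_mul_of_nonneg_left (mul_le_mul_of_nonneg_right hT (by positivity)) hk
    _ = k * T * 2 ^ a := by ring

lemma Real_sqrt_le_self' {x : ℝ} (hx : 32 ≤ x) : √x ≤ x := by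
  rw [Real.sqrt_le_left (by linarith)]
  nlinarith

variable {d : ℕ} (S : Sched d)

lemma Sched.j_ge (m : ℕ) : (32 : ℝ) ≤ (S.j m : ℝ) := by exact_mod_cast S.hj m

lemma Sched.mem_H {m : ℕ} {i : Fin d} : i ∈ S.H m ↔ m < S.e i := by simp [Sched.H]

lemma Sched.mem_C {m : ℕ} {i : Fin d} : i ∈ S.C m ↔ S.e i = m := by simp [Sched.C]

lemma Sched.mem_U {u : ℕ} {i : Fin d} : i ∈ S.U u ↔ S.e i ≤ u := by simp [Sched.U]

/-- `b m` is huge. -/
lemma Sched.b_ge (m : ℕ) : (2 : ℝ) ^ 42 ≤ S.b m := by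
  have h1 := S.hj m
  have h2 : (2 : ℝ) ^ 32 ≤ 2 ^ S.j m := pow_le_pow_right₀ (by norm_num) h1
  have h3 : (32 : ℝ) ≤ (S.j m : ℝ) := S.j_ge m
  have h4 : (32 : ℝ) ^ 2 ≤ (S.j m : ℝ) ^ 2 := pow_le_pow_left₀ (by norm_num) h3 2
  unfold Sched.b
  calc (2 : ℝ) ^ 42 = 2 ^ 32 * 32 ^ 2 := by norm_num
    _ ≤ _ := mul_le_mul h2 h4 (by norm_num) (by positivity)

lemma Sched.b_le_q {m : ℕ} {i : Fin d} (h : i ∈ S.H m) : S.b m ≤ S.q i m := by
  exact (S.he i m).1 (S.mem_H.1 h)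

lemma Sched.q_pos {m : ℕ} {i : Fin d} (h : i ∈ S.H m) : 0 < S.q i m := by
  have h1 := S.b_le_q h
  have h2 := S.b_ge m
  have h3 : (0 : ℝ) < 2 ^ 42 := by norm_num
  linarith

/-- `q < b` outside `H`. -/
lemma Sched.q_lt_b {m : ℕ} {i : Fin d} (h : i ∉ S.H m) : S.q i m < S.b m := by
  have h1 : ¬ m < S.e i := fun h' => h (S.mem_H.2 h')
  rw [S.he i m] at h1
  exact not_le.1 h1

/-- (C1), with `1/q`. -/
lemma Sched.sum_inv_q (m : ℕ) : ∑ i ∈ S.H m, 1 / S.q i m ≤ 1 / 2 ^ S.j m := by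
  have h := S.hC1 m
  have e : ∑ i ∈ univ.filter (fun i => m < S.e i), (2 : ℝ) ^ S.j m / S.q i m
      = 2 ^ S.j m * ∑ i ∈ S.H m, 1 / S.q i m := by
    rw [Finset.mul_sum]
    refine Finset.sum_congr rfl fun i _ => ?_
    ring
  rw [e] at h
  rw [le_div_iff₀ (by positivity)]
  linarith

lemma Sched.sum_inv_q2 (m : ℕ) : ∑ i ∈ S.H m, 1 / S.q i m ^ 2 ≤ 1 / S.b m := by
  have h1 := S.sum_inv_q m
  have hb : 0 < S.b m := lt_of_lt_of_le (by norm_num) (S.b_ge m)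
  have h2 : ∑ i ∈ S.H m, 1 / S.q i m ^ 2 ≤ ∑ i ∈ S.H m, (1 / S.b m) * (1 / S.q i m) := by
    refine Finset.sum_le_sum fun i hi => ?_
    have hq := S.q_pos hi
    have h3 := S.b_le_q hi
    rw [one_div_mul_one_div, sq]
    exact one_div_le_one_div_of_le (by positivity) (mul_le_mul_of_nonneg_right h3 hq.le)
  rw [← Finset.mul_sum] at h2
  refine h2.trans ?_
  have h4 : (1 : ℝ) / 2 ^ S.j m ≤ 1 := by
    rw [div_le_one (by positivity)]
    exact one_le_pow₀ (by norm_num)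
  have h5 : 0 ≤ 1 / S.b m := by positivity
  calc 1 / S.b m * ∑ i ∈ S.H m, 1 / S.q i m ≤ 1 / S.b m * 1 :=
        mul_le_mul_of_nonneg_left (h1.trans h4) h5
    _ = 1 / S.b m := by ring

lemma Sched.H_succ_subset (m : ℕ) : S.H (m + 1) ⊆ S.H m := by
  intro i hi
  rw [S.mem_H] at hi ⊢
  omega

/-- The next level lower bound. -/
lemma Sched.b_succ_ge (m : ℕ) :
    (S.j m : ℝ) ^ 4 * (((S.C m).card : ℝ) + 1) * 1024 ≤ S.b (m + 1) := by
  have h1 := S.hforced m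
  have h2 : (32 : ℝ) ≤ (S.j (m + 1) : ℝ) := S.j_ge (m + 1)
  have h3 : (1024 : ℝ) ≤ (S.j (m + 1) : ℝ) ^ 2 := by nlinarith
  unfold Sched.b Sched.C
  exact mul_le_mul h1 h3 (by norm_num) (by positivity)

/-- Energies after leaving. -/
lemma Sched.q_succ_lt {m : ℕ} {i : Fin d} (h : i ∈ S.C m) : S.q i (m + 1) < (S.j m : ℝ) ^ 2 := by
  have h1 : i ∉ S.H m := by
    rw [S.mem_H, S.mem_C.1 h]
    omega
  have h2 := S.q_lt_b h1
  rw [S.hqs, div_lt_iff₀ (by positivity)]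
  unfold Sched.b at h2
  linarith

lemma Sched.q_pow4_lt {m : ℕ} {i : Fin d} (h : i ∈ S.C m) :
    S.q i m ^ 4 < (S.K m : ℝ) * (S.j m : ℝ) ^ 8 := by
  have h1 : i ∉ S.H m := by
    rw [S.mem_H, S.mem_C.1 h]
    omega
  have h2 := S.q_lt_b h1
  have h3 := S.hq0 i m
  have h4 : S.q i m ^ 4 < S.b m ^ 4 := pow_lt_pow_left₀ h2 h3 (by norm_num)
  refine h4.trans_eq ?_
  unfold Sched.b Sched.K
  push_cast
  rw [show (16 : ℝ) = 2 ^ 4 by norm_num, ← pow_mul, mul_comm 4 (S.j m), pow_mul]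
  ring

lemma Sched.q_succ_pow4 (m : ℕ) (i : Fin d) : S.q i (m + 1) ^ 4 = S.q i m ^ 4 / (S.K m : ℝ) := by
  rw [S.hqs, div_pow]
  unfold Sched.K
  push_cast
  rw [show (16 : ℝ) = 2 ^ 4 by norm_num, ← pow_mul, ← pow_mul, mul_comm]

lemma Sched.Θ_pos (m : ℕ) : 0 < S.Θ m := by
  induction m with
  | zero => simp [Sched.Θ]
  | succ n ih =>
    simp only [Sched.Θ]
    split_ifs
    · norm_num
    · positivity

lemma Sched.Θ_le_one (m : ℕ) : S.Θ m ≤ 1 := by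
  induction m with
  | zero => simp [Sched.Θ]
  | succ n ih =>
    simp only [Sched.Θ]
    split_ifs
    · exact le_rfl
    · linarith

lemma Sched.ag_pos (u : ℕ) (i : Fin d) : 0 < S.ag u i := by
  unfold Sched.ag
  positivity

lemma Sched.ag_le_one (u : ℕ) (i : Fin d) : S.ag u i ≤ 1 := by
  unfold Sched.ag
  exact pow_le_one₀ (by norm_num) (by norm_num)

lemma Sched.W_half_le (u : ℕ) (i : Fin d) : 1 / 2 ≤ S.W u i := by
  unfold Sched.W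
  linarith [S.ag_pos u i]

lemma Sched.W_le_one (u : ℕ) (i : Fin d) : S.W u i ≤ 1 := by
  unfold Sched.W
  linarith [S.ag_le_one u i]

/-- The weight chain. -/
lemma Sched.Wk_six_le {u : ℕ} {i : Fin d} (h : S.e i ≤ u) : S.Wk u 6 i ≤ S.W u i := by
  have e : S.ag (u + 1) i = 3 / 4 * S.ag u i := by
    unfold Sched.ag
    rw [show u + 1 - S.e i = (u - S.e i) + 1 by omega, pow_succ]
    ring
  unfold Sched.Wk Sched.W Sched.fa
  rw [e]
  exact W_chain_arith (S.ag_pos u i).le (S.ag_le_one u i)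

lemma Sched.Wk_zero (u : ℕ) (i : Fin d) : S.Wk u 0 i = S.W (u + 1) i := by
  simp [Sched.Wk]

lemma Sched.Wk_succ (u k : ℕ) (i : Fin d) : S.Wk u (k + 1) i = S.Wk u k i * S.fa u i := by
  simp [Sched.Wk, pow_succ]; ring

lemma Sched.Wk_mono {u : ℕ} {k l : ℕ} (h : k ≤ l) (i : Fin d) : S.Wk u k i ≤ S.Wk u l i := by
  unfold Sched.Wk
  have h1 : 1 ≤ S.fa u i := by
    unfold Sched.fa
    linarith [S.ag_pos u i]
  have h2 : 0 < S.W (u + 1) i := by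
    linarith [S.W_half_le (u + 1) i]
  exact mul_le_mul_of_nonneg_left (pow_le_pow_right₀ h1 h) h2.le

lemma Sched.Wk_pos (u k : ℕ) (i : Fin d) : 0 < S.Wk u k i := by
  unfold Sched.Wk
  have h1 : 0 < S.fa u i := by
    unfold Sched.fa
    linarith [S.ag_pos u i]
  have h2 : 0 < S.W (u + 1) i := by
    linarith [S.W_half_le (u + 1) i]
  positivity

lemma Sched.Wk_le_one {u k : ℕ} (hk : k ≤ 6) {i : Fin d} (h : S.e i ≤ u) : S.Wk u k i ≤ 1 := by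
  exact (S.Wk_mono hk i).trans ((S.Wk_six_le h).trans (S.W_le_one u i))

/-- `ph = 1/ag`. -/
lemma Sched.ph_mul_ag (u : ℕ) (i : Fin d) : S.ph u i * S.ag u i = 1 := by
  unfold Sched.ph Sched.ag
  rw [← mul_pow]
  norm_num

lemma Sched.one_le_ph (u : ℕ) (i : Fin d) : 1 ≤ S.ph u i := by
  unfold Sched.ph
  exact one_le_pow₀ (by norm_num)

lemma Sched.om_pos (m : ℕ) (i : Fin d) : 0 < S.om m i := by
  unfold Sched.om
  split_ifs <;> positivity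

lemma Sched.one_le_om (m : ℕ) (i : Fin d) : 1 ≤ S.om m i := by
  unfold Sched.om
  split_ifs
  · exact one_le_pow₀ (by norm_num)
  · exact le_rfl

/-- Young coordinates force `Θ = 1`. -/
lemma Sched.Θ_eq_one_of_young {m : ℕ} {i : Fin d} (h1 : m ≤ S.e i + 2) (h2 : S.e i ≤ m + 2) :
    S.Θ m = 1 := by
  cases m with
  | zero => simp [Sched.Θ]
  | succ n =>
    simp only [Sched.Θ]
    rw [if_pos ⟨i, by omega, by omega⟩]

lemma Sched.Θ_succ_ge (m : ℕ) : 2 / 3 * S.Θ m ≤ S.Θ (m + 1) := by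
  have e : S.Θ (m + 1) = if ∃ i, m + 1 ≤ S.e i + 2 ∧ S.e i ≤ m + 3 then 1 else 2 / 3 * S.Θ m := rfl
  rw [e]
  split_ifs
  · linarith [S.Θ_le_one m]
  · exact le_rfl

lemma Sched.Θ_old_ge (i : Fin d) (a : ℕ) : (2 / 3 : ℝ) ^ a ≤ S.Θ (S.e i + 2 + a) := by
  induction a with
  | zero =>
    rw [S.Θ_eq_one_of_young (i := i) (by omega) (by omega)]
    simp
  | succ n ih =>
    have e : S.e i + 2 + (n + 1) = (S.e i + 2 + n) + 1 := by omega
    rw [e, pow_succ]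
    have := S.Θ_succ_ge (S.e i + 2 + n)
    linarith

/-- Scale at a rough split of level `m`. -/
lemma Sched.rough_scale {m : ℕ} {i : Fin d} (h : S.e i ≤ m + 1) :
    1 ≤ 3 * S.ag (m + 1) i * S.Θ m * S.om m i := by
  by_cases ho : S.e i + 2 ≤ m
  · obtain ⟨a, rfl⟩ : ∃ a, m = S.e i + 2 + a := ⟨m - (S.e i + 2), by omega⟩
    have h1 := S.Θ_old_ge i a
    have e1 : S.ag (S.e i + 2 + a + 1) i = (3 / 4 : ℝ) ^ 3 * (3 / 4 : ℝ) ^ a := by
      unfold Sched.ag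
      rw [show S.e i + 2 + a + 1 - S.e i = 3 + a by omega, pow_add]
    have e2 : S.om (S.e i + 2 + a) i = 2 ^ a := by
      unfold Sched.om
      rw [if_pos (by omega), show S.e i + 2 + a - 2 - S.e i = a by omega]
    rw [e1, e2]
    exact scale_arith_old (by norm_num) h1
  · have hΘ := S.Θ_eq_one_of_young (m := m) (i := i) (by omega) (by omega)
    have e2 : S.om m i = 1 := by
      unfold Sched.om
      rw [if_neg ho]
    rw [hΘ, e2]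
    unfold Sched.ag
    have h3 : m + 1 - S.e i ≤ 2 := by omega
    have h4 : (3 / 4 : ℝ) ^ 2 ≤ (3 / 4 : ℝ) ^ (m + 1 - S.e i) :=
      pow_le_pow_of_le_one (by norm_num) (by norm_num) h3
    norm_num at h4 ⊢
    linarith

/-- Scale at a re-split of level `m`. -/
lemma Sched.resplit_scale {m : ℕ} {i : Fin d} (h : S.e i ≤ m) :
    1 ≤ 3 * S.ag m i * S.Θ m * S.om m i := by
  by_cases ho : S.e i + 2 ≤ m
  · obtain ⟨a, rfl⟩ : ∃ a, m = S.e i + 2 + a := ⟨m - (S.e i + 2), by omega⟩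
    have h1 := S.Θ_old_ge i a
    have e1 : S.ag (S.e i + 2 + a) i = (3 / 4 : ℝ) ^ 2 * (3 / 4 : ℝ) ^ a := by
      unfold Sched.ag
      rw [show S.e i + 2 + a - S.e i = 2 + a by omega, pow_add]
    have e2 : S.om (S.e i + 2 + a) i = 2 ^ a := by
      unfold Sched.om
      rw [if_pos (by omega), show S.e i + 2 + a - 2 - S.e i = a by omega]
    rw [e1, e2]
    exact scale_arith_old (by norm_num) h1
  · have hΘ := S.Θ_eq_one_of_young (m := m) (i := i) (by omega) (by omega)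
    have e2 : S.om m i = 1 := by
      unfold Sched.om
      rw [if_neg ho]
    rw [hΘ, e2]
    unfold Sched.ag
    have h3 : m - S.e i ≤ 2 := by omega
    have h4 : (3 / 4 : ℝ) ^ 2 ≤ (3 / 4 : ℝ) ^ (m - S.e i) :=
      pow_le_pow_of_le_one (by norm_num) (by norm_num) h3
    norm_num at h4 ⊢
    linarith

/-- Noise ratio at a rough split of level `m`. -/
lemma Sched.rough_ph_om {m : ℕ} {i : Fin d} (h : S.e i ≤ m + 1) :
    S.ph (m + 1) i ≤ 2.4 * S.Θ m * S.om m i := by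
  by_cases ho : S.e i + 2 ≤ m
  · obtain ⟨a, rfl⟩ : ∃ a, m = S.e i + 2 + a := ⟨m - (S.e i + 2), by omega⟩
    have h1 := S.Θ_old_ge i a
    have e1 : S.ph (S.e i + 2 + a + 1) i = (4 / 3 : ℝ) ^ 3 * (4 / 3 : ℝ) ^ a := by
      unfold Sched.ph
      rw [show S.e i + 2 + a + 1 - S.e i = 3 + a by omega, pow_add]
    have e2 : S.om (S.e i + 2 + a) i = 2 ^ a := by
      unfold Sched.om
      rw [if_pos (by omega), show S.e i + 2 + a - 2 - S.e i = a by omega]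
    rw [e1, e2]
    exact ph_arith_old (by norm_num) (by norm_num) h1
  · have hΘ := S.Θ_eq_one_of_young (m := m) (i := i) (by omega) (by omega)
    have e2 : S.om m i = 1 := by
      unfold Sched.om
      rw [if_neg ho]
    rw [hΘ, e2]
    unfold Sched.ph
    have h3 : m + 1 - S.e i ≤ 2 := by omega
    have h4 : (4 / 3 : ℝ) ^ (m + 1 - S.e i) ≤ (4 / 3 : ℝ) ^ 2 :=
      pow_le_pow_right₀ (by norm_num) h3
    norm_num at h4 ⊢
    linarith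

/-- Noise ratio at a re-split of level `m`. -/
lemma Sched.resplit_ph_om {m : ℕ} {i : Fin d} (h : S.e i ≤ m) :
    S.ph m i ≤ 16 / 9 * S.Θ m * S.om m i := by
  by_cases ho : S.e i + 2 ≤ m
  · obtain ⟨a, rfl⟩ : ∃ a, m = S.e i + 2 + a := ⟨m - (S.e i + 2), by omega⟩
    have h1 := S.Θ_old_ge i a
    have e1 : S.ph (S.e i + 2 + a) i = (4 / 3 : ℝ) ^ 2 * (4 / 3 : ℝ) ^ a := by
      unfold Sched.ph
      rw [show S.e i + 2 + a - S.e i = 2 + a by omega, pow_add]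
    have e2 : S.om (S.e i + 2 + a) i = 2 ^ a := by
      unfold Sched.om
      rw [if_pos (by omega), show S.e i + 2 + a - 2 - S.e i = a by omega]
    rw [e1, e2]
    exact ph_arith_old (by norm_num) (by norm_num) h1
  · have hΘ := S.Θ_eq_one_of_young (m := m) (i := i) (by omega) (by omega)
    have e2 : S.om m i = 1 := by
      unfold Sched.om
      rw [if_neg ho]
    rw [hΘ, e2]
    unfold Sched.ph
    have h3 : m - S.e i ≤ 2 := by omega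
    have h4 : (4 / 3 : ℝ) ^ (m - S.e i) ≤ (4 / 3 : ℝ) ^ 2 :=
      pow_le_pow_right₀ (by norm_num) h3
    norm_num at h4 ⊢
    linarith

/-- The old mass at the next level. -/
lemma Sched.uu_succ_succ {V : Type} (α : V → Fin d → ℝ) (m : ℕ) (v : V) :
    S.uu α (m + 2) v = 2 * S.uu α (m + 1) v + Row α (S.C m) v := by
  unfold Sched.uu Row Sched.C
  have e1 : (univ.filter fun i => S.e i + 2 ≤ m + 2)
      = (univ.filter fun i => S.e i + 2 ≤ m + 1) ∪ (univ.filter fun i => S.e i = m) := by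
    ext i
    simp only [mem_union, mem_filter, mem_univ, true_and]
    omega
  have hd : Disjoint (univ.filter fun i => S.e i + 2 ≤ m + 1) (univ.filter fun i => S.e i = m) := by
    rw [Finset.disjoint_left]
    intro i h1 h2
    simp only [mem_filter, mem_univ, true_and] at h1 h2
    omega
  rw [e1, Finset.sum_union hd, Finset.mul_sum]
  congr 1
  · refine Finset.sum_congr rfl fun i hi => ?_
    simp only [mem_filter, mem_univ, true_and] at hi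
    rw [show m + 2 - 2 - S.e i = (m + 1 - 2 - S.e i) + 1 by omega, pow_succ]
    ring
  · refine Finset.sum_congr rfl fun i hi => ?_
    simp only [mem_filter, mem_univ, true_and] at hi
    rw [show m + 2 - 2 - S.e i = 0 by omega]
    simp

lemma Sched.uu_zero {V : Type} (α : V → Fin d → ℝ) (v : V) : S.uu α 0 v = 0 := by
  simp [Sched.uu]

lemma Sched.uu_one {V : Type} (α : V → Fin d → ℝ) (v : V) : S.uu α 1 v = 0 := by
  simp [Sched.uu]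

lemma Sched.uu_nonneg {V : Type} (α : V → Fin d → ℝ) (m : ℕ) (v : V) : 0 ≤ S.uu α m v := by
  unfold Sched.uu
  exact Finset.sum_nonneg fun i _ => by positivity

lemma Sched.uu_mono {V : Type} (α : V → Fin d → ℝ) (m : ℕ) (v : V) :
    S.uu α m v ≤ S.uu α (m + 1) v := by
  unfold Sched.uu
  have h1 : (univ.filter fun i => S.e i + 2 ≤ m) ⊆ (univ.filter fun i => S.e i + 2 ≤ m + 1) := by
    intro i hi
    simp only [mem_filter, mem_univ, true_and] at hi ⊢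
    omega
  refine (Finset.sum_le_sum fun i hi => ?_).trans
    (Finset.sum_le_sum_of_subset_of_nonneg h1 fun i _ _ => by positivity)
  simp only [mem_filter, mem_univ, true_and] at hi
  refine mul_le_mul_of_nonneg_right ?_ (sq_nonneg _)
  exact pow_le_pow_right₀ (by norm_num) (by omega)

/-- Mass of a light element in the light sum form. -/
lemma Sched.light_ph_le {V : Type} (α : V → Fin d → ℝ) (hα : ∀ v, ∑ i, α v i ^ 2 ≤ 1) {m : ℕ} {v : V}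
    (h : S.uu α m v ≤ 1) : ∑ i ∈ S.U (m + 1), S.ph (m + 1) i * α v i ^ 2 ≤ 5 * S.Θ m := by
  have hΘ := S.Θ_pos m
  have hterm : ∀ i ∈ S.U (m + 1), S.ph (m + 1) i * α v i ^ 2
      ≤ 2.4 * S.Θ m * ((if S.e i + 2 ≤ m then (2 : ℝ) ^ (m - 2 - S.e i) * α v i ^ 2 else 0) + α v i ^ 2) := by
    intro i hi
    have h1 := S.rough_ph_om (S.mem_U.1 hi)
    have h2 : S.ph (m + 1) i * α v i ^ 2 ≤ 2.4 * S.Θ m * S.om m i * α v i ^ 2 :=
      mul_le_mul_of_nonneg_right h1 (sq_nonneg _)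
    refine h2.trans ?_
    rw [mul_assoc]
    refine mul_le_mul_of_nonneg_left ?_ (by positivity)
    unfold Sched.om
    split_ifs
    · nlinarith [sq_nonneg (α v i)]
    · linarith
  calc ∑ i ∈ S.U (m + 1), S.ph (m + 1) i * α v i ^ 2
      ≤ ∑ i ∈ S.U (m + 1), 2.4 * S.Θ m * ((if S.e i + 2 ≤ m then (2 : ℝ) ^ (m - 2 - S.e i) * α v i ^ 2 else 0) + α v i ^ 2) :=
        Finset.sum_le_sum hterm
    _ ≤ ∑ i, 2.4 * S.Θ m * ((if S.e i + 2 ≤ m then (2 : ℝ) ^ (m - 2 - S.e i) * α v i ^ 2 else 0) + α v i ^ 2) := by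
        refine Finset.sum_le_sum_of_subset_of_nonneg (Finset.subset_univ _) fun i _ _ => ?_
        refine mul_nonneg (by positivity) ?_
        split_ifs <;> positivity
    _ = 2.4 * S.Θ m * (S.uu α m v + ∑ i, α v i ^ 2) := by
        rw [← Finset.mul_sum, Finset.sum_add_distrib]
        congr 2
        unfold Sched.uu
        rw [Finset.sum_filter]
    _ ≤ 2.4 * S.Θ m * (1 + 1) := by
        refine mul_le_mul_of_nonneg_left ?_ (by positivity)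
        linarith [hα v]
    _ ≤ 5 * S.Θ m := by nlinarith

lemma Sched.K_pos (m : ℕ) : (0 : ℝ) < (S.K m : ℝ) := by
  unfold Sched.K
  positivity

lemma Sched.sqrt_j_ge (m : ℕ) : (5.6 : ℝ) ≤ √(S.j m : ℝ) := by
  apply Real.le_sqrt_of_sq_le
  have := S.j_ge m
  norm_num
  linarith

lemma Sched.Mb1_nonneg (m : ℕ) : 0 ≤ S.Mb1 m := by
  have h0 : ∀ n, 0 ≤ ∑ i ∈ S.C n, S.q i n ^ 4 := fun n => Finset.sum_nonneg fun i _ => by positivity
  cases m with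
  | zero =>
    have e : S.Mb1 0 = 3 * ∑ i ∈ S.C 0, S.q i 0 ^ 4 := rfl
    rw [e]
    linarith [h0 0]
  | succ k =>
    have e : S.Mb1 (k + 1) = 3 * (∑ i ∈ S.C (k + 1), S.q i (k + 1) ^ 4) + 1000 * √(S.j k : ℝ) := rfl
    rw [e]
    have := Real.sqrt_nonneg (S.j k : ℝ)
    linarith [h0 (k + 1)]

/-- The quantity which dominates everything at the next level. -/
lemma Sched.A_facts (m : ℕ) :
    (1048576 : ℝ) ≤ (S.j m : ℝ) ^ 4 * (((S.C m).card : ℝ) + 1) ∧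
      (S.j m : ℝ) ≤ (S.j m : ℝ) ^ 4 * (((S.C m).card : ℝ) + 1) ∧
      (S.j m : ℝ) ^ 8 * ((S.C m).card : ℝ) ≤ ((S.j m : ℝ) ^ 4 * (((S.C m).card : ℝ) + 1)) ^ 2 ∧
      ((S.j m : ℝ) ^ 4 * (((S.C m).card : ℝ) + 1)) ^ 4 ≤ (S.K (m + 1) : ℝ) := by
  have hj := S.j_ge m
  have hc : (0 : ℝ) ≤ ((S.C m).card : ℝ) := by positivity
  have h4 : (32 : ℝ) ^ 4 ≤ (S.j m : ℝ) ^ 4 := pow_le_pow_left₀ (by norm_num) hj 4
  have h5 : (S.j m : ℝ) ≤ (S.j m : ℝ) ^ 4 := by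
    have h6 : (1 : ℝ) ≤ (S.j m : ℝ) ^ 3 := one_le_pow₀ (by linarith)
    nlinarith
  have h7 : (S.j m : ℝ) ^ 4 ≤ (S.j m : ℝ) ^ 4 * (((S.C m).card : ℝ) + 1) := by
    have : 0 ≤ (S.j m : ℝ) ^ 4 := by positivity
    nlinarith
  refine ⟨by norm_num at h4; linarith, h5.trans h7, ?_, ?_⟩
  · have e : ((S.j m : ℝ) ^ 4 * (((S.C m).card : ℝ) + 1)) ^ 2
        = (S.j m : ℝ) ^ 8 * (((S.C m).card : ℝ) + 1) ^ 2 := by ring
    rw [e]
    refine mul_le_mul_of_nonneg_left ?_ (by positivity)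
    nlinarith
  · have h := S.hforced m
    have h8 : (S.K (m + 1) : ℝ) = (2 ^ S.j (m + 1) : ℝ) ^ 4 := by
      unfold Sched.K
      push_cast
      rw [show (16 : ℝ) = 2 ^ 4 by norm_num, ← pow_mul, ← pow_mul, mul_comm]
    rw [h8]
    exact pow_le_pow_left₀ (by positivity) h 4

lemma Sched.sum_C_le (m : ℕ) :
    ∑ i ∈ S.C m, S.q i m ^ 4 ≤ ((S.C m).card : ℝ) * ((S.K m : ℝ) * (S.j m : ℝ) ^ 8) := by
  have h : ∀ i ∈ S.C m, S.q i m ^ 4 ≤ (S.K m : ℝ) * (S.j m : ℝ) ^ 8 :=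
    fun i hi => (S.q_pow4_lt hi).le
  have := Finset.sum_le_card_nsmul _ _ _ h
  simpa using this

/-- The mass bound relative to the number of pieces. -/
lemma Sched.Mb1_div (m : ℕ) :
    S.Mb1 m / (S.K m : ℝ) ≤ 3 * (((S.C m).card : ℝ) * (S.j m : ℝ) ^ 8) + 1000 := by
  have hK := S.K_pos m
  rw [div_le_iff₀ hK]
  have h1 := S.sum_C_le m
  have hc : (0 : ℝ) ≤ ((S.C m).card : ℝ) * (S.j m : ℝ) ^ 8 := by positivity
  cases m with
  | zero =>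
    have e : S.Mb1 0 = 3 * ∑ i ∈ S.C 0, S.q i 0 ^ 4 := rfl
    rw [e]
    nlinarith
  | succ k =>
    have e : S.Mb1 (k + 1) = 3 * (∑ i ∈ S.C (k + 1), S.q i (k + 1) ^ 4) + 1000 * √(S.j k : ℝ) := rfl
    rw [e]
    obtain ⟨hA, hjA, -, hAK⟩ := S.A_facts k
    have hA1 : (1 : ℝ) ≤ (S.j k : ℝ) ^ 4 * (((S.C k).card : ℝ) + 1) := by linarith
    have hs : √(S.j k : ℝ) ≤ (S.j k : ℝ) := Real_sqrt_le_self' (S.j_ge k)
    have h2 : (S.j k : ℝ) ^ 4 * (((S.C k).card : ℝ) + 1)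
        ≤ ((S.j k : ℝ) ^ 4 * (((S.C k).card : ℝ) + 1)) ^ 4 := by
      have := one_le_pow₀ (n := 3) hA1
      nlinarith
    have h3 : √(S.j k : ℝ) ≤ (S.K (k + 1) : ℝ) := by linarith
    nlinarith

lemma Sched.NK_arith (k : ℕ) :
    720 * √(S.j k : ℝ) + 2 * (720 * √(S.j k : ℝ))
        + (1.01 * S.Mb1 k / (S.K k : ℝ) + 1000 * √(S.j k : ℝ)) ≤ 2 * (S.K (k + 1) : ℝ) := by
  obtain ⟨hA, hjA, hA2, hAK⟩ := S.A_facts k
  obtain ⟨A, hAd⟩ : ∃ A, A = (S.j k : ℝ) ^ 4 * (((S.C k).card : ℝ) + 1) := ⟨_, rfl⟩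
  rw [← hAd] at hA hjA hA2 hAK
  have hs : √(S.j k : ℝ) ≤ (S.j k : ℝ) := Real_sqrt_le_self' (S.j_ge k)
  have hX := S.Mb1_div k
  have e : 1.01 * S.Mb1 k / (S.K k : ℝ) = 1.01 * (S.Mb1 k / (S.K k : ℝ)) := by ring
  rw [e]
  have h1 : A ^ 2 ≤ A ^ 4 := pow_le_pow_right₀ (by linarith) (by norm_num)
  have h2 : 1048576 * A ≤ A ^ 2 := by nlinarith
  have h3 : 1048576 * A ^ 2 ≤ A ^ 4 := by
    have : A ^ 4 = A ^ 2 * A ^ 2 := by ring
    rw [this]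
    have : (1048576 : ℝ) ≤ A ^ 2 := by nlinarith
    nlinarith [sq_nonneg A]
  have h4 : 0 ≤ A ^ 2 := sq_nonneg A
  nlinarith

lemma Sched.Mb2_small_arith (m : ℕ) :
    1000 * (1.02 * (S.Mb1 m / (S.K m : ℝ) + 1 + 330 * √(S.j m : ℝ)) + 340 * √(S.j m : ℝ) + 303)
      ≤ S.b (m + 1) ^ 2 := by
  obtain ⟨hA, hjA, hA2, -⟩ := S.A_facts m
  have hb := S.b_succ_ge m
  have hX := S.Mb1_div m
  obtain ⟨A, hAd⟩ : ∃ A, A = (S.j m : ℝ) ^ 4 * (((S.C m).card : ℝ) + 1) := ⟨_, rfl⟩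
  rw [← hAd] at hA hjA hA2 hb
  have hs : √(S.j m : ℝ) ≤ (S.j m : ℝ) := Real_sqrt_le_self' (S.j_ge m)
  have hb2 : (A * 1024) ^ 2 ≤ S.b (m + 1) ^ 2 := pow_le_pow_left₀ (by positivity) hb 2
  have h2 : 1048576 * A ≤ A ^ 2 := by nlinarith
  have h3 : 0 ≤ A ^ 2 := sq_nonneg A
  have e : (A * 1024) ^ 2 = 1048576 * A ^ 2 := by ring
  rw [e] at hb2
  nlinarith

/-- Numeric facts used by the rough split. -/
lemma Sched.NK (m : ℕ) : (S.Nb m + 2 * S.Nb m + S.Mb2 m) / (S.K m : ℝ) ≤ 2 := by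
  cases m with
  | zero =>
    have h1 : S.Nb 0 = 0 := rfl
    have h2 : S.Mb2 0 = 0 := rfl
    rw [h1, h2]
    norm_num
  | succ k =>
    have hK := S.K_pos (k + 1)
    rw [div_le_iff₀ hK]
    have h1 : S.Nb (k + 1) = 720 * √(S.j k : ℝ) := rfl
    have h2 : S.Mb2 (k + 1) = 1.01 * S.Mb1 k / (S.K k : ℝ) + 1000 * √(S.j k : ℝ) := rfl
    rw [h1, h2]
    exact S.NK_arith k

/-- Numeric facts used by the re-split. -/
lemma Sched.Nb_small (m : ℕ) : 1000 * (S.Nb (m + 1) + 1000) ≤ S.b (m + 1) := by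
  have h1 : S.Nb (m + 1) = 720 * √(S.j m : ℝ) := rfl
  rw [h1]
  have h2 := S.b_succ_ge m
  have hj := S.j_ge m
  have h3 := Real_sqrt_le_self' hj
  have hc : (0 : ℝ) ≤ ((S.C m).card : ℝ) := by positivity
  have h4 : (S.j m : ℝ) ^ 4 * 1024 ≤ (S.j m : ℝ) ^ 4 * (((S.C m).card : ℝ) + 1) * 1024 := by
    have : 0 ≤ (S.j m : ℝ) ^ 4 := by positivity
    nlinarith
  have h5 : (32 : ℝ) ^ 3 * (S.j m : ℝ) ≤ (S.j m : ℝ) ^ 4 := by
    have : (32 : ℝ) ^ 3 ≤ (S.j m : ℝ) ^ 3 := pow_le_pow_left₀ (by norm_num) hj 3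
    nlinarith
  nlinarith

lemma Sched.Mb2_small (m : ℕ) :
    1000 * (1.02 * S.M2R m + S.NbR (m + 1) + 303) ≤ S.b (m + 1) ^ 2 := by
  have h1 : S.NbR (m + 1) = 340 * √(S.j m : ℝ) := rfl
  have h2 : S.M2R m = S.Mb1 m / (S.K m : ℝ) + 1 + 330 * √(S.j m : ℝ) := rfl
  rw [h1, h2]
  exact S.Mb2_small_arith m

lemma Sched.M1R_chain (m : ℕ) :
    1.001 * (1.001 * S.M1R m + S.NbR (m + 1) / 2 + 151) + S.NbR (m + 1) / 2 + 151 ≤ S.Mb1 (m + 1) := by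
  have h1 : S.NbR (m + 1) = 340 * √(S.j m : ℝ) := rfl
  have h2 : S.M1R m = 2 * (∑ i ∈ S.C (m + 1), S.q i (m + 1) ^ 4) + 1 + 330 * √(S.j m : ℝ) := rfl
  have h3 : S.Mb1 (m + 1) = 3 * (∑ i ∈ S.C (m + 1), S.q i (m + 1) ^ 4) + 1000 * √(S.j m : ℝ) := rfl
  rw [h1, h2, h3]
  have hs := S.sqrt_j_ge m
  have hS : 0 ≤ ∑ i ∈ S.C (m + 1), S.q i (m + 1) ^ 4 := Finset.sum_nonneg fun i _ => by positivity
  nlinarith

lemma Sched.M2R_chain (m : ℕ) :
    1.001 * (1.001 * S.M2R m + S.NbR (m + 1) / 2 + 151) + S.NbR (m + 1) / 2 + 151 ≤ S.Mb2 (m + 1) := by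
  have h1 : S.NbR (m + 1) = 340 * √(S.j m : ℝ) := rfl
  have h2 : S.M2R m = S.Mb1 m / (S.K m : ℝ) + 1 + 330 * √(S.j m : ℝ) := rfl
  have h3 : S.Mb2 (m + 1) = 1.01 * S.Mb1 m / (S.K m : ℝ) + 1000 * √(S.j m : ℝ) := rfl
  rw [h1, h2, h3]
  have hs := S.sqrt_j_ge m
  have hM : 0 ≤ S.Mb1 m / (S.K m : ℝ) := div_nonneg (S.Mb1_nonneg m) (S.K_pos m).le
  have e : 1.01 * S.Mb1 m / (S.K m : ℝ) = 1.01 * (S.Mb1 m / (S.K m : ℝ)) := by ring
  rw [e]
  nlinarith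

lemma Sched.NbR_le (m : ℕ) : S.NbR (m + 1) + 302 ≤ S.Nb (m + 1) := by
  have h1 : S.NbR (m + 1) = 340 * √(S.j m : ℝ) := rfl
  have h2 : S.Nb (m + 1) = 720 * √(S.j m : ℝ) := rfl
  rw [h1, h2]
  have hs := S.sqrt_j_ge m
  linarith

end Vale.Agent.P262S
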