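import Vale.Agent.P262S.Basic

/-! # The sum of all budget increments (notes/P262_sqrtd.md, section 5). -/

open Finset

namespace Vale.Agent.P262S

variable {d : ℕ} (S : Sched d)

/-! ## Elementary sums -/

lemma sum_window (e M : ℕ) :
    ∑ m ∈ range M, (if m + 1 ≤ e + 2 ∧ e ≤ m + 3 then (1 : ℝ) else 0) ≤ 5 := by
  rw [← Finset.sum_filter, Finset.sum_const, nsmul_eq_mul, mul_one]
  have hs : ((range M).filter fun m => m + 1 ≤ e + 2 ∧ e ≤ m + 3) ⊆ Finset.Icc (e - 3) (e + 1) := by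
    intro m hm
    simp only [mem_filter, mem_range, mem_Icc] at hm ⊢
    omega
  have h2 := Finset.card_le_card hs
  rw [Nat.card_Icc] at h2
  have h3 : ((range M).filter fun m => m + 1 ≤ e + 2 ∧ e ≤ m + 3).card ≤ 5 := by omega
  exact_mod_cast h3

lemma Θ_step (m : ℕ) :
    S.Θ (m + 1) ≤ ∑ i, (if m + 1 ≤ S.e i + 2 ∧ S.e i ≤ m + 3 then (1 : ℝ) else 0)
      + 2 / 3 * S.Θ m := by
  have hpos := S.Θ_pos m
  have hnn : ∀ i, (0 : ℝ) ≤ (if m + 1 ≤ S.e i + 2 ∧ S.e i ≤ m + 3 then (1 : ℝ) else 0) := by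
    intro i
    split_ifs <;> norm_num
  by_cases h : ∃ i, m + 1 ≤ S.e i + 2 ∧ S.e i ≤ m + 3
  · obtain ⟨i, hi⟩ := h
    have h1 : S.Θ (m + 1) = 1 := by
      simp only [Sched.Θ]
      rw [if_pos ⟨i, hi⟩]
    have h2 : (1 : ℝ) ≤ ∑ i, (if m + 1 ≤ S.e i + 2 ∧ S.e i ≤ m + 3 then (1 : ℝ) else 0) := by
      have := Finset.single_le_sum (f := fun i => (if m + 1 ≤ S.e i + 2 ∧ S.e i ≤ m + 3 then
        (1 : ℝ) else 0)) (fun i _ => hnn i) (Finset.mem_univ i)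
      simpa [hi] using this
    rw [h1]
    linarith
  · have h1 : S.Θ (m + 1) = 2 / 3 * S.Θ m := by
      simp only [Sched.Θ]
      rw [if_neg h]
    have h2 : (0 : ℝ) ≤ ∑ i, (if m + 1 ≤ S.e i + 2 ∧ S.e i ≤ m + 3 then (1 : ℝ) else 0) :=
      Finset.sum_nonneg fun i _ => hnn i
    rw [h1]
    linarith

/-- The sum of all scales. -/
lemma sum_Θ_succ (M : ℕ) : ∑ m ∈ range (M + 1), S.Θ m ≤ 15 * ((d : ℝ) + 1) := by
  have h1 : ∑ m ∈ range (M + 1), S.Θ m = ∑ m ∈ range M, S.Θ (m + 1) + S.Θ 0 :=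
    Finset.sum_range_succ' _ _
  have h0 : S.Θ 0 = 1 := by simp [Sched.Θ]
  have h2 : ∑ m ∈ range M, S.Θ (m + 1)
      ≤ ∑ m ∈ range M, ∑ i, (if m + 1 ≤ S.e i + 2 ∧ S.e i ≤ m + 3 then (1 : ℝ) else 0)
        + 2 / 3 * ∑ m ∈ range M, S.Θ m := by
    rw [Finset.mul_sum, ← Finset.sum_add_distrib]
    exact Finset.sum_le_sum fun m _ => Θ_step S m
  have h3 : ∑ m ∈ range M, ∑ i, (if m + 1 ≤ S.e i + 2 ∧ S.e i ≤ m + 3 then (1 : ℝ) else 0)
      ≤ 5 * d := by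
    rw [Finset.sum_comm]
    calc ∑ i : Fin d, ∑ m ∈ range M, (if m + 1 ≤ S.e i + 2 ∧ S.e i ≤ m + 3 then (1 : ℝ) else 0)
        ≤ ∑ _i : Fin d, (5 : ℝ) := Finset.sum_le_sum fun i _ => sum_window _ _
      _ = 5 * d := by simp; ring
  have h4 : ∑ m ∈ range M, S.Θ m ≤ ∑ m ∈ range (M + 1), S.Θ m := by
    rw [Finset.sum_range_succ]
    linarith [S.Θ_pos M]
  rw [h1, h0] at *
  nlinarith

lemma sum_Θ (M : ℕ) : ∑ m ∈ range M, S.Θ m ≤ 15 * ((d : ℝ) + 1) := by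
  refine le_trans ?_ (sum_Θ_succ S M)
  rw [Finset.sum_range_succ]
  linarith [S.Θ_pos M]

lemma sum_Θ_shift (M : ℕ) : ∑ m ∈ range M, S.Θ (m + 1) ≤ 15 * ((d : ℝ) + 1) := by
  refine le_trans ?_ (sum_Θ_succ S M)
  rw [Finset.sum_range_succ']
  linarith [S.Θ_pos 0]

/-- Classes are disjoint. -/
lemma sum_C_card (t M : ℕ) : ∑ m ∈ range M, ((S.C (m + t)).card : ℝ) ≤ d := by
  have e1 : ∀ x, ((S.C x).card : ℝ) = ∑ i : Fin d, (if S.e i = x then (1 : ℝ) else 0) := by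
    intro x
    unfold Sched.C
    rw [Finset.card_filter]
    push_cast
    rfl
  simp only [e1]
  rw [Finset.sum_comm]
  calc ∑ i : Fin d, ∑ m ∈ range M, (if S.e i = m + t then (1 : ℝ) else 0)
      ≤ ∑ _i : Fin d, (1 : ℝ) := by
        refine Finset.sum_le_sum fun i _ => ?_
        rw [← Finset.sum_filter, Finset.sum_const, nsmul_eq_mul, mul_one]
        have : ((range M).filter fun m => S.e i = m + t).card ≤ 1 := by
          rw [Finset.card_le_one]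
          intro a ha b hb
          simp only [mem_filter] at ha hb
          omega
        exact_mod_cast this
    _ = d := by simp

lemma ind_le_card (x : ℕ) : (if (S.C x).Nonempty then (1 : ℝ) else 0) ≤ ((S.C x).card : ℝ) := by
  split_ifs with h
  · exact_mod_cast Finset.card_pos.mpr h
  · positivity

/-- Geometric sum. -/
lemma sum_geom (e t M : ℕ) :
    ∑ m ∈ range M, (if e ≤ m + t then (2 / 3 : ℝ) ^ (m + t - e) else 0)
      ≤ 3 - 3 * (2 / 3 : ℝ) ^ (M + t - e) := by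
  induction M with
  | zero =>
    have : (2 / 3 : ℝ) ^ (0 + t - e) ≤ 1 := pow_le_one₀ (by norm_num) (by norm_num)
    simp only [range_zero, sum_empty]
    linarith
  | succ M ih =>
    rw [Finset.sum_range_succ]
    by_cases h : e ≤ M + t
    · rw [if_pos h]
      have e2 : M + 1 + t - e = (M + t - e) + 1 := by omega
      rw [e2, pow_succ]
      linarith
    · rw [if_neg h]
      have e1 : M + t - e = 0 := by omega
      have e2 : M + 1 + t - e ≤ 1 := by omega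
      rw [e1] at ih
      have h3 : (2 / 3 : ℝ) ^ (M + 1 + t - e) ≤ 1 := pow_le_one₀ (by norm_num) (by norm_num)
      simp only [pow_zero] at ih
      linarith

lemma sum_geom_le (e t M : ℕ) :
    ∑ m ∈ range M, (if e ≤ m + t then (2 / 3 : ℝ) ^ (m + t - e) else 0) ≤ 3 := by
  have := sum_geom e t M
  have h : (0 : ℝ) ≤ (2 / 3 : ℝ) ^ (M + t - e) := by positivity
  linarith

/-! ## The noise sums -/

lemma ph_div_om_w (m : ℕ) (i : Fin d) (h : S.e i ≤ m + 1) :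
    S.ph (m + 1) i / S.om m i ≤ 8 * (2 / 3 : ℝ) ^ (m + 1 - S.e i) := by
  unfold Sched.ph Sched.om
  by_cases h2 : S.e i + 2 ≤ m
  · rw [if_pos h2]
    obtain ⟨b, hb⟩ : ∃ b, m - 2 - S.e i = b := ⟨_, rfl⟩
    have e1 : m + 1 - S.e i = b + 3 := by omega
    rw [hb, e1]
    have e2 : (4 / 3 : ℝ) ^ b = (2 / 3) ^ b * 2 ^ b := by
      rw [← mul_pow]; norm_num
    rw [pow_add, pow_add, e2]
    have hp : (0 : ℝ) < 2 ^ b := by positivity
    apply le_of_eq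
    field_simp
    norm_num
  · rw [if_neg h2, div_one]
    have ha : m + 1 - S.e i ≤ 2 := by omega
    obtain ⟨a, hb⟩ : ∃ a, m + 1 - S.e i = a := ⟨_, rfl⟩
    rw [hb] at ha ⊢
    interval_cases a <;> norm_num

lemma ph_div_om_x (m : ℕ) (i : Fin d) (h : S.e i ≤ m) :
    S.ph m i / S.om m i ≤ 4 * (2 / 3 : ℝ) ^ (m - S.e i) := by
  unfold Sched.ph Sched.om
  by_cases h2 : S.e i + 2 ≤ m
  · rw [if_pos h2]
    obtain ⟨b, hb⟩ : ∃ b, m - 2 - S.e i = b := ⟨_, rfl⟩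
    have e1 : m - S.e i = b + 2 := by omega
    rw [hb, e1]
    have e2 : (4 / 3 : ℝ) ^ b = (2 / 3) ^ b * 2 ^ b := by
      rw [← mul_pow]; norm_num
    rw [pow_add, pow_add, e2]
    have hp : (0 : ℝ) < 2 ^ b := by positivity
    apply le_of_eq
    field_simp
    norm_num
  · rw [if_neg h2, div_one]
    have ha : m - S.e i ≤ 1 := by omega
    obtain ⟨a, hb⟩ : ∃ a, m - S.e i = a := ⟨_, rfl⟩
    rw [hb] at ha ⊢
    interval_cases a <;> norm_num

lemma Vw_nonneg (m : ℕ) : 0 ≤ S.Vw m := by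
  unfold Sched.Vw
  refine Finset.sum_nonneg fun i _ => div_nonneg ?_ (S.om_pos m i).le
  linarith [S.one_le_ph (m + 1) i]

lemma Vx_nonneg (m : ℕ) : 0 ≤ S.Vx m := by
  unfold Sched.Vx
  refine Finset.sum_nonneg fun i _ => div_nonneg ?_ (S.om_pos m i).le
  linarith [S.one_le_ph m i]

lemma sum_Vw (M : ℕ) : ∑ m ∈ range M, S.Vw m ≤ 24 * d := by
  have h1 : ∀ m, S.Vw m ≤ ∑ i : Fin d, 8 * (if S.e i ≤ m + 1 then
      (2 / 3 : ℝ) ^ (m + 1 - S.e i) else 0) := by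
    intro m
    unfold Sched.Vw Sched.U
    rw [Finset.sum_filter]
    refine Finset.sum_le_sum fun i _ => ?_
    split_ifs with h
    · exact ph_div_om_w S m i h
    · simp
  calc ∑ m ∈ range M, S.Vw m
      ≤ ∑ m ∈ range M, ∑ i : Fin d, 8 * (if S.e i ≤ m + 1 then
          (2 / 3 : ℝ) ^ (m + 1 - S.e i) else 0) := Finset.sum_le_sum fun m _ => h1 m
    _ = ∑ i : Fin d, 8 * ∑ m ∈ range M, (if S.e i ≤ m + 1 then
          (2 / 3 : ℝ) ^ (m + 1 - S.e i) else 0) := by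
        rw [Finset.sum_comm]
        refine Finset.sum_congr rfl fun i _ => ?_
        rw [Finset.mul_sum]
    _ ≤ ∑ _i : Fin d, 8 * (3 : ℝ) := by
        refine Finset.sum_le_sum fun i _ => ?_
        have := sum_geom_le (S.e i) 1 M
        linarith
    _ = 24 * d := by simp; ring

lemma sum_Vx (M : ℕ) : ∑ m ∈ range M, S.Vx m ≤ 12 * d := by
  have h1 : ∀ m, S.Vx m ≤ ∑ i : Fin d, 4 * (if S.e i ≤ m + 0 then
      (2 / 3 : ℝ) ^ (m + 0 - S.e i) else 0) := by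
    intro m
    unfold Sched.Vx Sched.U
    rw [Finset.sum_filter]
    refine Finset.sum_le_sum fun i _ => ?_
    simp only [add_zero]
    split_ifs with h
    · exact ph_div_om_x S m i h
    · simp
  calc ∑ m ∈ range M, S.Vx m
      ≤ ∑ m ∈ range M, ∑ i : Fin d, 4 * (if S.e i ≤ m + 0 then
          (2 / 3 : ℝ) ^ (m + 0 - S.e i) else 0) := Finset.sum_le_sum fun m _ => h1 m
    _ = ∑ i : Fin d, 4 * ∑ m ∈ range M, (if S.e i ≤ m + 0 then
          (2 / 3 : ℝ) ^ (m + 0 - S.e i) else 0) := by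
        rw [Finset.sum_comm]
        refine Finset.sum_congr rfl fun i _ => ?_
        rw [Finset.mul_sum]
    _ ≤ ∑ _i : Fin d, 4 * (3 : ℝ) := by
        refine Finset.sum_le_sum fun i _ => ?_
        have := sum_geom_le (S.e i) 0 M
        linarith
    _ = 12 * d := by simp; ring

lemma sum_Vx_shift (M : ℕ) : ∑ m ∈ range M, S.Vx (m + 1) ≤ 12 * d := by
  refine le_trans ?_ (sum_Vx S (M + 1))
  rw [Finset.sum_range_succ']
  linarith [Vx_nonneg S 0]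

/-! ## Sizes -/

lemma Nb_nonneg (m : ℕ) : 0 ≤ S.Nb m := by
  cases m with
  | zero => simp [Sched.Nb]
  | succ m => simp only [Sched.Nb]; positivity

lemma NbR_nonneg (m : ℕ) : 0 ≤ S.NbR m := by
  cases m with
  | zero => simp [Sched.NbR]
  | succ m => simp only [Sched.NbR]; positivity

lemma NbR_sq (m : ℕ) : S.NbR (m + 1) ^ 2 = 115600 * (S.j m : ℝ) := by
  simp only [Sched.NbR]
  rw [mul_pow, Real.sq_sqrt (by positivity)]
  norm_num

lemma sqrt_j_le (m : ℕ) : √(S.j m : ℝ) ≤ (S.j m : ℝ) :=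
  Real.sqrt_le_iff.mpr ⟨by positivity, by nlinarith [S.j_ge m]⟩

lemma NbR_le_j (m : ℕ) : S.NbR (m + 1) ≤ 340 * (S.j m : ℝ) := by
  simp only [Sched.NbR]
  linarith [sqrt_j_le S m]

lemma Nb_le_j (m : ℕ) : S.Nb (m + 1) ≤ 720 * (S.j m : ℝ) := by
  simp only [Sched.Nb]
  linarith [sqrt_j_le S m]

lemma K_ge (m : ℕ) : (16 : ℝ) ^ 32 ≤ (S.K m : ℝ) := by
  unfold Sched.K
  push_cast
  exact pow_le_pow_right₀ (by norm_num) (S.hj m)

/-- `4 / K²` is tiny. -/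
lemma K_tiny (m : ℕ) : 4 / (S.K m : ℝ) ^ 2 ≤ 1 / 10 ^ 4 := by
  have h1 := K_ge S m
  have h2 : (0 : ℝ) < (16 : ℝ) ^ 32 := by positivity
  have h3 : (0 : ℝ) < (S.K m : ℝ) := by linarith
  rw [div_le_div_iff₀ (by positivity) (by positivity)]
  have h4 : (16 : ℝ) ^ 32 ≤ (S.K m : ℝ) ^ 2 := by nlinarith
  have h5 : (4 * 10 ^ 4 : ℝ) ≤ (16 : ℝ) ^ 32 := by norm_num
  linarith

/-- The two products with a scale. -/
lemma Θ_j_le (m : ℕ) : S.Θ m * (S.j m : ℝ) ≤ 32 * S.Θ m + ((S.j m : ℝ) - 32) := by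
  have h1 := S.Θ_le_one m
  have h2 := S.j_ge m
  nlinarith

lemma Θ_succ_j_le (m : ℕ) : S.Θ (m + 1) * (S.j m : ℝ) ≤ 32 * S.Θ (m + 1) + ((S.j m : ℝ) - 32) := by
  have h1 := S.Θ_le_one (m + 1)
  have h2 := S.j_ge m
  nlinarith

lemma sum_P_nonneg (m : ℕ) : 0 ≤ (S.j m : ℝ) - 32 := by linarith [S.j_ge m]

lemma sum_Θ_Nb (M : ℕ) :
    ∑ m ∈ range M, S.Θ m * S.Nb m ≤ 720 * (32 * (15 * ((d : ℝ) + 1)) + 8 * d) := by
  cases M with
  | zero =>
    simp only [range_zero, sum_empty]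
    positivity
  | succ M =>
    rw [Finset.sum_range_succ']
    have h0 : S.Nb 0 = 0 := by simp [Sched.Nb]
    rw [h0, mul_zero, add_zero]
    have h1 : ∀ m, S.Θ (m + 1) * S.Nb (m + 1) ≤ 720 * (32 * S.Θ (m + 1) + ((S.j m : ℝ) - 32)) := by
      intro m
      have h2 := Nb_le_j S m
      have h3 := S.Θ_pos (m + 1)
      have h4 := Θ_succ_j_le S m
      nlinarith
    calc ∑ m ∈ range M, S.Θ (m + 1) * S.Nb (m + 1)
        ≤ ∑ m ∈ range M, 720 * (32 * S.Θ (m + 1) + ((S.j m : ℝ) - 32)) :=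
          Finset.sum_le_sum fun m _ => h1 m
      _ = 720 * (32 * ∑ m ∈ range M, S.Θ (m + 1) + ∑ m ∈ range M, ((S.j m : ℝ) - 32)) := by
          rw [← Finset.mul_sum, Finset.mul_sum (a := (32 : ℝ)), ← Finset.sum_add_distrib]
      _ ≤ _ := by
          have h5 := sum_Θ_shift S M
          have h6 := S.hsum M
          nlinarith

lemma SPb_nonneg (m : ℕ) : 0 ≤ S.SPb m := by
  unfold Sched.SPb
  have h1 := S.Θ_pos m
  have h2 : (0 : ℝ) ≤ if m ≠ 0 ∧ (S.C (m - 1)).Nonempty then 1 / 10 ^ 4 else 0 := by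
    split_ifs <;> positivity
  positivity

lemma SPb_succ_le (m : ℕ) :
    S.SPb (m + 1) ≤ ((S.C (m + 1)).card : ℝ) / 10 ^ 6 + ((S.C m).card : ℝ) / 10 ^ 4
      + S.Θ (m + 1) / 10 ^ 6 := by
  unfold Sched.SPb
  have h := ind_le_card S m
  simp only [Nat.add_sub_cancel, ne_eq, Nat.add_eq_zero_iff, one_ne_zero, and_false,
    not_false_eq_true, true_and]
  have h2 : (if (S.C m).Nonempty then (1 : ℝ) / 10 ^ 4 else 0) ≤ ((S.C m).card : ℝ) / 10 ^ 4 := by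
    split_ifs with hn
    · have : (1 : ℝ) ≤ ((S.C m).card : ℝ) := by exact_mod_cast Finset.card_pos.mpr hn
      linarith
    · positivity
  linarith

lemma Q2b_nonneg (m : ℕ) : 0 ≤ S.Q2b m := by
  unfold Sched.Q2b
  split_ifs <;> positivity

lemma Q2b_succ_le (m : ℕ) : S.Q2b (m + 1) ≤ 22400 * ((S.C (m + 2)).card : ℝ) := by
  unfold Sched.Q2b
  split_ifs with h
  · have : (1 : ℝ) ≤ ((S.C (m + 1 + 1)).card : ℝ) := by exact_mod_cast Finset.card_pos.mpr h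
    linarith
  · positivity

lemma LNw_nonneg (m : ℕ) : 0 ≤ S.LNw m := by
  unfold Sched.LNw
  have h1 := S.Θ_pos m
  have h2 := Vw_nonneg S m
  positivity

lemma LNr_nonneg (m : ℕ) : 0 ≤ S.LNr m := by
  unfold Sched.LNr
  have h1 := S.Θ_pos m
  have h2 := Vx_nonneg S m
  positivity

lemma LFr_nonneg {P : ℝ} (hP : 0 ≤ P) (m : ℕ) : 0 ≤ S.LFr P m := by
  unfold Sched.LFr
  have h1 := S.Θ_pos m
  have h2 := LNw_nonneg S m
  positivity

lemma LFs_nonneg {L : ℝ} (hL : 0 ≤ L) (m : ℕ) : 0 ≤ S.LFs L m := by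
  unfold Sched.LFs
  have h1 := SPb_nonneg S m
  have h2 := LNr_nonneg S m
  positivity

lemma LFb_nonneg (m : ℕ) : 0 ≤ S.LFb m := by
  induction m with
  | zero => simp [Sched.LFb]
  | succ m ih =>
    simp only [Sched.LFb]
    have h1 := LFs_nonneg S (LFs_nonneg S (LFr_nonneg S ih m) (m + 1)) (m + 1)
    have h2 : 0 ≤ if (S.C (m + 2)).Nonempty then
        3 * (2 * S.Q2b (m + 1) + S.NbR (m + 1) ^ 2) else 0 := by
      have := Q2b_nonneg S (m + 1)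
      split_ifs <;> positivity
    linarith

lemma RC_nonneg (m : ℕ) {h LF : ℝ} (hh : 0 ≤ h) (hL : 0 ≤ LF) : 0 ≤ S.RC m h LF := by
  unfold Sched.RC
  have h1 := S.Θ_pos m
  have h2 := Vx_nonneg S m
  have h3 := SPb_nonneg S m
  positivity

lemma RCr_nonneg (m : ℕ) : 0 ≤ S.RCr m := by
  unfold Sched.RCr
  have h1 := S.Θ_pos m
  have h2 := Vw_nonneg S m
  have h3 := Nb_nonneg S m
  positivity

lemma Inc_nonneg (m : ℕ) : 0 ≤ S.Inc m := by
  unfold Sched.Inc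
  have h1 := RCr_nonneg S m
  have hL := LFr_nonneg S (LFb_nonneg S m) m
  have hN := NbR_nonneg S (m + 1)
  have h2 : 0 ≤ if (S.H (m + 1)).Nonempty then
        S.RC (m + 1) (S.NbR (m + 1)) (S.LFr (S.LFb m) m)
          + S.RC (m + 1) (S.NbR (m + 1)) (S.LFs (S.LFr (S.LFb m) m) (m + 1)) else 0 := by
    have h3 := RC_nonneg S (m + 1) hN hL
    have h4 := RC_nonneg S (m + 1) hN (LFs_nonneg S hL (m + 1))
    split_ifs <;> linarith
  have h3 : 0 ≤ if (S.C (m + 2)).Nonempty then 2 * S.Q2b (m + 1) + 2 * S.NbR (m + 1) ^ 2 else 0 := by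
    have := Q2b_nonneg S (m + 1)
    split_ifs <;> positivity
  linarith

lemma Bud_nonneg (m : ℕ) : 0 ≤ S.Bud m := by
  induction m with
  | zero => simp [Sched.Bud]
  | succ m ih =>
    simp only [Sched.Bud]
    linarith [Inc_nonneg S m]

/-! ## The recursion -/

/-- The bound for the inhomogeneous part of the recursion of `LFb`. -/
noncomputable def Sched.Zb (m : ℕ) : ℝ :=
  460800 * S.Vw m + 13 * 10 ^ 8 * S.Θ m + 4 * 10 ^ 7 * ((S.j m : ℝ) - 32)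
    + ((S.C m).card : ℝ) + ((S.C (m + 1)).card : ℝ) + 12 * 10 ^ 6 * ((S.C (m + 2)).card : ℝ)
    + 6 * 10 ^ 5 * S.Θ (m + 1) + 6 * 10 ^ 4 * S.Vx (m + 1)

lemma LFb_succ_le (m : ℕ) : S.LFb (m + 1) ≤ 1 / 2 * S.LFb m + S.Zb m := by
  have hL := LFb_nonneg S m
  obtain ⟨E, hE⟩ : ∃ E, E = 4 / (S.K m : ℝ) ^ 2 * S.LFb m := ⟨_, rfl⟩
  have hE1 : E ≤ S.LFb m / 10 ^ 4 := by
    rw [hE, div_eq_mul_inv _ ((10 : ℝ) ^ 4)]
    have := mul_le_mul_of_nonneg_right (K_tiny S m) hL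
    nlinarith
  have hNR := NbR_sq S m
  have hθj := Θ_j_le S m
  have hP := sum_P_nonneg S m
  have hSP := SPb_succ_le S m
  have hQ := Q2b_succ_le S m
  have hC2 : (0 : ℝ) ≤ ((S.C (m + 2)).card : ℝ) := by positivity
  have hC1 : (0 : ℝ) ≤ ((S.C (m + 1)).card : ℝ) := by positivity
  have hC0 : (0 : ℝ) ≤ ((S.C m).card : ℝ) := by positivity
  have hθ := S.Θ_pos m
  have hθ' := S.Θ_pos (m + 1)
  have hQ0 := Q2b_nonneg S (m + 1)
  have hInd : (if (S.C (m + 2)).Nonempty then 3 * (2 * S.Q2b (m + 1) + S.NbR (m + 1) ^ 2) else 0)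
      ≤ 134400 * ((S.C (m + 2)).card : ℝ)
        + 346800 * (32 * ((S.C (m + 2)).card : ℝ) + ((S.j m : ℝ) - 32)) := by
    split_ifs with h
    · have h1 : (1 : ℝ) ≤ ((S.C (m + 2)).card : ℝ) := by exact_mod_cast Finset.card_pos.mpr h
      rw [hNR]
      linarith
    · linarith
  simp only [Sched.LFb]
  unfold Sched.LFs Sched.LFr Sched.LNw Sched.LNr Sched.Zb
  have hVx := Vx_nonneg S (m + 1)
  rw [hNR] at hInd
  rw [← hE, hNR]
  linarith

lemma sum_LFb (M : ℕ) : ∑ m ∈ range M, S.LFb m ≤ 2 * ∑ m ∈ range M, S.Zb m := by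
  have h1 : ∑ m ∈ range (M + 1), S.LFb m = ∑ m ∈ range M, S.LFb (m + 1) + S.LFb 0 :=
    Finset.sum_range_succ' _ _
  have h0 : S.LFb 0 = 0 := by simp [Sched.LFb]
  have h2 : ∑ m ∈ range M, S.LFb (m + 1)
      ≤ 1 / 2 * ∑ m ∈ range M, S.LFb m + ∑ m ∈ range M, S.Zb m := by
    rw [Finset.mul_sum, ← Finset.sum_add_distrib]
    exact Finset.sum_le_sum fun m _ => LFb_succ_le S m
  have h3 : ∑ m ∈ range M, S.LFb m ≤ ∑ m ∈ range (M + 1), S.LFb m := by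
    rw [Finset.sum_range_succ]
    linarith [LFb_nonneg S M]
  rw [h1, h0] at h3
  linarith

lemma sum_Zb (M : ℕ) : ∑ m ∈ range M, S.Zb m ≤ 2 * 10 ^ 10 * ((d : ℝ) + 1) := by
  have e : ∑ m ∈ range M, S.Zb m
      = 460800 * ∑ m ∈ range M, S.Vw m + 13 * 10 ^ 8 * ∑ m ∈ range M, S.Θ m
        + 4 * 10 ^ 7 * ∑ m ∈ range M, ((S.j m : ℝ) - 32)
        + ∑ m ∈ range M, ((S.C m).card : ℝ) + ∑ m ∈ range M, ((S.C (m + 1)).card : ℝ)
        + 12 * 10 ^ 6 * ∑ m ∈ range M, ((S.C (m + 2)).card : ℝ)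
        + 6 * 10 ^ 5 * ∑ m ∈ range M, S.Θ (m + 1) + 6 * 10 ^ 4 * ∑ m ∈ range M, S.Vx (m + 1) := by
    unfold Sched.Zb
    simp only [Finset.sum_add_distrib, Finset.mul_sum]
  rw [e]
  have h1 := sum_Vw S M
  have h2 := sum_Θ S M
  have h3 := S.hsum M
  have h4 : ∑ m ∈ range M, ((S.C m).card : ℝ) ≤ d := by simpa using sum_C_card S 0 M
  have h5 := sum_C_card S 1 M
  have h6 := sum_C_card S 2 M
  have h7 := sum_Θ_shift S M
  have h8 := sum_Vx_shift S M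
  have hd : (0 : ℝ) ≤ d := by positivity
  linarith

/-- The termwise bound of the increments. -/
lemma Inc_le (m : ℕ) :
    S.Inc m ≤ S.LFb m + 31 * 10 ^ 6 * S.Vw m + 85 * 10 ^ 9 * S.Θ m
      + 960000 * (S.Θ m * S.Nb m) + 33 * 10 ^ 8 * ((S.j m : ℝ) - 32)
      + 2 * 10 ^ 6 * S.Vx (m + 1) + 21 * 10 ^ 9 * S.Θ (m + 1)
      + ((S.C m).card : ℝ) + ((S.C (m + 1)).card : ℝ)
      + 75 * 10 ^ 5 * ((S.C (m + 2)).card : ℝ) := by
  have hL := LFb_nonneg S m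
  obtain ⟨E, hE⟩ : ∃ E, E = 4 / (S.K m : ℝ) ^ 2 * S.LFb m := ⟨_, rfl⟩
  have hE1 : E ≤ S.LFb m / 10 ^ 4 := by
    rw [hE, div_eq_mul_inv _ ((10 : ℝ) ^ 4)]
    have := mul_le_mul_of_nonneg_right (K_tiny S m) hL
    nlinarith
  have hE0 : 0 ≤ E := by rw [hE]; positivity
  have hNR := NbR_sq S m
  have hNR2 := NbR_le_j S m
  have hθj := Θ_j_le S m
  have hθ'j := Θ_succ_j_le S m
  have hP := sum_P_nonneg S m
  have hSP := SPb_succ_le S m
  have hQ := Q2b_succ_le S m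
  have hC2 : (0 : ℝ) ≤ ((S.C (m + 2)).card : ℝ) := by positivity
  have hC1 : (0 : ℝ) ≤ ((S.C (m + 1)).card : ℝ) := by positivity
  have hC0 : (0 : ℝ) ≤ ((S.C m).card : ℝ) := by positivity
  have hθ := S.Θ_pos m
  have hθ' := S.Θ_pos (m + 1)
  have hQ0 := Q2b_nonneg S (m + 1)
  have hLr := LFr_nonneg S hL m
  have hN := NbR_nonneg S (m + 1)
  have hrc1 := RC_nonneg S (m + 1) hN hLr
  have hrc2 := RC_nonneg S (m + 1) hN (LFs_nonneg S hLr (m + 1))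
  have hθ'N : S.Θ (m + 1) * S.NbR (m + 1) ≤ S.Θ (m + 1) * (340 * (S.j m : ℝ)) :=
    mul_le_mul_of_nonneg_left hNR2 hθ'.le
  have hI1 : (if (S.H (m + 1)).Nonempty then
        S.RC (m + 1) (S.NbR (m + 1)) (S.LFr (S.LFb m) m)
          + S.RC (m + 1) (S.NbR (m + 1)) (S.LFs (S.LFr (S.LFb m) m) (m + 1)) else 0)
      ≤ S.RC (m + 1) (S.NbR (m + 1)) (S.LFr (S.LFb m) m)
          + S.RC (m + 1) (S.NbR (m + 1)) (S.LFs (S.LFr (S.LFb m) m) (m + 1)) := by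
    split_ifs <;> linarith
  have hI2 : (if (S.C (m + 2)).Nonempty then 2 * S.Q2b (m + 1) + 2 * S.NbR (m + 1) ^ 2 else 0)
      ≤ 44800 * ((S.C (m + 2)).card : ℝ)
        + 231200 * (32 * ((S.C (m + 2)).card : ℝ) + ((S.j m : ℝ) - 32)) := by
    split_ifs with h
    · have h1 : (1 : ℝ) ≤ ((S.C (m + 2)).card : ℝ) := by exact_mod_cast Finset.card_pos.mpr h
      rw [hNR]
      linarith
    · linarith
  have hVx := Vx_nonneg S (m + 1)
  have hVw := Vw_nonneg S m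
  unfold Sched.Inc
  refine (add_le_add (add_le_add le_rfl hI1) hI2).trans ?_
  unfold Sched.RCr Sched.RC Sched.LFs Sched.LFr Sched.LNw Sched.LNr
  rw [← hE, hNR]
  linarith

lemma Bud_eq_sum (M : ℕ) : S.Bud M = ∑ m ∈ range M, S.Inc m := by
  induction M with
  | zero => simp [Sched.Bud]
  | succ M ih =>
    rw [Finset.sum_range_succ, ← ih]
    simp only [Sched.Bud]

/-- **The budget**: every coordinate is charged a bounded amount. -/
theorem Bud_le (M : ℕ) : S.Bud M ≤ 10 ^ 14 * ((d : ℝ) + 1) := by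
  rw [Bud_eq_sum]
  have e : ∑ m ∈ range M, (S.LFb m + 31 * 10 ^ 6 * S.Vw m + 85 * 10 ^ 9 * S.Θ m
      + 960000 * (S.Θ m * S.Nb m) + 33 * 10 ^ 8 * ((S.j m : ℝ) - 32)
      + 2 * 10 ^ 6 * S.Vx (m + 1) + 21 * 10 ^ 9 * S.Θ (m + 1)
      + ((S.C m).card : ℝ) + ((S.C (m + 1)).card : ℝ)
      + 75 * 10 ^ 5 * ((S.C (m + 2)).card : ℝ))
      = ∑ m ∈ range M, S.LFb m + 31 * 10 ^ 6 * ∑ m ∈ range M, S.Vw m
        + 85 * 10 ^ 9 * ∑ m ∈ range M, S.Θ m
        + 960000 * ∑ m ∈ range M, (S.Θ m * S.Nb m)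
        + 33 * 10 ^ 8 * ∑ m ∈ range M, ((S.j m : ℝ) - 32)
        + 2 * 10 ^ 6 * ∑ m ∈ range M, S.Vx (m + 1) + 21 * 10 ^ 9 * ∑ m ∈ range M, S.Θ (m + 1)
        + ∑ m ∈ range M, ((S.C m).card : ℝ) + ∑ m ∈ range M, ((S.C (m + 1)).card : ℝ)
        + 75 * 10 ^ 5 * ∑ m ∈ range M, ((S.C (m + 2)).card : ℝ) := by
    simp only [Finset.sum_add_distrib, Finset.mul_sum]
  refine (Finset.sum_le_sum fun m _ => Inc_le S m).trans ?_
  rw [e]
  have h0 := sum_LFb S M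
  have h00 := sum_Zb S M
  have h1 := sum_Vw S M
  have h2 := sum_Θ S M
  have h3 := S.hsum M
  have h4 : ∑ m ∈ range M, ((S.C m).card : ℝ) ≤ d := by simpa using sum_C_card S 0 M
  have h5 := sum_C_card S 1 M
  have h6 := sum_C_card S 2 M
  have h7 := sum_Θ_shift S M
  have h8 := sum_Vx_shift S M
  have h9 := sum_Θ_Nb S M
  have hd : (0 : ℝ) ≤ d := by positivity
  linarith

end Vale.Agent.P262S
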