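import Vale.Agent.P262S.CoreP1
import Vale.Agent.P262S.Basic

open Finset

namespace Vale.Agent.P262S

variable {d : ℕ} (S : Sched d)
variable {V : Type} [Fintype V] [DecidableEq V] (α : V → Fin d → ℝ)

/-- The bound of a form on `(A + B) / 2 + C + D`. -/
lemma Sched.LF_split {m : ℕ} {LF : ℝ} {A B C D : Fin d → ℝ} {SP LN : ℝ} (x : Fin d → ℝ)
    (hx : ∀ i, x i = (A i + B i) / 2 + C i + D i)
    (hA : S.LFf (m + 1) A ≤ LF) (hB : S.LFf (m + 1) B ≤ LF)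
    (hC : S.LFf (m + 1) C ≤ SP) (hD : S.LFf (m + 1) D ≤ LN) :
    S.LFf (m + 1) x ≤ 3 * (LF + SP + LN) := by
  have h1 : ∀ i ∈ S.U (m + 1), S.ph (m + 1) i * x i ^ 2
      ≤ 3 / 2 * (S.ph (m + 1) i * A i ^ 2) + 3 / 2 * (S.ph (m + 1) i * B i ^ 2)
        + 3 * (S.ph (m + 1) i * C i ^ 2) + 3 * (S.ph (m + 1) i * D i ^ 2) := by
    intro i _
    have hph : 0 ≤ S.ph (m + 1) i := by linarith [S.one_le_ph (m + 1) i]
    rw [hx i]
    have h2 : ((A i + B i) / 2 + C i + D i) ^ 2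
        ≤ 3 / 2 * A i ^ 2 + 3 / 2 * B i ^ 2 + 3 * C i ^ 2 + 3 * D i ^ 2 := by
      nlinarith [sq_nonneg ((A i + B i) / 2 - C i), sq_nonneg ((A i + B i) / 2 - D i),
        sq_nonneg (C i - D i), sq_nonneg (A i - B i)]
    have h3 := mul_le_mul_of_nonneg_left h2 hph
    linarith
  have h2 := sum_le_sum h1
  rw [sum_add_distrib, sum_add_distrib, sum_add_distrib, ← mul_sum, ← mul_sum, ← mul_sum,
    ← mul_sum] at h2
  unfold Sched.LFf at hA hB hC hD ⊢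
  linarith

/-- **Closure of the light sum form** for the left block. -/
theorem Sched.LF_closure_L {m : ℕ} {B₁ B₂ : Finset V} (hdis : Disjoint B₁ B₂)
    {a : Fin d → ℝ} {Y : V → ℝ} (hY : ∀ v, Y v = 0 ∨ Y v = 1) {LF : ℝ} (hLF0 : 0 ≤ LF)
    (hLF₁ : S.LFf (m + 1) (sm α (S.Lv α (m + 1) B₁)) ≤ LF)
    (hLF₂ : S.LFf (m + 1) (sm α (S.Lv α (m + 1) B₂)) ≤ LF)
    (hsp : S.LFf (m + 1) (S.spl α m B₁ B₂ a) ≤ S.SPb (m + 1))
    (hn : S.LFf (m + 1) (fun i => S.nz α m B₁ B₂ a Y fun v => α v i) ≤ S.LNr (m + 1)) :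
    S.LFf (m + 1) (sm α (S.Lv α (m + 1) (S.Lnew α m B₁ B₂ Y))) ≤ S.LFs LF (m + 1) := by
  refine S.LF_split _ (A := sm α (S.Lv α (m + 1) B₁)) (B := sm α (S.Lv α (m + 1) B₂))
    (C := S.spl α m B₁ B₂ a) (D := fun i => S.nz α m B₁ B₂ a Y fun v => α v i) (fun i => ?_)
    hLF₁ hLF₂ hsp hn
  unfold sm
  rw [S.Lv_Lnew α hdis, S.Lam_filter_one α hY]
  have e1 := S.Lam_sum α (m := m) hdis (fun v => α v i)
  unfold Sched.nz Sched.spl
  rw [← e1, sum_div, ← sum_add_distrib, ← sum_add_distrib]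
  refine sum_congr rfl fun v _ => ?_
  ring

/-- **Closure of the light sum form** for the right block. -/
theorem Sched.LF_closure_R {m : ℕ} {B₁ B₂ : Finset V} (hdis : Disjoint B₁ B₂)
    {a : Fin d → ℝ} {Y : V → ℝ} (hY : ∀ v, Y v = 0 ∨ Y v = 1) {LF : ℝ} (hLF0 : 0 ≤ LF)
    (hLF₁ : S.LFf (m + 1) (sm α (S.Lv α (m + 1) B₁)) ≤ LF)
    (hLF₂ : S.LFf (m + 1) (sm α (S.Lv α (m + 1) B₂)) ≤ LF)
    (hsp : S.LFf (m + 1) (S.spl α m B₁ B₂ a) ≤ S.SPb (m + 1))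
    (hn : S.LFf (m + 1) (fun i => S.nz α m B₁ B₂ a Y fun v => α v i) ≤ S.LNr (m + 1)) :
    S.LFf (m + 1) (sm α (S.Lv α (m + 1) (S.Rnew α m B₁ B₂ Y))) ≤ S.LFs LF (m + 1) := by
  have hneg : ∀ x : Fin d → ℝ, S.LFf (m + 1) (fun i => - x i) = S.LFf (m + 1) x := by
    intro x
    unfold Sched.LFf
    refine sum_congr rfl fun i _ => ?_
    ring
  refine S.LF_split _ (A := sm α (S.Lv α (m + 1) B₁)) (B := sm α (S.Lv α (m + 1) B₂))
    (C := fun i => - S.spl α m B₁ B₂ a i)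
    (D := fun i => - S.nz α m B₁ B₂ a Y fun v => α v i) (fun i => ?_)
    hLF₁ hLF₂ (by rw [hneg]; exact hsp) (by rw [hneg]; exact hn)
  unfold sm
  rw [S.Lv_Rnew α hdis, S.Lam_filter_zero α hY]
  have e1 := S.Lam_sum α (m := m) hdis (fun v => α v i)
  unfold Sched.nz Sched.spl
  rw [← e1, sum_div, ← sum_neg_distrib, ← sum_neg_distrib, ← sum_add_distrib,
    ← sum_add_distrib]
  refine sum_congr rfl fun v _ => ?_
  ring

end Vale.Agent.P262S
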