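import Vale.Agent.P262S.ResplitCore

/-! # Re-split, piece P1: combinatorics of the split (notes/P262_sqrtd.md, section 4). -/

open Finset

namespace Vale.Agent.P262S

variable {d : ℕ} (S : Sched d)
variable {V : Type} [Fintype V] [DecidableEq V] (α : V → Fin d → ℝ)

section P1
variable {m : ℕ} {B₁ B₂ : Finset V} {a : Fin d → ℝ} {Y : V → ℝ}

lemma Sched.mem_Lam {v : V} :
    v ∈ S.Lam α m B₁ B₂ ↔ (v ∈ B₁ ∨ v ∈ B₂) ∧ ¬ S.Hv α (m + 1) v := by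
  unfold Sched.Lam Sched.Lv
  simp [mem_filter, mem_union]

lemma Sched.mem_Sv' {v : V} {B : Finset V} :
    v ∈ S.Sv α (m + 1) B ↔ v ∈ B ∧ S.Hv α (m + 1) v := by
  unfold Sched.Sv
  simp [mem_filter]

lemma Sched.mem_Lv' {v : V} {B : Finset V} :
    v ∈ S.Lv α (m + 1) B ↔ v ∈ B ∧ ¬ S.Hv α (m + 1) v := by
  unfold Sched.Lv
  simp [mem_filter]

lemma Sched.mem_Lnew {v : V} :
    v ∈ S.Lnew α m B₁ B₂ Y ↔ (v ∈ B₁ ∧ S.Hv α (m + 1) v) ∨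
      (((v ∈ B₁ ∨ v ∈ B₂) ∧ ¬ S.Hv α (m + 1) v) ∧ Y v = 1) := by
  unfold Sched.Lnew
  rw [mem_union, S.mem_Sv', mem_filter, S.mem_Lam]

lemma Sched.mem_Rnew {v : V} :
    v ∈ S.Rnew α m B₁ B₂ Y ↔ (v ∈ B₂ ∧ S.Hv α (m + 1) v) ∨
      (((v ∈ B₁ ∨ v ∈ B₂) ∧ ¬ S.Hv α (m + 1) v) ∧ Y v = 0) := by
  unfold Sched.Rnew
  rw [mem_union, S.mem_Sv', mem_filter, S.mem_Lam]

lemma Sched.Lam_sum (hdis : Disjoint B₁ B₂) (r : V → ℝ) :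
    ∑ v ∈ S.Lam α m B₁ B₂, r v = ∑ v ∈ S.Lv α (m + 1) B₁, r v + ∑ v ∈ S.Lv α (m + 1) B₂, r v := by
  have h : S.Lam α m B₁ B₂ = S.Lv α (m + 1) B₁ ∪ S.Lv α (m + 1) B₂ := by
    ext v
    rw [mem_union, S.mem_Lam, S.mem_Lv', S.mem_Lv']
    tauto
  rw [h, sum_union]
  rw [disjoint_left] at hdis ⊢
  intro v hv hv'
  rw [S.mem_Lv' α] at hv hv'
  exact hdis hv.1 hv'.1

lemma Sched.Lam_filter_one (hY : ∀ v, Y v = 0 ∨ Y v = 1) (r : V → ℝ) :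
    ∑ v ∈ (S.Lam α m B₁ B₂).filter (fun v => Y v = 1), r v
      = ∑ v ∈ S.Lam α m B₁ B₂, Y v * r v := by
  rw [sum_filter]
  refine sum_congr rfl fun v _ => ?_
  rcases hY v with h | h <;> simp [h]

lemma Sched.Lam_filter_zero (hY : ∀ v, Y v = 0 ∨ Y v = 1) (r : V → ℝ) :
    ∑ v ∈ (S.Lam α m B₁ B₂).filter (fun v => Y v = 0), r v
      = ∑ v ∈ S.Lam α m B₁ B₂, (1 - Y v) * r v := by
  rw [sum_filter]
  refine sum_congr rfl fun v _ => ?_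
  rcases hY v with h | h <;> simp [h]

lemma Sched.split_sum_L (hdis : Disjoint B₁ B₂) (hY : ∀ v, Y v = 0 ∨ Y v = 1) (r : V → ℝ) :
    ∑ v ∈ S.Lnew α m B₁ B₂ Y, r v = ∑ v ∈ S.Sv α (m + 1) B₁, r v
      + (1 / 2) * ∑ v ∈ S.Lam α m B₁ B₂, r v + ∑ v ∈ S.Lam α m B₁ B₂, S.shf α m a v * r v
      + S.nz α m B₁ B₂ a Y r := by
  have hd : Disjoint (S.Sv α (m + 1) B₁) ((S.Lam α m B₁ B₂).filter fun v => Y v = 1) := by
    rw [disjoint_left]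
    intro v hv hv'
    rw [S.mem_Sv'] at hv
    rw [mem_filter, S.mem_Lam] at hv'
    exact hv'.1.2 hv.2
  unfold Sched.Lnew Sched.nz
  rw [sum_union hd, S.Lam_filter_one α hY, mul_sum, add_assoc, add_assoc, ← sum_add_distrib,
    ← sum_add_distrib]
  congr 1
  refine sum_congr rfl fun v _ => ?_
  ring

lemma Sched.split_sum_R (hdis : Disjoint B₁ B₂) (hY : ∀ v, Y v = 0 ∨ Y v = 1) (r : V → ℝ) :
    ∑ v ∈ S.Rnew α m B₁ B₂ Y, r v = ∑ v ∈ S.Sv α (m + 1) B₂, r v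
      + (1 / 2) * ∑ v ∈ S.Lam α m B₁ B₂, r v - ∑ v ∈ S.Lam α m B₁ B₂, S.shf α m a v * r v
      - S.nz α m B₁ B₂ a Y r := by
  have hd : Disjoint (S.Sv α (m + 1) B₂) ((S.Lam α m B₁ B₂).filter fun v => Y v = 0) := by
    rw [disjoint_left]
    intro v hv hv'
    rw [S.mem_Sv'] at hv
    rw [mem_filter, S.mem_Lam] at hv'
    exact hv'.1.2 hv.2
  unfold Sched.Rnew Sched.nz
  rw [sum_union hd, S.Lam_filter_zero α hY, mul_sum, add_sub_assoc, add_sub_assoc, ← sum_sub_distrib,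
    ← sum_sub_distrib]
  congr 1
  refine sum_congr rfl fun v _ => ?_
  ring

lemma Sched.new_union (hdis : Disjoint B₁ B₂) (hY : ∀ v, Y v = 0 ∨ Y v = 1) :
    S.Lnew α m B₁ B₂ Y ∪ S.Rnew α m B₁ B₂ Y = B₁ ∪ B₂ := by
  ext v
  rw [mem_union, S.mem_Lnew, S.mem_Rnew, mem_union]
  have := hY v
  tauto

lemma Sched.new_disjoint (hdis : Disjoint B₁ B₂) (hY : ∀ v, Y v = 0 ∨ Y v = 1) :
    Disjoint (S.Lnew α m B₁ B₂ Y) (S.Rnew α m B₁ B₂ Y) := by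
  rw [disjoint_left] at hdis ⊢
  intro v hv hv'
  rw [S.mem_Lnew] at hv
  rw [S.mem_Rnew] at hv'
  rcases hv with hv | hv <;> rcases hv' with hv' | hv'
  · exact hdis hv.1 hv'.1
  · exact hv'.1.2 hv.2
  · exact hv.1.2 hv'.2
  · rw [hv.2] at hv'
    norm_num at hv'

lemma Sched.Sv_Lnew (hdis : Disjoint B₁ B₂) :
    S.Sv α (m + 1) (S.Lnew α m B₁ B₂ Y) = S.Sv α (m + 1) B₁ := by
  ext v
  rw [S.mem_Sv', S.mem_Sv', S.mem_Lnew]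
  tauto

lemma Sched.Sv_Rnew (hdis : Disjoint B₁ B₂) :
    S.Sv α (m + 1) (S.Rnew α m B₁ B₂ Y) = S.Sv α (m + 1) B₂ := by
  ext v
  rw [S.mem_Sv', S.mem_Sv', S.mem_Rnew]
  tauto

lemma Sched.Lv_Lnew (hdis : Disjoint B₁ B₂) :
    S.Lv α (m + 1) (S.Lnew α m B₁ B₂ Y) = (S.Lam α m B₁ B₂).filter fun v => Y v = 1 := by
  ext v
  rw [S.mem_Lv', S.mem_Lnew, mem_filter, S.mem_Lam]
  tauto

lemma Sched.Lv_Rnew (hdis : Disjoint B₁ B₂) :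
    S.Lv α (m + 1) (S.Rnew α m B₁ B₂ Y) = (S.Lam α m B₁ B₂).filter fun v => Y v = 0 := by
  ext v
  rw [S.mem_Lv', S.mem_Rnew, mem_filter, S.mem_Lam]
  tauto

end P1

end Vale.Agent.P262S
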