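import Vale.Agent.P262S.ResplitH

/-! # Re-split, piece P2: the tilt (notes/P262_sqrtd.md, section 4). -/

open Finset

namespace Vale.Agent.P262S

variable {d : ℕ} (S : Sched d)
variable {V : Type} [Fintype V] [DecidableEq V] (α : V → Fin d → ℝ)

/-- **The tilt**: `M^Λ a = - c` on `H`, and all the bounds used later. -/
theorem Sched.tilt_exists (hα : ∀ v, ∑ i, α v i ^ 2 ≤ 1) {m : ℕ} {B₁ B₂ : Finset V} (hdis : Disjoint B₁ B₂)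
    {p q : Fin d → ℝ} {xb xp Nh Ne M1 M2 : ℝ} (hxb : xb ≤ 1 / 200) (hxb0 : 0 ≤ xb)
    (hNh : 1000 * Nh ≤ S.b (m + 1))
    (hB₁ : S.BlockInv α (m + 1) B₁ xb xp Nh Ne M1 M2)
    (hB₂ : S.BlockInv α (m + 1) B₂ xb xp Nh Ne M1 M2)
    (hTp : S.Tf (m + 1) p ≤ 1 / 100) (hTq : S.Tf (m + 1) q ≤ 1 / 100) :
    ∃ a : Fin d → ℝ, (∀ k, k ∉ S.H (m + 1) → a k = 0) ∧
      (∀ k ∈ S.H (m + 1), ∑ l ∈ S.H (m + 1), MB α (S.Lam α m B₁ B₂) k l * a l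
        = - cc α p q (S.Sv α (m + 1) B₁) (S.Sv α (m + 1) B₂) k) ∧
      (∑ v ∈ S.Lam α m B₁ B₂, S.shf α m a v ^ 2 ≤ 1 / (20 * S.b (m + 1) ^ 2)) ∧
      (∀ v, |S.shf α m a v| ≤ 1 / 4) ∧
      (∑ k ∈ S.H (m + 1), a k ^ 2 * S.q k (m + 1) ^ 6 ≤ 1 / 50) := by
  classical
  set ℓ := m + 1 with hℓ
  set Λ := S.Lam α m B₁ B₂ with hΛ
  set G₁ := S.Sv α ℓ B₁ with hG₁
  set G₂ := S.Sv α ℓ B₂ with hG₂
  set c := cc α p q G₁ G₂ with hc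
  have hb : (2 : ℝ) ^ 42 ≤ S.b ℓ := S.b_ge ℓ
  have hb0 : 0 < S.b ℓ := lt_of_lt_of_le (by norm_num) hb
  have hb1 : 1 ≤ S.b ℓ := by linarith [show (1 : ℝ) ≤ 2 ^ 42 by norm_num]
  have hq1 : ∀ k ∈ S.H ℓ, 1 ≤ S.q k ℓ := fun k hk => hb1.trans (S.b_le_q hk)
  have hq0 : ∀ k ∈ S.H ℓ, 0 < S.q k ℓ := fun k hk => S.q_pos hk
  -- sizes of the heavy parts
  have hG₁s : 1000 * (G₁.card : ℝ) ≤ S.b ℓ := by
    have := hB₁.hNh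
    linarith
  have hG₂s : 1000 * (G₂.card : ℝ) ≤ S.b ℓ := by
    have := hB₂.hNh
    linarith
  -- the deviation
  obtain ⟨E, hE⟩ : ∃ E : Fin d → Fin d → ℝ, E = fun k l =>
      MB α Λ k l - if k = l then 2 * S.q k ℓ ^ 4 else 0 := ⟨_, rfl⟩
  have hEX : S.Xf ℓ E ≤ 1 / 1000 := by
    have h1 : S.Xf ℓ E ≤ 4 * (S.Xf ℓ (S.Err α ℓ B₁) + S.Xf ℓ (S.Err α ℓ B₂)
        + S.Xf ℓ (MB α G₁) + S.Xf ℓ (MB α G₂)) :=
      S.Xf_four ℓ fun k l => by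
        rw [hE]
        exact S.E_Lam hdis k l
    have h2 := hB₁.hX
    have h3 := hB₂.hX
    have h4 := S.Xf_MB_small hα ℓ hG₁s
    have h5 := S.Xf_MB_small hα ℓ hG₂s
    have h6 : xb ^ 2 ≤ (1 / 200) ^ 2 := pow_le_pow_left₀ hxb0 hxb 2
    norm_num at h4 h5 h6 ⊢
    linarith
  have hEX0 : 0 ≤ S.Xf ℓ E :=
    Finset.sum_nonneg fun k hk => Finset.sum_nonneg fun l hl =>
      div_nonneg (sq_nonneg _) (S.Xf_term ℓ hk hl).1.le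
  -- the smallness for the solve
  have hF : ∑ k ∈ S.H ℓ, ∑ l ∈ S.H ℓ,
      (MB α Λ k l - if k = l then 2 * S.q k ℓ ^ 4 else 0) ^ 2 / (2 * S.q k ℓ ^ 4 * (2 * S.q l ℓ ^ 4)) ≤ 1 / 4 := by
    have h1 : ∑ k ∈ S.H ℓ, ∑ l ∈ S.H ℓ,
      (MB α Λ k l - if k = l then 2 * S.q k ℓ ^ 4 else 0) ^ 2 / (2 * S.q k ℓ ^ 4 * (2 * S.q l ℓ ^ 4))
        ≤ S.Xf ℓ E := by
      unfold Sched.Xf
      refine Finset.sum_le_sum fun k hk => Finset.sum_le_sum fun l hl => ?_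
      have h0 := (S.Xf_term ℓ hk hl).1
      have hk1 := hq1 k hk
      have hl1 := hq1 l hl
      have hE' : E k l = MB α Λ k l - if k = l then 2 * S.q k ℓ ^ 4 else 0 := by rw [hE]
      rw [← hE']
      refine div_le_div_of_nonneg_left (sq_nonneg _) h0 ?_
      have hm : min (S.q k ℓ) (S.q l ℓ) ^ 2 ≤ S.q k ℓ ^ 2 :=
        pow_le_pow_left₀ (lt_min (by linarith) (by linarith)).le (min_le_left _ _) 2
      have hl2 : S.q l ℓ ^ 2 ≤ S.q l ℓ ^ 4 := pow_le_pow_right₀ hl1 (by norm_num)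
      calc S.q k ℓ ^ 2 * S.q l ℓ ^ 2 * min (S.q k ℓ) (S.q l ℓ) ^ 2
          ≤ S.q k ℓ ^ 2 * S.q l ℓ ^ 2 * S.q k ℓ ^ 2 := by gcongr
        _ = S.q k ℓ ^ 4 * S.q l ℓ ^ 2 := by ring
        _ ≤ S.q k ℓ ^ 4 * S.q l ℓ ^ 4 := by gcongr
        _ ≤ 2 * S.q k ℓ ^ 4 * (2 * S.q l ℓ ^ 4) := by
            have : 0 ≤ S.q k ℓ ^ 4 * S.q l ℓ ^ 4 := by positivity
            nlinarith
    linarith
  obtain ⟨a, ha0, hsol, hA, hsh⟩ := solve_tilt (S.H ℓ) (fun k => S.q k ℓ) hq0 Λ α c hF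
  -- the size of the centre
  have hTc : S.Tf ℓ c ≤ 1 / 50 + 2 / 10 ^ 6 := by
    have h1 := S.Tf_cc (α := α) ℓ p q G₁ G₂
    have h2 := S.Tf_sm_small hα ℓ hG₁s
    have h3 := S.Tf_sm_small hα ℓ hG₂s
    norm_num at h2 h3 hTp hTq ⊢
    linarith
  have hξ : ∑ k ∈ S.H ℓ, c k ^ 2 / (2 * S.q k ℓ ^ 4) ≤ S.Tf ℓ c / (2 * S.b ℓ ^ 2) := by
    unfold Sched.Tf
    rw [Finset.sum_div]
    refine Finset.sum_le_sum fun k hk => ?_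
    have h0 := hq0 k hk
    have h1 : S.b ℓ ^ 2 ≤ S.q k ℓ ^ 2 := pow_le_pow_left₀ hb0.le (S.b_le_q hk) 2
    rw [div_div]
    refine div_le_div_of_nonneg_left (sq_nonneg _) (by positivity) ?_
    nlinarith [sq_nonneg (S.q k ℓ ^ 2)]
  have hA' : ∑ k ∈ S.H ℓ, 2 * S.q k ℓ ^ 4 * a k ^ 2 ≤ 2 * S.Tf ℓ c / S.b ℓ ^ 2 := by
    refine hA.trans ?_
    calc 4 * ∑ k ∈ S.H ℓ, c k ^ 2 / (2 * S.q k ℓ ^ 4) ≤ 4 * (S.Tf ℓ c / (2 * S.b ℓ ^ 2)) := by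
          linarith
      _ = _ := by field_simp; ring
  have hsh' : ∑ v ∈ Λ, S.shf α m a v ^ 2 ≤ 1 / (20 * S.b ℓ ^ 2) := by
    refine hsh.trans ?_
    calc 4 * ∑ k ∈ S.H ℓ, c k ^ 2 / (2 * S.q k ℓ ^ 4) ≤ 4 * (S.Tf ℓ c / (2 * S.b ℓ ^ 2)) := by
          linarith
      _ = 2 * S.Tf ℓ c / S.b ℓ ^ 2 := by field_simp; ring
      _ ≤ 2 * (1 / 50 + 2 / 10 ^ 6) / S.b ℓ ^ 2 := by gcongr
      _ ≤ 1 / 20 / S.b ℓ ^ 2 := by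
          refine div_le_div_of_nonneg_right ?_ (by positivity)
          norm_num
      _ = _ := by field_simp
  -- the weighted bound
  have hD : ∀ k ∈ S.H ℓ, 0 < (fun k => 2 * S.q k ℓ ^ 4) k := fun k hk => by
    have := hq0 k hk
    positivity
  have hw : ∀ k ∈ S.H ℓ, 0 ≤ (fun k => 1 / S.q k ℓ ^ 2) k := fun k hk => by
    have := hq0 k hk
    positivity
  have hW := weighted_sol (α := α) (Λ := Λ) (H := S.H ℓ) (D := fun k => 2 * S.q k ℓ ^ 4) hD c a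
    (fun k => 1 / S.q k ℓ ^ 2) hw hsol
  have hWl : ∑ k ∈ S.H ℓ, (1 / S.q k ℓ ^ 2) * (2 * S.q k ℓ ^ 4 * a k) ^ 2
      = 4 * ∑ k ∈ S.H ℓ, a k ^ 2 * S.q k ℓ ^ 6 := by
    rw [Finset.mul_sum]
    refine Finset.sum_congr rfl fun k hk => ?_
    have := hq0 k hk
    field_simp
    ring
  have hWc : ∑ k ∈ S.H ℓ, (1 / S.q k ℓ ^ 2) * c k ^ 2 = S.Tf ℓ c := by
    unfold Sched.Tf
    exact Finset.sum_congr rfl fun k _ => by ring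
  have hWE : ∑ k ∈ S.H ℓ, ∑ l ∈ S.H ℓ, (1 / S.q k ℓ ^ 2) *
      (EEL α Λ (fun k => 2 * S.q k ℓ ^ 4) k l ^ 2 / (2 * S.q l ℓ ^ 4)) ≤ S.Xf ℓ E := by
    unfold Sched.Xf
    refine Finset.sum_le_sum fun k hk => Finset.sum_le_sum fun l hl => ?_
    have h0 := (S.Xf_term ℓ hk hl).1
    have hk0 := hq0 k hk
    have hl0 := hq0 l hl
    have hE' : E k l = EEL α Λ (fun k => 2 * S.q k ℓ ^ 4) k l := by
      rw [hE]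
      rfl
    rw [hE', one_div_mul_eq_div, div_div]
    refine div_le_div_of_nonneg_left (sq_nonneg _) h0 ?_
    have hm : min (S.q k ℓ) (S.q l ℓ) ^ 2 ≤ S.q l ℓ ^ 2 :=
      pow_le_pow_left₀ (lt_min hk0 hl0).le (min_le_right _ _) 2
    calc S.q k ℓ ^ 2 * S.q l ℓ ^ 2 * min (S.q k ℓ) (S.q l ℓ) ^ 2
        ≤ S.q k ℓ ^ 2 * S.q l ℓ ^ 2 * S.q l ℓ ^ 2 := by gcongr
      _ = S.q k ℓ ^ 2 * S.q l ℓ ^ 4 := by ring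
      _ ≤ 2 * S.q l ℓ ^ 4 * S.q k ℓ ^ 2 := by
          have : 0 ≤ S.q k ℓ ^ 2 * S.q l ℓ ^ 4 := by positivity
          nlinarith
  have hA0 : 0 ≤ ∑ k ∈ S.H ℓ, 2 * S.q k ℓ ^ 4 * a k ^ 2 :=
    Finset.sum_nonneg fun k hk => by
      have := hq0 k hk
      positivity
  have ha6 : ∑ k ∈ S.H ℓ, a k ^ 2 * S.q k ℓ ^ 6 ≤ 1 / 50 := by
    rw [hWl, hWc] at hW
    have h1 : (∑ k ∈ S.H ℓ, ∑ l ∈ S.H ℓ, (1 / S.q k ℓ ^ 2) *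
      (EEL α Λ (fun k => 2 * S.q k ℓ ^ 4) k l ^ 2 / (2 * S.q l ℓ ^ 4)))
        * ∑ l ∈ S.H ℓ, 2 * S.q l ℓ ^ 4 * a l ^ 2 ≤ (1 / 1000) * (2 * S.Tf ℓ c / S.b ℓ ^ 2) :=
      mul_le_mul (hWE.trans hEX) hA' hA0 (by norm_num)
    have h2 : 2 * S.Tf ℓ c / S.b ℓ ^ 2 ≤ 1 := by
      rw [div_le_one (by positivity)]
      have h3 : (1 : ℝ) ≤ S.b ℓ ^ 2 := one_le_pow₀ hb1
      norm_num at hTc
      linarith
    norm_num at hTc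
    linarith
  refine ⟨a, ha0, ?_, hsh', ?_, ha6⟩
  · intro k hk
    exact hsol k hk
  · intro v
    -- Cauchy with `∑ a²`
    have h1 : S.shf α m a v ^ 2 ≤ (∑ k ∈ S.H ℓ, a k ^ 2) * ∑ k ∈ S.H ℓ, α v k ^ 2 :=
      Finset.sum_mul_sq_le_sq_mul_sq _ _ _
    have h2 : ∑ k ∈ S.H ℓ, a k ^ 2 ≤ ∑ k ∈ S.H ℓ, a k ^ 2 * S.q k ℓ ^ 6 := by
      refine Finset.sum_le_sum fun k hk => ?_
      have : 1 ≤ S.q k ℓ ^ 6 := one_le_pow₀ (hq1 k hk)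
      nlinarith [sq_nonneg (a k)]
    have h3 := row_le_one hα (S.H ℓ) v
    have h4 : 0 ≤ ∑ k ∈ S.H ℓ, a k ^ 2 := Finset.sum_nonneg fun _ _ => sq_nonneg _
    have h5 : S.shf α m a v ^ 2 ≤ (1 / 4) ^ 2 := by
      have : (∑ k ∈ S.H ℓ, a k ^ 2) * ∑ k ∈ S.H ℓ, α v k ^ 2 ≤ (∑ k ∈ S.H ℓ, a k ^ 2) * 1 :=
        mul_le_mul_of_nonneg_left h3 h4
      norm_num at ha6 ⊢
      linarith
    exact abs_le_of_sq_le_sq' h5 (by norm_num) |> fun h => abs_le.2 h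

end Vale.Agent.P262S
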