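import Vale.Agent.P262S.ResplitCore

/-! # Re-split, piece P3: the rounding (notes/P262_sqrtd.md, section 4). -/

open Finset

namespace Vale.Agent.P262S

/-! ### Tests on the index type -/

section tests

/-- Rows: coordinates, pairs, three extra rows. -/
abbrev Idx (d : ℕ) := Fin d ⊕ ((Fin d × Fin d) ⊕ Fin 3)

variable {d : ℕ}

/-- The row weights. -/
noncomputable def bet (om : Fin d → ℝ) : Idx d → ℝ := Sum.elim (fun i => √(om i)) (fun _ => 1)

lemma bet_pos {om : Fin d → ℝ} (hom : ∀ i, 0 < om i) : ∀ i, 0 < bet om i := by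
  rintro (i | x)
  · exact Real.sqrt_pos.mpr (hom i)
  · simp [bet]

lemma sv_inl {om : Fin d → ℝ} (hom : ∀ i, 0 < om i) (i : Fin d) :
    sv (bet om) (Sum.inl i) = 1600 / om i := by
  simp [sv, bet, Real.sq_sqrt (hom i).le]

lemma sv_inr {om : Fin d → ℝ} (x : (Fin d × Fin d) ⊕ Fin 3) :
    sv (bet om) (Sum.inr x) = 1600 := by
  simp [sv, bet]

/-- A test on the coordinates. -/
noncomputable def testC (om w c0 : Fin d → ℝ) (τ : ℝ) (hw : ∀ i, 0 ≤ w i) (hτ : 0 < τ)
    (hom : ∀ i, 0 < om i) (hs : ∀ i, τ * w i * (1600 / om i) ≤ 1 / 4) : FT (bet om) where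
  f := Sum.elim w (fun _ => 0)
  c := Sum.elim c0 (fun _ => 0)
  τ := τ
  hf := by rintro (i | x) <;> simp [hw]
  hτ := hτ
  hs := by
    rintro (i | x)
    · rw [sv_inl hom]; exact hs i
    · simp

lemma testC_val (om w c0 : Fin d → ℝ) (τ : ℝ) (hw : ∀ i, 0 ≤ w i) (hτ : 0 < τ)
    (hom : ∀ i, 0 < om i) (hs : ∀ i, τ * w i * (1600 / om i) ≤ 1 / 4) (x : Idx d → ℝ) :
    (testC om w c0 τ hw hτ hom hs).val x = ∑ i, w i * (c0 i + x (Sum.inl i)) ^ 2 := by
  simp [FT.val, testC]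

lemma testC_bd (om w c0 : Fin d → ℝ) (τ : ℝ) (hw : ∀ i, 0 ≤ w i) (hτ : 0 < τ)
    (hom : ∀ i, 0 < om i) (hs : ∀ i, τ * w i * (1600 / om i) ≤ 1 / 4) :
    (testC om w c0 τ hw hτ hom hs).bd
      = ∑ i, (2 * (1600 / om i) * w i + w i * (1 + 4 * τ * w i * (1600 / om i)) * c0 i ^ 2) := by
  unfold FT.bd
  rw [Fintype.sum_sum_type]
  have h2 : ∑ x : (Fin d × Fin d) ⊕ Fin 3, (2 * sv (bet om) (Sum.inr x) * (testC om w c0 τ hw hτ hom hs).f (Sum.inr x)
      + (testC om w c0 τ hw hτ hom hs).f (Sum.inr x) *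
        (1 + 4 * (testC om w c0 τ hw hτ hom hs).τ * (testC om w c0 τ hw hτ hom hs).f (Sum.inr x) * sv (bet om) (Sum.inr x))
          * (testC om w c0 τ hw hτ hom hs).c (Sum.inr x) ^ 2) = 0 := by
    simp [testC]
  rw [h2, add_zero]
  refine Finset.sum_congr rfl fun i _ => ?_
  rw [sv_inl hom]
  rfl

/-- A test on the pairs. -/
noncomputable def testP (om : Fin d → ℝ) (w : Fin d × Fin d → ℝ) (τ : ℝ) (hw : ∀ p, 0 ≤ w p) (hτ : 0 < τ)
    (hs : ∀ p, τ * w p * 1600 ≤ 1 / 4) : FT (bet om) where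
  f := Sum.elim (fun _ => 0) (Sum.elim w (fun _ => 0))
  c := fun _ => 0
  τ := τ
  hf := by rintro (i | p | r) <;> simp [hw]
  hτ := hτ
  hs := by
    rintro (i | p | r)
    · simp
    · rw [sv_inr]; exact hs p
    · simp

lemma testP_val (om : Fin d → ℝ) (w : Fin d × Fin d → ℝ) (τ : ℝ) (hw : ∀ p, 0 ≤ w p) (hτ : 0 < τ)
    (hs : ∀ p, τ * w p * 1600 ≤ 1 / 4) (x : Idx d → ℝ) :
    (testP om w τ hw hτ hs).val x = ∑ p, w p * x (Sum.inr (Sum.inl p)) ^ 2 := by
  simp [FT.val, testP]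

lemma testP_bd (om : Fin d → ℝ) (w : Fin d × Fin d → ℝ) (τ : ℝ) (hw : ∀ p, 0 ≤ w p) (hτ : 0 < τ)
    (hs : ∀ p, τ * w p * 1600 ≤ 1 / 4) :
    (testP om w τ hw hτ hs).bd = ∑ p, 3200 * w p := by
  unfold FT.bd
  rw [Fintype.sum_sum_type, Fintype.sum_sum_type]
  simp only [sv_inr]
  simp only [testP, Sum.elim_inl, Sum.elim_inr]
  simp
  refine Finset.sum_congr rfl fun p _ => ?_
  ring

/-- A test on one extra row. -/
noncomputable def testR (om : Fin d → ℝ) (j : Fin 3) : FT (bet om) where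
  f := Sum.elim (fun _ => 0) (Sum.elim (fun _ => 0) (fun r => if r = j then 1 else 0))
  c := fun _ => 0
  τ := 1 / 6400
  hf := by
    rintro (i | p | r)
    · simp
    · simp
    · simp only [Sum.elim_inr]; split_ifs <;> norm_num
  hτ := by norm_num
  hs := by
    rintro (i | p | r)
    · simp
    · simp
    · rw [sv_inr]
      simp only [Sum.elim_inr]
      split_ifs <;> norm_num

lemma testR_val (om : Fin d → ℝ) (j : Fin 3) (x : Idx d → ℝ) :
    (testR om j).val x = x (Sum.inr (Sum.inr j)) ^ 2 := by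
  simp [FT.val, testR]

lemma testR_bd (om : Fin d → ℝ) (j : Fin 3) : (testR om j).bd = 3200 := by
  unfold FT.bd
  rw [Fintype.sum_sum_type, Fintype.sum_sum_type]
  simp only [sv_inr]
  simp [testR]
  norm_num

lemma log16_le : Real.log (1 / (1 / 16)) ≤ 3 := by
  have h : (1 / (1 / 16) : ℝ) = 2 ^ 4 := by norm_num
  rw [h, Real.log_pow]
  have := Real.log_two_lt_d9
  push_cast
  linarith

lemma sum_ite_pair (H H' : Finset (Fin d)) (g : Fin d → Fin d → ℝ) :
    ∑ p : Fin d × Fin d, (if p.1 ∈ H ∧ p.2 ∈ H' then g p.1 p.2 else 0) = ∑ k ∈ H, ∑ l ∈ H', g k l := by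
  rw [Fintype.sum_prod_type]
  simp only
  have h : ∀ k : Fin d, ∑ l : Fin d, (if k ∈ H ∧ l ∈ H' then g k l else 0)
      = if k ∈ H then ∑ l ∈ H', g k l else 0 := by
    intro k
    by_cases hk : k ∈ H
    · simp [hk]
    · simp [hk]
  simp_rw [h]
  simp

lemma sum_ite_one (H : Finset (Fin d)) (g : Fin d → ℝ) :
    ∑ i, (if i ∈ H then g i else 0) = ∑ i ∈ H, g i := by
  simp

end tests


variable {d : ℕ} (S : Sched d)
variable {V : Type} [Fintype V] [DecidableEq V] (α : V → Fin d → ℝ)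

/-! ### The scale of the corrected forms -/

section forms

lemma bnum {b : ℝ} (hb : (2 : ℝ) ^ 42 ≤ b) {C : ℝ} (hC : C ≤ 3) :
    3200 / b + C / (b ^ 2 / 6400) ≤ 1 / 1000 := by
  have hbp : 0 < b := lt_of_lt_of_le (by norm_num) hb
  have h1 : 3200 / b ≤ 3200 / 2 ^ 42 := by gcongr
  have h2 : C / (b ^ 2 / 6400) ≤ 3 / ((2 ^ 42) ^ 2 / 6400) := by gcongr
  have h3 : (3200 : ℝ) / 2 ^ 42 + 3 / ((2 ^ 42) ^ 2 / 6400) ≤ 1 / 1000 := by norm_num
  linarith

/-- The test of the form `Tf L`. -/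
noncomputable def Sched.testT (L : ℕ) (om : Fin d → ℝ) (hom : ∀ i, 1 ≤ om i) : FT (bet om) :=
  testC om (fun i => if i ∈ S.H L then 1 / S.q i L ^ 2 else 0) (fun _ => 0) (S.b L ^ 2 / 6400)
    (fun i => by
      split_ifs
      · positivity
      · exact le_rfl)
    (by have := S.b_ge L; have h : (0:ℝ) < S.b L := lt_of_lt_of_le (by norm_num) this; positivity)
    (fun i => lt_of_lt_of_le one_pos (hom i))
    (fun i => by
      split_ifs with hi
      · have hb : 0 < S.b L := lt_of_lt_of_le (by norm_num) (S.b_ge L)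
        have hq := S.b_le_q hi
        have hq0 : 0 < S.q i L := S.q_pos hi
        have h1 : S.b L ^ 2 / S.q i L ^ 2 ≤ 1 := by
          rw [div_le_one (by positivity)]
          gcongr
        have h2 : 1600 / om i ≤ 1600 := div_le_self (by norm_num) (hom i)
        have e : S.b L ^ 2 / 6400 * (1 / S.q i L ^ 2) * (1600 / om i)
            = (S.b L ^ 2 / S.q i L ^ 2) * (1600 / om i) / 6400 := by ring
        rw [e, div_le_iff₀ (by norm_num)]
        have h3 : (S.b L ^ 2 / S.q i L ^ 2) * (1600 / om i) ≤ 1 * 1600 :=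
          mul_le_mul h1 h2 (by have := hom i; positivity) (by norm_num)
        linarith
      · norm_num)

lemma Sched.testT_out (L : ℕ) (om : Fin d → ℝ) (hom : ∀ i, 1 ≤ om i) (X : Idx d → ℝ)
    (h : (S.testT L om hom).val X ≤ (S.testT L om hom).bd
      + Real.log (1 / (1 / 16)) / (S.testT L om hom).τ) :
    S.Tf L (fun i => X (Sum.inl i)) ≤ 1 / 1000 := by
  have hv : (S.testT L om hom).val X = S.Tf L (fun i => X (Sum.inl i)) := by
    unfold Sched.testT
    rw [testC_val]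
    unfold Sched.Tf
    rw [← sum_ite_one (S.H L) (fun i => X (Sum.inl i) ^ 2 / S.q i L ^ 2)]
    refine Finset.sum_congr rfl fun i _ => ?_
    split_ifs
    · simp only [zero_add]; ring
    · simp
  have hb : (S.testT L om hom).bd ≤ 3200 / S.b L := by
    unfold Sched.testT
    rw [testC_bd]
    calc _ ≤ ∑ i, (3200 * (if i ∈ S.H L then 1 / S.q i L ^ 2 else 0)) := by
          refine Finset.sum_le_sum fun i _ => ?_
          have h2 : 1600 / om i ≤ 1600 := div_le_self (by norm_num) (hom i)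
          have h0 : 0 ≤ (if i ∈ S.H L then 1 / S.q i L ^ 2 else 0) := by
            split_ifs
            · positivity
            · exact le_rfl
          simp only [ne_eq, OfNat.ofNat_ne_zero, not_false_eq_true, zero_pow, mul_zero, add_zero]
          nlinarith
      _ = 3200 * ∑ i ∈ S.H L, 1 / S.q i L ^ 2 := by
          rw [← Finset.mul_sum, sum_ite_one]
      _ ≤ 3200 * (1 / S.b L) := by
          gcongr
          exact S.sum_inv_q2 L
      _ = _ := by ring
  rw [hv] at h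
  have hτ : (S.testT L om hom).τ = S.b L ^ 2 / 6400 := rfl
  rw [hτ] at h
  have := bnum (S.b_ge L) log16_le
  linarith

/-- The test of the form `Xf L`. -/
noncomputable def Sched.testX (L : ℕ) (om : Fin d → ℝ) : FT (bet om) :=
  testP om (fun p => if p.1 ∈ S.H L ∧ p.2 ∈ S.H L then
      1 / (S.q p.1 L ^ 2 * S.q p.2 L ^ 2 * min (S.q p.1 L) (S.q p.2 L) ^ 2) else 0)
    (S.b L ^ 6 / 6400)
    (fun p => by
      split_ifs
      · positivity
      · exact le_rfl)
    (by have h : (0:ℝ) < S.b L := lt_of_lt_of_le (by norm_num) (S.b_ge L); positivity)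
    (fun p => by
      split_ifs with hi
      · have hb : 0 < S.b L := lt_of_lt_of_le (by norm_num) (S.b_ge L)
        have hq1 := S.b_le_q hi.1
        have hq2 := S.b_le_q hi.2
        have hm : S.b L ≤ min (S.q p.1 L) (S.q p.2 L) := le_min hq1 hq2
        have hle : S.b L ^ 6 ≤ S.q p.1 L ^ 2 * S.q p.2 L ^ 2 * min (S.q p.1 L) (S.q p.2 L) ^ 2 := by
          calc S.b L ^ 6 = S.b L ^ 2 * S.b L ^ 2 * S.b L ^ 2 := by ring
            _ ≤ _ := by gcongr
        have hpos : 0 < S.q p.1 L ^ 2 * S.q p.2 L ^ 2 * min (S.q p.1 L) (S.q p.2 L) ^ 2 :=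
          lt_of_lt_of_le (by positivity) hle
        have e : S.b L ^ 6 / 6400 * (1 / (S.q p.1 L ^ 2 * S.q p.2 L ^ 2 * min (S.q p.1 L) (S.q p.2 L) ^ 2)) * 1600
            = (S.b L ^ 6 / (S.q p.1 L ^ 2 * S.q p.2 L ^ 2 * min (S.q p.1 L) (S.q p.2 L) ^ 2)) / 4 := by
          field_simp
          norm_num
        rw [e]
        have h1 : S.b L ^ 6 / (S.q p.1 L ^ 2 * S.q p.2 L ^ 2 * min (S.q p.1 L) (S.q p.2 L) ^ 2) ≤ 1 :=
          (div_le_one hpos).mpr hle
        linarith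
      · norm_num)

lemma Sched.testX_out (L : ℕ) (om : Fin d → ℝ) (X : Idx d → ℝ)
    (h : (S.testX L om).val X ≤ (S.testX L om).bd + Real.log (1 / (1 / 16)) / (S.testX L om).τ) :
    S.Xf L (fun k l => X (Sum.inr (Sum.inl (k, l)))) ≤ 1 / 10 ^ 10 := by
  have hb0 : 0 < S.b L := lt_of_lt_of_le (by norm_num) (S.b_ge L)
  have hv : (S.testX L om).val X = S.Xf L (fun k l => X (Sum.inr (Sum.inl (k, l)))) := by
    unfold Sched.testX
    rw [testP_val]
    unfold Sched.Xf
    rw [← sum_ite_pair]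
    refine Finset.sum_congr rfl fun p _ => ?_
    split_ifs
    · ring
    · simp
  have hb : (S.testX L om).bd ≤ 3200 * (1 / S.b L ^ 4) := by
    unfold Sched.testX
    rw [testP_bd, ← Finset.mul_sum]
    gcongr
    have h1 : ∑ p : Fin d × Fin d, (if p.1 ∈ S.H L ∧ p.2 ∈ S.H L then
        1 / (S.q p.1 L ^ 2 * S.q p.2 L ^ 2 * min (S.q p.1 L) (S.q p.2 L) ^ 2) else 0)
        = ∑ k ∈ S.H L, ∑ l ∈ S.H L, 1 / (S.q k L ^ 2 * S.q l L ^ 2 * min (S.q k L) (S.q l L) ^ 2) :=
      sum_ite_pair _ _ (fun k l => 1 / (S.q k L ^ 2 * S.q l L ^ 2 * min (S.q k L) (S.q l L) ^ 2))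
    rw [h1]
    calc _ ≤ ∑ k ∈ S.H L, ∑ l ∈ S.H L, (1 / S.q k L ^ 2) * ((1 / S.q l L ^ 2) * (1 / S.b L ^ 2)) := by
          refine Finset.sum_le_sum fun k hk => Finset.sum_le_sum fun l hl => ?_
          have hqk := S.q_pos hk
          have hql := S.q_pos hl
          have hm : S.b L ≤ min (S.q k L) (S.q l L) := le_min (S.b_le_q hk) (S.b_le_q hl)
          rw [one_div_mul_one_div, one_div_mul_one_div]
          apply one_div_le_one_div_of_le (by positivity)
          rw [mul_assoc]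
          gcongr
      _ = (∑ k ∈ S.H L, 1 / S.q k L ^ 2) * ((∑ l ∈ S.H L, 1 / S.q l L ^ 2) * (1 / S.b L ^ 2)) := by
          rw [Finset.sum_mul]
          refine Finset.sum_congr rfl fun k _ => ?_
          rw [Finset.sum_mul, Finset.mul_sum]
      _ ≤ (1 / S.b L) * ((1 / S.b L) * (1 / S.b L ^ 2)) := by
          have h2 := S.sum_inv_q2 L
          have h3 : 0 ≤ ∑ l ∈ S.H L, 1 / S.q l L ^ 2 := Finset.sum_nonneg fun l _ => by positivity
          gcongr
      _ = 1 / S.b L ^ 4 := by field_simp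
  rw [hv] at h
  have hτ : (S.testX L om).τ = S.b L ^ 6 / 6400 := rfl
  rw [hτ] at h
  have hb2 := S.b_ge L
  have hlog : Real.log (1 / (1 / 16 : ℝ)) / (S.b L ^ 6 / 6400) ≤ 3 / ((2 ^ 42) ^ 6 / 6400) := by
    have h0 : 0 ≤ Real.log (1 / (1 / 16 : ℝ)) := Real.log_nonneg (by norm_num)
    have := log16_le
    gcongr
  have h5 : 3200 * (1 / S.b L ^ 4) ≤ 3200 * (1 / (2 ^ 42) ^ 4) := by gcongr
  have h6 : (3200 : ℝ) * (1 / (2 ^ 42) ^ 4) + 3 / ((2 ^ 42) ^ 6 / 6400) ≤ 1 / 10 ^ 10 := by norm_num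
  linarith

/-- The test of the form `Xp L`. -/
noncomputable def Sched.testXp (L : ℕ) (om : Fin d → ℝ) : FT (bet om) :=
  testP om (fun p => if p.1 ∈ S.H L ∧ p.2 ∈ S.C L then 1 / S.q p.1 L ^ 6 else 0)
    (S.b L ^ 6 / 6400)
    (fun p => by
      split_ifs
      · positivity
      · exact le_rfl)
    (by have h : (0:ℝ) < S.b L := lt_of_lt_of_le (by norm_num) (S.b_ge L); positivity)
    (fun p => by
      split_ifs with hi
      · have hb : 0 < S.b L := lt_of_lt_of_le (by norm_num) (S.b_ge L)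
        have hq1 := S.b_le_q hi.1
        have hq0 := S.q_pos hi.1
        have hle : S.b L ^ 6 ≤ S.q p.1 L ^ 6 := by gcongr
        have e : S.b L ^ 6 / 6400 * (1 / S.q p.1 L ^ 6) * 1600 = (S.b L ^ 6 / S.q p.1 L ^ 6) / 4 := by
          field_simp
          norm_num
        rw [e]
        have h1 : S.b L ^ 6 / S.q p.1 L ^ 6 ≤ 1 := (div_le_one (by positivity)).mpr hle
        linarith
      · norm_num)

lemma Sched.testXp_out (L : ℕ) (om : Fin d → ℝ) (X : Idx d → ℝ)
    (h : (S.testXp L om).val X ≤ (S.testXp L om).bd + Real.log (1 / (1 / 16)) / (S.testXp L om).τ) :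
    S.Xp L (fun k l => X (Sum.inr (Sum.inl (k, l)))) ≤ ((S.C L).card : ℝ) / 10 ^ 10 := by
  have hb0 : 0 < S.b L := lt_of_lt_of_le (by norm_num) (S.b_ge L)
  rcases (S.C L).eq_empty_or_nonempty with hC | hC
  · simp [Sched.Xp, hC]
  have hC1 : (1 : ℝ) ≤ ((S.C L).card : ℝ) := by
    exact_mod_cast Finset.card_pos.mpr hC
  have hv : (S.testXp L om).val X = S.Xp L (fun k l => X (Sum.inr (Sum.inl (k, l)))) := by
    unfold Sched.testXp
    rw [testP_val]
    unfold Sched.Xp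
    rw [← sum_ite_pair (S.H L) (S.C L) (fun k c => X (Sum.inr (Sum.inl (k, c))) ^ 2 / S.q k L ^ 6)]
    refine Finset.sum_congr rfl fun p _ => ?_
    split_ifs
    · ring
    · simp
  have hb : (S.testXp L om).bd ≤ 3200 * (((S.C L).card : ℝ) * (1 / S.b L ^ 5)) := by
    unfold Sched.testXp
    rw [testP_bd, ← Finset.mul_sum]
    gcongr
    have h1 : ∑ p : Fin d × Fin d, (if p.1 ∈ S.H L ∧ p.2 ∈ S.C L then 1 / S.q p.1 L ^ 6 else 0)
        = ∑ k ∈ S.H L, ∑ _c ∈ S.C L, 1 / S.q k L ^ 6 :=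
      sum_ite_pair _ _ (fun k _ => 1 / S.q k L ^ 6)
    rw [h1]
    simp only [Finset.sum_const, nsmul_eq_mul]
    rw [← Finset.mul_sum]
    gcongr
    calc ∑ k ∈ S.H L, 1 / S.q k L ^ 6 ≤ ∑ k ∈ S.H L, (1 / S.q k L ^ 2) * (1 / S.b L ^ 4) := by
          refine Finset.sum_le_sum fun k hk => ?_
          have hqk := S.q_pos hk
          have hq := S.b_le_q hk
          rw [one_div_mul_one_div]
          apply one_div_le_one_div_of_le (by positivity)
          calc S.q k L ^ 2 * S.b L ^ 4 ≤ S.q k L ^ 2 * S.q k L ^ 4 := by gcongr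
            _ = S.q k L ^ 6 := by ring
      _ = (∑ k ∈ S.H L, 1 / S.q k L ^ 2) * (1 / S.b L ^ 4) := by rw [Finset.sum_mul]
      _ ≤ (1 / S.b L) * (1 / S.b L ^ 4) := by
          have := S.sum_inv_q2 L
          gcongr
      _ = 1 / S.b L ^ 5 := by field_simp
  rw [hv] at h
  have hτ : (S.testXp L om).τ = S.b L ^ 6 / 6400 := rfl
  rw [hτ] at h
  have hb2 := S.b_ge L
  have hlog : Real.log (1 / (1 / 16 : ℝ)) / (S.b L ^ 6 / 6400) ≤ 3 / ((2 ^ 42) ^ 6 / 6400) := by
    have h0 : 0 ≤ Real.log (1 / (1 / 16 : ℝ)) := Real.log_nonneg (by norm_num)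
    have := log16_le
    gcongr
  have h5 : 1 / S.b L ^ 5 ≤ 1 / (2 ^ 42) ^ 5 := by gcongr
  have h6 : (3200 : ℝ) * (1 / (2 ^ 42) ^ 5) + 3 / ((2 ^ 42) ^ 6 / 6400) ≤ 1 / 10 ^ 10 := by norm_num
  have hc0 : (0 : ℝ) ≤ ((S.C L).card : ℝ) := by positivity
  have h7 : 3200 * (((S.C L).card : ℝ) * (1 / S.b L ^ 5)) ≤ ((S.C L).card : ℝ) * (3200 * (1 / (2 ^ 42) ^ 5)) := by
    have := mul_le_mul_of_nonneg_left h5 hc0
    nlinarith
  have h8 : 3 / (((2 : ℝ) ^ 42) ^ 6 / 6400) ≤ ((S.C L).card : ℝ) * (3 / ((2 ^ 42) ^ 6 / 6400)) := by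
    have h9 : (0 : ℝ) ≤ 3 / (((2 : ℝ) ^ 42) ^ 6 / 6400) := by positivity
    nlinarith
  have h10 : ((S.C L).card : ℝ) * (3200 * (1 / (2 ^ 42) ^ 5) + 3 / ((2 ^ 42) ^ 6 / 6400))
      ≤ ((S.C L).card : ℝ) * (1 / 10 ^ 10) := mul_le_mul_of_nonneg_left h6 hc0
  have e : ((S.C L).card : ℝ) / 10 ^ 10 = ((S.C L).card : ℝ) * (1 / 10 ^ 10) := by ring
  rw [e]
  nlinarith

end forms


/-! ### The coordinate tests with unit scale -/

section cotests

/-- The test of a sum over a class, scale `1/6400`. -/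
noncomputable def testCl (Cl : Finset (Fin d)) (om : Fin d → ℝ) (hom : ∀ i, 1 ≤ om i) : FT (bet om) :=
  testC om (fun i => if i ∈ Cl then 1 else 0) (fun _ => 0) (1 / 6400)
    (fun i => by split_ifs <;> norm_num)
    (by norm_num)
    (fun i => lt_of_lt_of_le one_pos (hom i))
    (fun i => by
      have h2 : 1600 / om i ≤ 1600 := div_le_self (by norm_num) (hom i)
      split_ifs
      · linarith
      · norm_num)

lemma testCl_out (Cl : Finset (Fin d)) (om : Fin d → ℝ) (hom : ∀ i, 1 ≤ om i) (X : Idx d → ℝ)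
    (h : (testCl Cl om hom).val X ≤ (testCl Cl om hom).bd
      + Real.log (1 / (1 / 16)) / (testCl Cl om hom).τ) :
    ∑ i ∈ Cl, X (Sum.inl i) ^ 2 ≤ if Cl.Nonempty then 3200 * (Cl.card : ℝ) + 19200 else 0 := by
  split_ifs with hC
  · have hv : (testCl Cl om hom).val X = ∑ i ∈ Cl, X (Sum.inl i) ^ 2 := by
      unfold testCl
      rw [testC_val]
      rw [← sum_ite_one Cl (fun i => X (Sum.inl i) ^ 2)]
      refine Finset.sum_congr rfl fun i _ => ?_
      split_ifs
      · simp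
      · simp
    have hb : (testCl Cl om hom).bd ≤ 3200 * (Cl.card : ℝ) := by
      unfold testCl
      rw [testC_bd]
      calc _ ≤ ∑ i, (3200 * (if i ∈ Cl then (1 : ℝ) else 0)) := by
            refine Finset.sum_le_sum fun i _ => ?_
            have h2 : 1600 / om i ≤ 1600 := div_le_self (by norm_num) (hom i)
            have h0 : (0 : ℝ) ≤ (if i ∈ Cl then (1 : ℝ) else 0) := by split_ifs <;> norm_num
            simp only [ne_eq, OfNat.ofNat_ne_zero, not_false_eq_true, zero_pow, mul_zero, add_zero]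
            nlinarith
        _ = 3200 * (Cl.card : ℝ) := by
            rw [← Finset.mul_sum, sum_ite_one]
            simp
    rw [hv] at h
    have hτ : (testCl Cl om hom).τ = 1 / 6400 := rfl
    rw [hτ] at h
    have h3 : Real.log (1 / (1 / 16 : ℝ)) / (1 / 6400) ≤ 19200 := by
      have := log16_le
      rw [div_le_iff₀ (by norm_num)]
      linarith
    linarith
  · have : Cl = ∅ := Finset.not_nonempty_iff_eq_empty.mp hC
    simp [this]

lemma testR_out (om : Fin d → ℝ) (j : Fin 3) (X : Idx d → ℝ)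
    (h : (testR om j).val X ≤ (testR om j).bd + Real.log (1 / (1 / 16)) / (testR om j).τ) :
    X (Sum.inr (Sum.inr j)) ^ 2 ≤ 22400 := by
  rw [testR_val, testR_bd] at h
  have hτ : (testR om j).τ = 1 / 6400 := rfl
  rw [hτ] at h
  have h3 : Real.log (1 / (1 / 16 : ℝ)) / (1 / 6400) ≤ 19200 := by
    have := log16_le
    rw [div_le_iff₀ (by norm_num)]
    linarith
  linarith

/-- The test of the light sum form. -/
noncomputable def Sched.testLF (m : ℕ) : FT (bet (S.om (m + 1))) :=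
  testC (S.om (m + 1)) (fun i => if i ∈ S.U (m + 1) then S.ph (m + 1) i else 0) (fun _ => 0)
    (1 / (12000 * S.Θ (m + 1)))
    (fun i => by
      split_ifs
      · exact le_trans zero_le_one (S.one_le_ph _ _)
      · exact le_rfl)
    (by have := S.Θ_pos (m + 1); positivity)
    (fun i => S.om_pos _ _)
    (fun i => by
      have hΘ := S.Θ_pos (m + 1)
      have hom := S.om_pos (m + 1) i
      split_ifs with hi
      · have h1 := S.resplit_ph_om (S.mem_U.mp hi)
        have e : 1 / (12000 * S.Θ (m + 1)) * S.ph (m + 1) i * (1600 / S.om (m + 1) i)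
            = (2 / 15) * (S.ph (m + 1) i / (S.Θ (m + 1) * S.om (m + 1) i)) := by
          field_simp
          ring
        rw [e]
        have h2 : S.ph (m + 1) i / (S.Θ (m + 1) * S.om (m + 1) i) ≤ 16 / 9 := by
          rw [div_le_iff₀ (by positivity)]
          linarith
        linarith
      · simp)

lemma Sched.testLF_out (m : ℕ) (X : Idx d → ℝ)
    (h : (S.testLF m).val X ≤ (S.testLF m).bd + Real.log (1 / (1 / 16)) / (S.testLF m).τ) :
    S.LFf (m + 1) (fun i => X (Sum.inl i)) ≤ S.LNr (m + 1) := by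
  have hΘ := S.Θ_pos (m + 1)
  have hv : (S.testLF m).val X = S.LFf (m + 1) (fun i => X (Sum.inl i)) := by
    unfold Sched.testLF
    rw [testC_val]
    unfold Sched.LFf
    rw [← sum_ite_one (S.U (m + 1)) (fun i => S.ph (m + 1) i * X (Sum.inl i) ^ 2)]
    refine Finset.sum_congr rfl fun i _ => ?_
    split_ifs
    · simp
    · simp
  have hb : (S.testLF m).bd = 3200 * S.Vx (m + 1) := by
    unfold Sched.testLF
    rw [testC_bd]
    unfold Sched.Vx
    rw [Finset.mul_sum, ← sum_ite_one (S.U (m + 1)) (fun i => 3200 * (S.ph (m + 1) i / S.om (m + 1) i))]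
    refine Finset.sum_congr rfl fun i _ => ?_
    split_ifs
    · simp
      ring
    · simp
  rw [hv, hb] at h
  have hτ : (S.testLF m).τ = 1 / (12000 * S.Θ (m + 1)) := rfl
  rw [hτ] at h
  unfold Sched.LNr
  have h3 : Real.log (1 / (1 / 16 : ℝ)) / (1 / (12000 * S.Θ (m + 1))) ≤ 36000 * S.Θ (m + 1) := by
    have := log16_le
    rw [div_le_iff₀ (by positivity)]
    have e : 36000 * S.Θ (m + 1) * (1 / (12000 * S.Θ (m + 1))) = 3 := by
      field_simp
      norm_num
    rw [e]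
    exact this
  linarith

/-- The test of the position form with a centre. -/
noncomputable def Sched.testQ (m k : ℕ) (hk : k ≤ 6) (c0 : Fin d → ℝ) : FT (bet (S.om (m + 1))) :=
  testC (S.om (m + 1)) (fun i => if i ∈ S.U (m + 1) then S.Wk (m + 1) k i else 0) c0
    (1 / (960000 * S.Θ (m + 1)))
    (fun i => by
      split_ifs
      · exact (S.Wk_pos _ _ _).le
      · exact le_rfl)
    (by have := S.Θ_pos (m + 1); positivity)
    (fun i => S.om_pos _ _)
    (fun i => by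
      have hΘ := S.Θ_pos (m + 1)
      have hom := S.om_pos (m + 1) i
      split_ifs with hi
      · have hi' := S.mem_U.mp hi
        have h1 := S.resplit_scale hi'
        have h2 := S.ag_le_one (m + 1) i
        have h3 := S.Wk_le_one hk hi'
        have h4 := S.Wk_pos (m + 1) k i
        have hag := S.ag_pos (m + 1) i
        have e : 1 / (960000 * S.Θ (m + 1)) * S.Wk (m + 1) k i * (1600 / S.om (m + 1) i)
            = (1 / 600) * (S.Wk (m + 1) k i / (S.Θ (m + 1) * S.om (m + 1) i)) := by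
          field_simp
          norm_num
        rw [e]
        have h5 : S.Wk (m + 1) k i / (S.Θ (m + 1) * S.om (m + 1) i) ≤ 3 := by
          rw [div_le_iff₀ (by positivity)]
          have h6 : 0 < S.Θ (m + 1) * S.om (m + 1) i := by positivity
          nlinarith
        linarith
      · simp)

lemma Sched.testQ_out (m k : ℕ) (hk : k ≤ 6) (c0 : Fin d → ℝ) (X : Idx d → ℝ) (L : ℝ) (hL : 0 ≤ L)
    (h : (S.testQ m k hk c0).val X ≤ (S.testQ m k hk c0).bd + L / (S.testQ m k hk c0).τ) :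
    S.Qf (m + 1) (S.Wk (m + 1) k) (fun i => c0 i + X (Sum.inl i))
      ≤ 3200 * S.Vx (m + 1) + ∑ i ∈ S.U (m + 1), S.Wk (m + 1) (k + 1) i * c0 i ^ 2
        + L * (960000 * S.Θ (m + 1)) := by
  have hΘ := S.Θ_pos (m + 1)
  have hv : (S.testQ m k hk c0).val X = S.Qf (m + 1) (S.Wk (m + 1) k) (fun i => c0 i + X (Sum.inl i)) := by
    unfold Sched.testQ
    rw [testC_val]
    unfold Sched.Qf
    rw [← sum_ite_one (S.U (m + 1)) (fun i => S.Wk (m + 1) k i * (c0 i + X (Sum.inl i)) ^ 2)]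
    refine Finset.sum_congr rfl fun i _ => ?_
    split_ifs
    · rfl
    · simp
  have hb : (S.testQ m k hk c0).bd ≤ 3200 * S.Vx (m + 1)
      + ∑ i ∈ S.U (m + 1), S.Wk (m + 1) (k + 1) i * c0 i ^ 2 := by
    unfold Sched.testQ
    rw [testC_bd]
    unfold Sched.Vx
    rw [Finset.mul_sum, ← Finset.sum_add_distrib,
      ← sum_ite_one (S.U (m + 1)) (fun i => 3200 * (S.ph (m + 1) i / S.om (m + 1) i)
        + S.Wk (m + 1) (k + 1) i * c0 i ^ 2)]
    refine Finset.sum_le_sum fun i _ => ?_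
    split_ifs with hi
    · have hi' := S.mem_U.mp hi
      have hom := S.om_pos (m + 1) i
      have h1 := S.resplit_scale hi'
      have h3 := S.Wk_le_one hk hi'
      have h4 := S.Wk_pos (m + 1) k i
      have hag := S.ag_pos (m + 1) i
      have hph := S.one_le_ph (m + 1) i
      have t1 : 2 * (1600 / S.om (m + 1) i) * S.Wk (m + 1) k i ≤ 3200 * (S.ph (m + 1) i / S.om (m + 1) i) := by
        have e1 : 2 * (1600 / S.om (m + 1) i) * S.Wk (m + 1) k i = 3200 * (S.Wk (m + 1) k i / S.om (m + 1) i) := by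
          ring
        rw [e1]
        gcongr
        linarith
      have t2 : S.Wk (m + 1) k i * (1 + 4 * (1 / (960000 * S.Θ (m + 1))) * S.Wk (m + 1) k i * (1600 / S.om (m + 1) i))
          ≤ S.Wk (m + 1) (k + 1) i := by
        rw [S.Wk_succ]
        apply mul_le_mul_of_nonneg_left _ h4.le
        unfold Sched.fa
        have e : 4 * (1 / (960000 * S.Θ (m + 1))) * S.Wk (m + 1) k i * (1600 / S.om (m + 1) i)
            = (1 / 150) * (S.Wk (m + 1) k i / (S.Θ (m + 1) * S.om (m + 1) i)) := by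
          field_simp
          norm_num
        rw [e]
        have h5 : S.Wk (m + 1) k i / (S.Θ (m + 1) * S.om (m + 1) i) ≤ 3 * S.ag (m + 1) i := by
          rw [div_le_iff₀ (by positivity)]
          have : 3 * S.ag (m + 1) i * (S.Θ (m + 1) * S.om (m + 1) i)
              = 3 * S.ag (m + 1) i * S.Θ (m + 1) * S.om (m + 1) i := by ring
          rw [this]
          linarith
        linarith
      have t3 := mul_le_mul_of_nonneg_right t2 (sq_nonneg (c0 i))
      linarith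
    · simp
  rw [hv] at h
  have hτ : (S.testQ m k hk c0).τ = 1 / (960000 * S.Θ (m + 1)) := rfl
  rw [hτ] at h
  have e : L / (1 / (960000 * S.Θ (m + 1))) = L * (960000 * S.Θ (m + 1)) := by
    field_simp
  rw [e] at h
  linarith

end cotests

/-! ### The rows -/

section rows

/-- The rows of an element. -/
noncomputable def Sched.rowsP3 (m : ℕ) (v : V) : Idx d → ℝ :=
  Sum.elim (fun i => α v i) (Sum.elim (fun p => α v p.1 * α v p.2)
    ![S.uu α (m + 1) v, Row α (S.C (m + 1)) v, Row α (S.C m) v])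

lemma Row_le (hα : ∀ v, ∑ i, α v i ^ 2 ≤ 1) (Cl : Finset (Fin d)) (v : V) : Row α Cl v ≤ 1 := by
  refine le_trans ?_ (hα v)
  exact Finset.sum_le_univ_sum_of_nonneg fun i => sq_nonneg _

lemma Row_nonneg (Cl : Finset (Fin d)) (v : V) : 0 ≤ Row α Cl v :=
  Finset.sum_nonneg fun _ _ => sq_nonneg _

lemma Sched.rows_norm (hα : ∀ v, ∑ i, α v i ^ 2 ≤ 1) (m : ℕ) (v : V) (hv : ¬ S.Hv α (m + 1) v) :
    ∑ I, (bet (S.om (m + 1)) I / 3 * S.rowsP3 α m v I) ^ 2 ≤ 1 := by
  have hu : S.uu α (m + 1) v ≤ 1 := not_lt.mp hv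
  have hu0 := S.uu_nonneg α (m + 1) v
  rw [Fintype.sum_sum_type, Fintype.sum_sum_type, Fin.sum_univ_three]
  simp only [bet, Sched.rowsP3, Sum.elim_inl, Sum.elim_inr]
  -- coordinates
  have h1 : ∑ i, (√(S.om (m + 1) i) / 3 * α v i) ^ 2 ≤ 2 / 9 := by
    have e : ∀ i, (√(S.om (m + 1) i) / 3 * α v i) ^ 2 = (1 / 9) * (S.om (m + 1) i * α v i ^ 2) := by
      intro i
      rw [mul_pow, div_pow, Real.sq_sqrt (S.om_pos _ _).le]
      ring
    simp_rw [e]
    rw [← Finset.mul_sum]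
    have h2 : ∑ i, S.om (m + 1) i * α v i ^ 2 ≤ S.uu α (m + 1) v + ∑ i, α v i ^ 2 := by
      unfold Sched.uu
      rw [Finset.sum_filter, ← Finset.sum_add_distrib]
      refine Finset.sum_le_sum fun i _ => ?_
      unfold Sched.om
      split_ifs with hi
      · nlinarith [sq_nonneg (α v i)]
      · simp
    have h3 := hα v
    linarith
  -- pairs
  have h4 : ∑ p : Fin d × Fin d, ((1 : ℝ) / 3 * (α v p.1 * α v p.2)) ^ 2 ≤ 1 / 9 := by
    rw [Fintype.sum_prod_type]
    simp only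
    have e : ∑ k, ∑ l, ((1 : ℝ) / 3 * (α v k * α v l)) ^ 2 = (1 / 9) * ((∑ k, α v k ^ 2) * ∑ l, α v l ^ 2) := by
      rw [Finset.sum_mul_sum, Finset.mul_sum]
      refine Finset.sum_congr rfl fun k _ => ?_
      rw [Finset.mul_sum]
      refine Finset.sum_congr rfl fun l _ => ?_
      ring
    rw [e]
    have h3 := hα v
    have h0 : 0 ≤ ∑ k, α v k ^ 2 := Finset.sum_nonneg fun _ _ => sq_nonneg _
    nlinarith
  have r1 := Row_le α hα (S.C (m + 1)) v
  have r1' := Row_nonneg α (S.C (m + 1)) v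
  have r2 := Row_le α hα (S.C m) v
  have r2' := Row_nonneg α (S.C m) v
  have e0 : ((![S.uu α (m + 1) v, Row α (S.C (m + 1)) v, Row α (S.C m) v] : Fin 3 → ℝ) 0) = S.uu α (m + 1) v := rfl
  have e1 : ((![S.uu α (m + 1) v, Row α (S.C (m + 1)) v, Row α (S.C m) v] : Fin 3 → ℝ) 1) = Row α (S.C (m + 1)) v := rfl
  have e2 : ((![S.uu α (m + 1) v, Row α (S.C (m + 1)) v, Row α (S.C m) v] : Fin 3 → ℝ) 2) = Row α (S.C m) v := rfl
  rw [e0, e1, e2]
  have s0 : ((1 : ℝ) / 3 * S.uu α (m + 1) v) ^ 2 ≤ 1 / 9 := by nlinarith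
  have s1 : ((1 : ℝ) / 3 * Row α (S.C (m + 1)) v) ^ 2 ≤ 1 / 9 := by nlinarith
  have s2 : ((1 : ℝ) / 3 * Row α (S.C m) v) ^ 2 ≤ 1 / 9 := by nlinarith
  linarith

end rows

/-- **The rounding of the light elements.** Rows as in section 4 of the note: `β i = √(om (m+1) i)` on
coordinates, `1` on pairs and on the three rows. Tests: `Tf (m+1)`, `Tf (m+2)`, `Xf`, `Xp`, three rows, `Q2`,
`LFf` (share `1/16` each) and `Qf` with the centres `cen` (shares `π₀`, total `≤ 1/4`). -/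
theorem Sched.round_outcome (hα : ∀ v, ∑ i, α v i ^ 2 ≤ 1) {m k : ℕ} (hk : k + 2 ≤ 6) (hH : (S.H (m + 1)).Nonempty)
    {B₁ B₂ : Finset V} {a : Fin d → ℝ}
    (hsh : ∀ v, |S.shf α m a v| ≤ 1 / 4)
    {𝒢 : Type} [Fintype 𝒢] (cen : 𝒢 → Fin d → ℝ) (π₀ : 𝒢 → ℝ) (hπ : ∀ g, 0 < π₀ g) (hπ1 : ∑ g, π₀ g ≤ 1 / 4) :
    ∃ Y : V → ℝ, (∀ v, Y v = 0 ∨ Y v = 1) ∧
      S.Tf (m + 1) (fun i => S.nz α m B₁ B₂ a Y fun v => α v i) ≤ 1 / 1000 ∧
      S.Tf (m + 2) (fun i => S.nz α m B₁ B₂ a Y fun v => α v i) ≤ 1 / 1000 ∧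
      S.Xf (m + 1) (fun k l => S.nz α m B₁ B₂ a Y fun v => α v k * α v l) ≤ 1 / 10 ^ 10 ∧
      S.Xp (m + 1) (fun k l => S.nz α m B₁ B₂ a Y fun v => α v k * α v l)
        ≤ ((S.C (m + 1)).card : ℝ) / 10 ^ 10 ∧
      (S.nz α m B₁ B₂ a Y (S.uu α (m + 1))) ^ 2 ≤ 22400 ∧
      (S.nz α m B₁ B₂ a Y (Row α (S.C (m + 1)))) ^ 2 ≤ 22400 ∧
      (S.nz α m B₁ B₂ a Y (Row α (S.C m))) ^ 2 ≤ 22400 ∧
      ∑ i ∈ S.C (m + 2), (S.nz α m B₁ B₂ a Y fun v => α v i) ^ 2 ≤ S.Q2b (m + 1) ∧
      S.LFf (m + 1) (fun i => S.nz α m B₁ B₂ a Y fun v => α v i) ≤ S.LNr (m + 1) ∧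
      ∀ g, S.Qf (m + 1) (S.Wk (m + 1) k) (fun i => cen g i + S.nz α m B₁ B₂ a Y fun v => α v i)
        ≤ 3200 * S.Vx (m + 1)
          + ∑ i ∈ S.U (m + 1), S.Wk (m + 1) (k + 1) i * cen g i ^ 2
          + Real.log (1 / π₀ g) * (960000 * S.Θ (m + 1)) := by
  classical
  have homp : ∀ i, 0 < S.om (m + 1) i := fun i => S.om_pos _ _
  have hom1 : ∀ i, 1 ≤ S.om (m + 1) i := fun i => S.one_le_om _ _
  set om := S.om (m + 1) with hom
  -- the family of tests
  let T9 : Fin 9 → FT (bet om) :=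
    ![S.testT (m + 1) om hom1, S.testT (m + 2) om hom1, S.testX (m + 1) om, S.testXp (m + 1) om,
      testR om 0, testR om 1, testR om 2, testCl (S.C (m + 2)) om hom1, S.testLF m]
  let t : Fin 9 ⊕ 𝒢 → FT (bet om) := Sum.elim T9 (fun g => S.testQ m k (by omega) (cen g))
  let π : Fin 9 ⊕ 𝒢 → ℝ := Sum.elim (fun _ => 1 / 16) π₀
  have hπpos : ∀ x, 0 < π x := by
    rintro (j | g)
    · simp [π]
    · exact hπ g
  have hπsum : ∑ x, π x ≤ 1 := by
    rw [Fintype.sum_sum_type]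
    simp only [π, Sum.elim_inl, Sum.elim_inr]
    rw [Finset.sum_const, Finset.card_univ, Fintype.card_fin]
    norm_num
    linarith
  obtain ⟨Y, hY, hmain⟩ := star_round (S.Lam α m B₁ B₂) (bet om) (bet_pos homp) (S.rowsP3 α m)
    (fun v hv => S.rows_norm α hα m v (by
      have := (Finset.mem_filter.mp hv).2
      exact this))
    (fun v => 1 / 2 + S.shf α m a v)
    (fun v _ => by
      have := abs_le.mp (hsh v)
      constructor <;> linarith [this.1, this.2])
    t π hπpos hπsum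
  set X : Idx d → ℝ := fun I => ∑ v ∈ S.Lam α m B₁ B₂, (Y v - (1 / 2 + S.shf α m a v)) * S.rowsP3 α m v I
    with hX
  refine ⟨Y, hY, ?_, ?_, ?_, ?_, ?_, ?_, ?_, ?_, ?_, ?_⟩
  · exact S.testT_out (m + 1) om hom1 X (hmain (Sum.inl 0))
  · exact S.testT_out (m + 2) om hom1 X (hmain (Sum.inl 1))
  · exact S.testX_out (m + 1) om X (hmain (Sum.inl 2))
  · exact S.testXp_out (m + 1) om X (hmain (Sum.inl 3))
  · exact testR_out om 0 X (hmain (Sum.inl 4))
  · exact testR_out om 1 X (hmain (Sum.inl 5))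
  · exact testR_out om 2 X (hmain (Sum.inl 6))
  · exact testCl_out (S.C (m + 2)) om hom1 X (hmain (Sum.inl 7))
  · exact S.testLF_out m X (hmain (Sum.inl 8))
  · intro g
    have h1 := hmain (Sum.inr g)
    exact S.testQ_out m k (by omega) (cen g) X (Real.log (1 / π₀ g))
      (Real.log_nonneg (by
        have hp := hπ g
        have hle : π₀ g ≤ 1 := by
          have := Finset.single_le_sum (f := π₀) (fun g _ => (hπ g).le) (Finset.mem_univ g)
          linarith
        rw [le_div_iff₀ hp]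
        linarith)) h1

end Vale.Agent.P262S
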