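import Vale.Agent.P262S.CoreP1

/-! # Re-split, piece P4: the block bounds (notes/P262_sqrtd.md, section 4). -/

open Finset

namespace Vale.Agent.P262S

set_option linter.unusedSectionVars false

/-! ### Weighted `ℓ²` norms -/

section WN

variable {ι : Type*} {s : Finset ι} {w : ι → ℝ}

/-- A weighted `ℓ²` norm. -/
noncomputable def wn (s : Finset ι) (w f : ι → ℝ) : ℝ := √(∑ i ∈ s, w i * f i ^ 2)

lemma wn_nonneg (f : ι → ℝ) : 0 ≤ wn s w f := Real.sqrt_nonneg _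

lemma wsum_nonneg (hw : ∀ i ∈ s, 0 ≤ w i) (f : ι → ℝ) : 0 ≤ ∑ i ∈ s, w i * f i ^ 2 :=
  Finset.sum_nonneg fun i hi => mul_nonneg (hw i hi) (sq_nonneg _)

lemma wsum_cauchy (hw : ∀ i ∈ s, 0 ≤ w i) (f g : ι → ℝ) :
    ∑ i ∈ s, w i * (f i * g i) ≤ wn s w f * wn s w g := by
  have h := Finset.sum_mul_sq_le_sq_mul_sq s (fun i => √(w i) * f i) (fun i => √(w i) * g i)
  have e1 : ∀ i ∈ s, (√(w i) * f i) * (√(w i) * g i) = w i * (f i * g i) := by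
    intro i hi
    calc (√(w i) * f i) * (√(w i) * g i) = (√(w i) * √(w i)) * (f i * g i) := by ring
      _ = w i * (f i * g i) := by rw [Real.mul_self_sqrt (hw i hi)]
  have e2 : ∀ (f : ι → ℝ), ∀ i ∈ s, (√(w i) * f i) ^ 2 = w i * f i ^ 2 := by
    intro f i hi
    rw [mul_pow, Real.sq_sqrt (hw i hi)]
  rw [Finset.sum_congr rfl e1, Finset.sum_congr rfl (e2 f), Finset.sum_congr rfl (e2 g)] at h
  unfold wn
  rw [← Real.sqrt_mul (wsum_nonneg hw f)]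
  exact (le_abs_self _).trans (Real.abs_le_sqrt h)

lemma wn_add (hw : ∀ i ∈ s, 0 ≤ w i) (f g : ι → ℝ) :
    wn s w (fun i => f i + g i) ≤ wn s w f + wn s w g := by
  have hC := wsum_cauchy hw f g
  have hf := wn_nonneg (s := s) (w := w) f
  have hg := wn_nonneg (s := s) (w := w) g
  have e : ∑ i ∈ s, w i * (f i + g i) ^ 2
      = ∑ i ∈ s, w i * f i ^ 2 + 2 * ∑ i ∈ s, w i * (f i * g i) + ∑ i ∈ s, w i * g i ^ 2 := by
    rw [Finset.mul_sum, ← Finset.sum_add_distrib, ← Finset.sum_add_distrib]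
    refine Finset.sum_congr rfl fun i _ => ?_
    ring
  have ef : (wn s w f) ^ 2 = ∑ i ∈ s, w i * f i ^ 2 := Real.sq_sqrt (wsum_nonneg hw f)
  have eg : (wn s w g) ^ 2 = ∑ i ∈ s, w i * g i ^ 2 := Real.sq_sqrt (wsum_nonneg hw g)
  show √(∑ i ∈ s, w i * (f i + g i) ^ 2) ≤ _
  rw [Real.sqrt_le_left (by positivity), e, add_sq, ef, eg]
  linarith

lemma wn_smul (c : ℝ) (f : ι → ℝ) : wn s w (fun i => c * f i) = |c| * wn s w f := by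
  unfold wn
  have e : ∑ i ∈ s, w i * (c * f i) ^ 2 = c ^ 2 * ∑ i ∈ s, w i * f i ^ 2 := by
    rw [Finset.mul_sum]
    refine Finset.sum_congr rfl fun i _ => ?_
    ring
  rw [e, Real.sqrt_mul (sq_nonneg c), Real.sqrt_sq_eq_abs]

lemma wn_congr {f g : ι → ℝ} (h : ∀ i ∈ s, f i = g i) : wn s w f = wn s w g := by
  unfold wn
  rw [Finset.sum_congr rfl fun i hi => by rw [h i hi]]

lemma wn_zero : wn s w (fun _ => 0) = 0 := by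
  simp [wn]

lemma wn_sum {κ : Type*} [DecidableEq κ] (hw : ∀ i ∈ s, 0 ≤ w i) (B : Finset κ) (F : κ → ι → ℝ) :
    wn s w (fun i => ∑ v ∈ B, F v i) ≤ ∑ v ∈ B, wn s w (F v) := by
  induction B using Finset.induction_on with
  | empty =>
    simp only [Finset.sum_empty]
    rw [wn_zero]
  | insert a B ha ih =>
    rw [Finset.sum_insert ha]
    have e : (fun i => ∑ v ∈ insert a B, F v i) = fun i => F a i + ∑ v ∈ B, F v i := by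
      funext i
      rw [Finset.sum_insert ha]
    rw [e]
    exact (wn_add hw _ _).trans (add_le_add le_rfl ih)

lemma wn_le {f : ι → ℝ} {x : ℝ} (h : ∑ i ∈ s, w i * f i ^ 2 ≤ x ^ 2) (hx : 0 ≤ x) : wn s w f ≤ x :=
  (Real.sqrt_le_left hx).2 h

lemma sq_of_wn_le {f : ι → ℝ} {x : ℝ} (h : wn s w f ≤ x) (hx : 0 ≤ x) : ∑ i ∈ s, w i * f i ^ 2 ≤ x ^ 2 :=
  (Real.sqrt_le_left hx).1 h

/-- Six terms. -/
lemma wn_six (hw : ∀ i ∈ s, 0 ≤ w i) (c₁ c₂ c₃ c₄ c₅ c₆ : ℝ) (f₁ f₂ f₃ f₄ f₅ f₆ : ι → ℝ) :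
    wn s w (fun i => c₁ * f₁ i + c₂ * f₂ i + c₃ * f₃ i + c₄ * f₄ i + c₅ * f₅ i + c₆ * f₆ i)
      ≤ |c₁| * wn s w f₁ + |c₂| * wn s w f₂ + |c₃| * wn s w f₃ + |c₄| * wn s w f₄ + |c₅| * wn s w f₅
        + |c₆| * wn s w f₆ := by
  have h1 := wn_add hw (fun i => c₁ * f₁ i + c₂ * f₂ i + c₃ * f₃ i + c₄ * f₄ i + c₅ * f₅ i) (fun i => c₆ * f₆ i)
  have h2 := wn_add hw (fun i => c₁ * f₁ i + c₂ * f₂ i + c₃ * f₃ i + c₄ * f₄ i) (fun i => c₅ * f₅ i)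
  have h3 := wn_add hw (fun i => c₁ * f₁ i + c₂ * f₂ i + c₃ * f₃ i) (fun i => c₄ * f₄ i)
  have h4 := wn_add hw (fun i => c₁ * f₁ i + c₂ * f₂ i) (fun i => c₃ * f₃ i)
  have h5 := wn_add hw (fun i => c₁ * f₁ i) (fun i => c₂ * f₂ i)
  simp only [wn_smul] at h1 h2 h3 h4 h5
  linarith

end WN

variable {d : ℕ} (S : Sched d)
variable {V : Type} [Fintype V] [DecidableEq V] (α : V → Fin d → ℝ)

/-! ### Weights -/

/-- The weight of `Xf`. -/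
noncomputable def Sched.wX (m : ℕ) (p : Fin d × Fin d) : ℝ :=
  1 / (S.q p.1 m ^ 2 * S.q p.2 m ^ 2 * min (S.q p.1 m) (S.q p.2 m) ^ 2)

/-- The weight of `Xp`. -/
noncomputable def Sched.wP (m : ℕ) (p : Fin d × Fin d) : ℝ := 1 / S.q p.1 m ^ 6

lemma Sched.wX_nonneg (m : ℕ) (p : Fin d × Fin d) : 0 ≤ S.wX m p := by
  unfold Sched.wX
  positivity

lemma Sched.wP_nonneg (m : ℕ) (p : Fin d × Fin d) : 0 ≤ S.wP m p := by
  unfold Sched.wP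
  have := S.hq0 p.1 m
  positivity

lemma Sched.Xf_eq (m : ℕ) (E : Fin d → Fin d → ℝ) :
    S.Xf m E = ∑ p ∈ S.H m ×ˢ S.H m, S.wX m p * E p.1 p.2 ^ 2 := by
  unfold Sched.Xf Sched.wX
  rw [Finset.sum_product]
  refine Finset.sum_congr rfl fun k _ => Finset.sum_congr rfl fun l _ => ?_
  ring

lemma Sched.Xp_eq (m : ℕ) (E : Fin d → Fin d → ℝ) :
    S.Xp m E = ∑ p ∈ S.H m ×ˢ S.C m, S.wP m p * E p.1 p.2 ^ 2 := by
  unfold Sched.Xp Sched.wP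
  rw [Finset.sum_product]
  refine Finset.sum_congr rfl fun k _ => Finset.sum_congr rfl fun l _ => ?_
  ring

lemma Sched.b_pos (m : ℕ) : 0 < S.b m := lt_of_lt_of_le (by norm_num) (S.b_ge m)

lemma Sched.wX_le {m : ℕ} {k l : Fin d} (hk : k ∈ S.H m) (hl : l ∈ S.H m) :
    S.wX m (k, l) ≤ 1 / S.b m ^ 6 := by
  unfold Sched.wX
  have hb := S.b_pos m
  have h1 := S.b_le_q hk
  have h2 := S.b_le_q hl
  have h3 : S.b m ≤ min (S.q k m) (S.q l m) := le_min h1 h2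
  apply one_div_le_one_div_of_le (by positivity)
  have h4 : S.b m ^ 2 ≤ S.q k m ^ 2 := pow_le_pow_left₀ hb.le h1 2
  have h5 : S.b m ^ 2 ≤ S.q l m ^ 2 := pow_le_pow_left₀ hb.le h2 2
  have h6 : S.b m ^ 2 ≤ min (S.q k m) (S.q l m) ^ 2 := pow_le_pow_left₀ hb.le h3 2
  have h7 : S.b m ^ 2 * S.b m ^ 2 ≤ S.q k m ^ 2 * S.q l m ^ 2 := mul_le_mul h4 h5 (by positivity) (by positivity)
  calc S.b m ^ 6 = S.b m ^ 2 * S.b m ^ 2 * S.b m ^ 2 := by ring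
    _ ≤ _ := mul_le_mul h7 h6 (by positivity) (by positivity)

lemma Sched.wP_le {m : ℕ} {k : Fin d} (l : Fin d) (hk : k ∈ S.H m) :
    S.wP m (k, l) ≤ 1 / S.b m ^ 6 := by
  unfold Sched.wP
  have hb := S.b_pos m
  have h1 := S.b_le_q hk
  apply one_div_le_one_div_of_le (by positivity)
  exact pow_le_pow_left₀ hb.le h1 6

/-- The square of a coordinate is at most one. -/
lemma coord_sq_le (hα : ∀ v, ∑ i, α v i ^ 2 ≤ 1) (v : V) (i : Fin d) : α v i ^ 2 ≤ 1 := by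
  refine le_trans ?_ (hα v)
  exact Finset.single_le_sum (f := fun i => α v i ^ 2) (fun i _ => sq_nonneg _) (mem_univ i)

lemma part_sq_le (hα : ∀ v, ∑ i, α v i ^ 2 ≤ 1) (v : V) (T : Finset (Fin d)) : ∑ i ∈ T, α v i ^ 2 ≤ 1 := by
  refine le_trans ?_ (hα v)
  exact Finset.sum_le_sum_of_subset_of_nonneg (subset_univ _) fun i _ _ => sq_nonneg _

/-- A unit vector has small norm in a product form. -/
lemma prod_form_le {s t : Finset (Fin d)} {w : Fin d × Fin d → ℝ} {B : ℝ} (hB : 0 ≤ B)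
    (hw : ∀ p ∈ s ×ˢ t, w p ≤ B)
    (x : Fin d → ℝ) (hs : ∑ i ∈ s, x i ^ 2 ≤ 1) (ht : ∑ i ∈ t, x i ^ 2 ≤ 1) :
    ∑ p ∈ s ×ˢ t, w p * (x p.1 * x p.2) ^ 2 ≤ B := by
  calc ∑ p ∈ s ×ˢ t, w p * (x p.1 * x p.2) ^ 2
      ≤ ∑ p ∈ s ×ˢ t, B * (x p.1 * x p.2) ^ 2 :=
        Finset.sum_le_sum fun p hp => mul_le_mul_of_nonneg_right (hw p hp) (sq_nonneg _)
    _ = B * ((∑ i ∈ s, x i ^ 2) * ∑ i ∈ t, x i ^ 2) := by
        rw [← Finset.mul_sum, Finset.sum_mul_sum, Finset.sum_product]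
        congr 1
        refine Finset.sum_congr rfl fun k _ => Finset.sum_congr rfl fun l _ => ?_
        ring
    _ ≤ B * 1 := by
        refine mul_le_mul_of_nonneg_left ?_ hB
        have h0 : 0 ≤ ∑ i ∈ t, x i ^ 2 := Finset.sum_nonneg fun i _ => sq_nonneg _
        nlinarith
    _ = B := mul_one B

/-- The norm of a sum of rank one matrices with few terms. -/
lemma wn_gram_le {s t : Finset (Fin d)} {w : Fin d × Fin d → ℝ} {B : ℝ} (hB : 0 ≤ B) (hw0 : ∀ p, 0 ≤ w p)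
    (hw : ∀ p ∈ s ×ˢ t, w p ≤ B ^ 2)
    (hs : ∀ v, ∑ i ∈ s, α v i ^ 2 ≤ 1) (ht : ∀ v, ∑ i ∈ t, α v i ^ 2 ≤ 1) (G : Finset V) :
    wn (s ×ˢ t) w (fun p => MB α G p.1 p.2) ≤ (G.card : ℝ) * B := by
  have h1 := wn_sum (s := s ×ˢ t) (w := w) (fun i _ => hw0 i) G (fun v p => α v p.1 * α v p.2)
  refine h1.trans ?_
  have h2 : ∀ v ∈ G, wn (s ×ˢ t) w (fun p => α v p.1 * α v p.2) ≤ B := by
    intro v _
    apply wn_le _ hB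
    exact prod_form_le (sq_nonneg B) hw (α v) (hs v) (ht v)
  have := Finset.sum_le_card_nsmul _ _ _ h2
  simpa using this

/-! ### The diagonal of a block -/

lemma Sched.diag_le {m : ℕ} {B : Finset V} {xb xp Nh Ne M1 M2 : ℝ} (hxb : xb ≤ 1 / 200) (hxb0 : 0 ≤ xb)
    (hB : S.BlockInv α m B xb xp Nh Ne M1 M2) {i : Fin d} (hi : i ∈ S.H m) :
    ∑ v ∈ B, α v i ^ 2 ≤ 3 / 2 * S.q i m ^ 4 := by
  have hX := hB.hX
  rw [S.Xf_eq] at hX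
  have hq := S.q_pos hi
  have h1 : S.q i m ≥ 1 := by
    have h2 := S.b_le_q hi
    have h3 := S.b_ge m
    have h4 : (1 : ℝ) ≤ 2 ^ 42 := by norm_num
    linarith
  have hsingle := Finset.single_le_sum (s := S.H m ×ˢ S.H m)
    (f := fun p => S.wX m p * S.Err α m B p.1 p.2 ^ 2)
    (fun p _ => mul_nonneg (S.wX_nonneg m p) (sq_nonneg _)) (a := (i, i))
    (Finset.mk_mem_product hi hi)
  have h5 := hsingle.trans hX
  have e1 : S.wX m (i, i) = 1 / S.q i m ^ 6 := by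
    unfold Sched.wX
    simp only [min_self]
    congr 1
    ring
  have e2 : S.Err α m B i i = ∑ v ∈ B, α v i ^ 2 - S.q i m ^ 4 := by
    unfold Sched.Err MB
    rw [if_pos rfl]
    congr 1
    refine Finset.sum_congr rfl fun v _ => ?_
    ring
  simp only [] at h5
  rw [e1, e2] at h5
  have h6 : (∑ v ∈ B, α v i ^ 2 - S.q i m ^ 4) ^ 2 ≤ (1 / 200 * S.q i m ^ 3) ^ 2 := by
    have h7 : xb ^ 2 ≤ (1 / 200) ^ 2 := pow_le_pow_left₀ hxb0 hxb 2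
    have h8 : 1 / S.q i m ^ 6 * (∑ v ∈ B, α v i ^ 2 - S.q i m ^ 4) ^ 2 ≤ (1 / 200) ^ 2 := h5.trans h7
    rw [div_mul_eq_mul_div, one_mul, div_le_iff₀ (by positivity)] at h8
    calc _ ≤ _ := h8
      _ = _ := by ring
  have h9 := abs_le_of_sq_le_sq' h6 (by positivity)
  have h10 := h9.2
  have h11 : S.q i m ^ 3 ≤ S.q i m ^ 4 := pow_le_pow_right₀ h1 (by norm_num)
  linarith

/-! ### The tilt term -/

section Core

variable {m : ℕ} {Ba Bb Λ : Finset V} (sh : V → ℝ)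

/-- The diagonal of the light part. -/
lemma Sched.light_diag_le {xb xp Nh Ne M1 M2 : ℝ} (hxb : xb ≤ 1 / 200) (hxb0 : 0 ≤ xb)
    (hΛ : ∀ r : V → ℝ, ∑ v ∈ Λ, r v = ∑ v ∈ S.Lv α m Ba, r v + ∑ v ∈ S.Lv α m Bb, r v)
    (hBa : S.BlockInv α m Ba xb xp Nh Ne M1 M2) (hBb : S.BlockInv α m Bb xb xp Nh Ne M1 M2)
    {i : Fin d} (hi : i ∈ S.H m) : ∑ v ∈ Λ, α v i ^ 2 ≤ 3 * S.q i m ^ 4 := by
  classical
  rw [hΛ]
  have h1 := S.diag_le α hxb hxb0 hBa hi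
  have h2 := S.diag_le α hxb hxb0 hBb hi
  have h3 : ∀ B : Finset V, ∑ v ∈ S.Lv α m B, α v i ^ 2 ≤ ∑ v ∈ B, α v i ^ 2 := by
    intro B
    refine Finset.sum_le_sum_of_subset_of_nonneg ?_ fun v _ _ => sq_nonneg _
    unfold Sched.Lv
    exact Finset.filter_subset _ _
  linarith [h3 Ba, h3 Bb]

/-- The tilt matrix. -/
noncomputable def tauM (Λ : Finset V) (sh : V → ℝ) (k l : Fin d) : ℝ := ∑ v ∈ Λ, sh v * (α v k * α v l)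

/-- Cauchy for the tilt matrix. -/
lemma tauM_sq_le (hα : ∀ v, ∑ i, α v i ^ 2 ≤ 1) (k l : Fin d) :
    tauM α Λ sh k l ^ 2 ≤ (∑ v ∈ Λ, sh v ^ 2) * ∑ v ∈ Λ, α v k ^ 2 := by
  have h := Finset.sum_mul_sq_le_sq_mul_sq Λ sh (fun v => α v k * α v l)
  refine h.trans ?_
  refine mul_le_mul_of_nonneg_left ?_ (Finset.sum_nonneg fun v _ => sq_nonneg _)
  refine Finset.sum_le_sum fun v _ => ?_
  have h1 := coord_sq_le α hα v l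
  have h2 := sq_nonneg (α v k)
  rw [mul_pow]
  nlinarith

lemma tauM_comm (k l : Fin d) : tauM α Λ sh k l = tauM α Λ sh l k := by
  unfold tauM
  refine Finset.sum_congr rfl fun v _ => ?_
  ring

/-- One term of `Xf` of the tilt. -/
lemma Sched.wX_tau_le {s2 : ℝ} (hs2 : 0 ≤ s2) (hdiag : ∀ i ∈ S.H m, s2 * ∑ v ∈ Λ, α v i ^ 2 ≤ 3 * s2 * S.q i m ^ 4)
    (hα : ∀ v, ∑ i, α v i ^ 2 ≤ 1) (hs : ∑ v ∈ Λ, sh v ^ 2 = s2) {k l : Fin d}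
    (hk : k ∈ S.H m) (hl : l ∈ S.H m) :
    S.wX m (k, l) * tauM α Λ sh k l ^ 2 ≤ 3 * s2 * ((1 / S.q k m) * (1 / S.q l m)) := by
  have hqk := S.q_pos hk
  have hql := S.q_pos hl
  have h1 : tauM α Λ sh k l ^ 2 ≤ 3 * s2 * S.q k m ^ 4 := by
    have := tauM_sq_le α (Λ := Λ) sh hα k l
    rw [hs] at this
    exact this.trans (hdiag k hk)
  have h2 : tauM α Λ sh k l ^ 2 ≤ 3 * s2 * S.q l m ^ 4 := by
    have := tauM_sq_le α (Λ := Λ) sh hα l k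
    rw [hs, tauM_comm] at this
    exact this.trans (hdiag l hl)
  unfold Sched.wX
  simp only []
  rw [div_mul_eq_mul_div, one_mul, div_le_iff₀ (by
    have : 0 < min (S.q k m) (S.q l m) := lt_min hqk hql
    positivity)]
  rcases le_total (S.q k m) (S.q l m) with h | h
  · rw [min_eq_left h]
    have e : 3 * s2 * (1 / S.q k m * (1 / S.q l m)) * (S.q k m ^ 2 * S.q l m ^ 2 * S.q k m ^ 2)
        = 3 * s2 * (S.q k m ^ 3 * S.q l m) := by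
      field_simp
    rw [e]
    refine h1.trans ?_
    refine mul_le_mul_of_nonneg_left ?_ (by positivity)
    have : S.q k m ^ 3 * S.q k m ≤ S.q k m ^ 3 * S.q l m := mul_le_mul_of_nonneg_left h (by positivity)
    calc S.q k m ^ 4 = S.q k m ^ 3 * S.q k m := by ring
      _ ≤ _ := this
  · rw [min_eq_right h]
    have e : 3 * s2 * (1 / S.q k m * (1 / S.q l m)) * (S.q k m ^ 2 * S.q l m ^ 2 * S.q l m ^ 2)
        = 3 * s2 * (S.q l m ^ 3 * S.q k m) := by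
      field_simp
    rw [e]
    refine h2.trans ?_
    refine mul_le_mul_of_nonneg_left ?_ (by positivity)
    have : S.q l m ^ 3 * S.q l m ≤ S.q l m ^ 3 * S.q k m := mul_le_mul_of_nonneg_left h (by positivity)
    calc S.q l m ^ 4 = S.q l m ^ 3 * S.q l m := by ring
      _ ≤ _ := this

/-- `Xf` of the tilt: this is where (C1) is used. -/
lemma Sched.Xf_tau_le {s2 : ℝ} (hs2 : 0 ≤ s2) (hdiag : ∀ i ∈ S.H m, s2 * ∑ v ∈ Λ, α v i ^ 2 ≤ 3 * s2 * S.q i m ^ 4)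
    (hα : ∀ v, ∑ i, α v i ^ 2 ≤ 1) (hs : ∑ v ∈ Λ, sh v ^ 2 = s2) :
    S.Xf m (tauM α Λ sh) ≤ 3 * s2 := by
  rw [S.Xf_eq, Finset.sum_product]
  have h1 : ∑ k ∈ S.H m, ∑ l ∈ S.H m, S.wX m (k, l) * tauM α Λ sh k l ^ 2
      ≤ ∑ k ∈ S.H m, ∑ l ∈ S.H m, 3 * s2 * ((1 / S.q k m) * (1 / S.q l m)) :=
    Finset.sum_le_sum fun k hk => Finset.sum_le_sum fun l hl => S.wX_tau_le α sh hs2 hdiag hα hs hk hl
  refine h1.trans ?_
  have e : ∑ k ∈ S.H m, ∑ l ∈ S.H m, 3 * s2 * ((1 / S.q k m) * (1 / S.q l m))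
      = 3 * s2 * ((∑ k ∈ S.H m, 1 / S.q k m) * ∑ l ∈ S.H m, 1 / S.q l m) := by
    rw [Finset.sum_mul_sum, Finset.mul_sum]
    refine Finset.sum_congr rfl fun k _ => ?_
    rw [Finset.mul_sum]
  rw [e]
  have h2 := S.sum_inv_q m
  have h3 : (1 : ℝ) / 2 ^ S.j m ≤ 1 := by
    rw [div_le_one (by positivity)]
    exact one_le_pow₀ (by norm_num)
  have h4 : 0 ≤ ∑ k ∈ S.H m, 1 / S.q k m :=
    Finset.sum_nonneg fun k hk => by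
      have := S.q_pos hk
      positivity
  have h5 : ∑ k ∈ S.H m, 1 / S.q k m ≤ 1 := h2.trans h3
  have h6 : (∑ k ∈ S.H m, 1 / S.q k m) * (∑ l ∈ S.H m, 1 / S.q l m) ≤ 1 := by nlinarith
  nlinarith

/-- `Xp` of the tilt. -/
lemma Sched.Xp_tau_le {s2 : ℝ} (hs2 : 0 ≤ s2) (hdiag : ∀ i ∈ S.H m, s2 * ∑ v ∈ Λ, α v i ^ 2 ≤ 3 * s2 * S.q i m ^ 4)
    (hα : ∀ v, ∑ i, α v i ^ 2 ≤ 1) (hs : ∑ v ∈ Λ, sh v ^ 2 = s2) :
    S.Xp m (tauM α Λ sh) ≤ 3 * s2 / S.b m := by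
  have hb := S.b_pos m
  unfold Sched.Xp
  have h1 : ∀ k ∈ S.H m, ∑ c ∈ S.C m, tauM α Λ sh k c ^ 2 / S.q k m ^ 6 ≤ 3 * s2 * (1 / S.q k m ^ 2) := by
    intro k hk
    have hq := S.q_pos hk
    have h2 : ∑ c ∈ S.C m, tauM α Λ sh k c ^ 2 ≤ s2 * ∑ v ∈ Λ, α v k ^ 2 := by
      have h3 : ∀ c ∈ S.C m, tauM α Λ sh k c ^ 2 ≤ s2 * ∑ v ∈ Λ, (α v k ^ 2 * α v c ^ 2) := by
        intro c _
        have h := Finset.sum_mul_sq_le_sq_mul_sq Λ sh (fun v => α v k * α v c)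
        rw [hs] at h
        refine h.trans (le_of_eq ?_)
        congr 1
        refine Finset.sum_congr rfl fun v _ => ?_
        ring
      refine (Finset.sum_le_sum h3).trans ?_
      rw [← Finset.mul_sum, Finset.sum_comm]
      refine mul_le_mul_of_nonneg_left ?_ hs2
      refine Finset.sum_le_sum fun v _ => ?_
      rw [← Finset.mul_sum]
      have h4 := part_sq_le α hα v (S.C m)
      have h5 := sq_nonneg (α v k)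
      nlinarith
    rw [← Finset.sum_div, div_le_iff₀ (by positivity)]
    have h6 := hdiag k hk
    have e : 3 * s2 * (1 / S.q k m ^ 2) * S.q k m ^ 6 = 3 * s2 * S.q k m ^ 4 := by
      field_simp
    rw [e]
    linarith
  refine (Finset.sum_le_sum h1).trans ?_
  rw [← Finset.mul_sum]
  have h2 := S.sum_inv_q2 m
  calc 3 * s2 * ∑ i ∈ S.H m, 1 / S.q i m ^ 2 ≤ 3 * s2 * (1 / S.b m) :=
        mul_le_mul_of_nonneg_left h2 (by positivity)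
    _ = 3 * s2 / S.b m := by ring

/-! ### Rows -/

/-- The tilt against a bounded row. -/
lemma tilt_row_le {r : V → ℝ} {Z : ℝ} (hr0 : ∀ v ∈ Λ, 0 ≤ r v) (hr1 : ∀ v ∈ Λ, r v ≤ 1)
    (hZ : ∑ v ∈ Λ, r v ≤ Z) {s2 : ℝ} (hs2 : 0 ≤ s2) (hs : ∑ v ∈ Λ, sh v ^ 2 ≤ s2) :
    |∑ v ∈ Λ, sh v * r v| ≤ 1 / 2 + s2 * Z / 2 := by
  have h := Finset.sum_mul_sq_le_sq_mul_sq Λ sh r
  have h1 : ∑ v ∈ Λ, r v ^ 2 ≤ Z := by
    refine le_trans (Finset.sum_le_sum fun v hv => ?_) hZ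
    have := hr0 v hv
    have := hr1 v hv
    nlinarith
  have h2 : (∑ v ∈ Λ, sh v * r v) ^ 2 ≤ s2 * Z := by
    refine h.trans ?_
    have h3 : 0 ≤ ∑ v ∈ Λ, r v ^ 2 := Finset.sum_nonneg fun v _ => sq_nonneg _
    exact mul_le_mul hs h1 h3 hs2
  have h4 : (∑ v ∈ Λ, sh v * r v) ^ 2 = |∑ v ∈ Λ, sh v * r v| ^ 2 := (sq_abs _).symm
  rw [h4] at h2
  nlinarith [sq_nonneg (|∑ v ∈ Λ, sh v * r v| - 1)]

lemma sum_Sv_add_Lv (m : ℕ) (B : Finset V) (r : V → ℝ) :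
    ∑ v ∈ S.Sv α m B, r v + ∑ v ∈ S.Lv α m B, r v = ∑ v ∈ B, r v := by
  classical
  unfold Sched.Sv Sched.Lv
  exact Finset.sum_filter_add_sum_filter_not B (S.Hv α m) _

lemma Row_nonneg (T : Finset (Fin d)) (v : V) : 0 ≤ Row α T v :=
  Finset.sum_nonneg fun i _ => sq_nonneg _

lemma Row_le_one (hα : ∀ v, ∑ i, α v i ^ 2 ≤ 1) (T : Finset (Fin d)) (v : V) : Row α T v ≤ 1 :=
  part_sq_le α hα v T

/-- The general closure of one mass row. -/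
lemma Sched.mass_row_le {New : Finset V} {nzf : (V → ℝ) → ℝ} {ε : ℝ} (hε : ε = 1 ∨ ε = -1) {r : V → ℝ}
    (hr0 : ∀ v, 0 ≤ r v) (hr1 : ∀ v, r v ≤ 1)
    (hΛ : ∀ r : V → ℝ, ∑ v ∈ Λ, r v = ∑ v ∈ S.Lv α m Ba, r v + ∑ v ∈ S.Lv α m Bb, r v)
    (hsplit : ∀ r : V → ℝ, ∑ v ∈ New, r v = ∑ v ∈ S.Sv α m Ba, r v + (1 / 2) * ∑ v ∈ Λ, r v
        + ε * (∑ v ∈ Λ, sh v * r v + nzf r))
    {Nh Mm : ℝ} (hNh : ((S.Sv α m Ba).card : ℝ) ≤ Nh) (hMa : ∑ v ∈ Ba, r v ≤ Mm) (hMb : ∑ v ∈ Bb, r v ≤ Mm)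
    (hM0 : 0 ≤ Mm)
    (hsh2 : ∑ v ∈ Λ, sh v ^ 2 ≤ 1 / (20 * S.b m ^ 2))
    (hn : (nzf r) ^ 2 ≤ 22400) :
    ∑ v ∈ New, r v ≤ 1.001 * Mm + Nh / 2 + 151 := by
  have hsum_le : ∀ T U : Finset V, T ⊆ U → ∑ v ∈ T, r v ≤ ∑ v ∈ U, r v := fun T U h =>
    Finset.sum_le_sum_of_subset_of_nonneg h fun v _ _ => hr0 v
  have hSv : ∑ v ∈ S.Sv α m Ba, r v ≤ Nh := by
    refine le_trans ?_ hNh
    have := Finset.sum_le_card_nsmul (S.Sv α m Ba) r 1 (fun v _ => hr1 v)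
    simpa using this
  have hpa := sum_Sv_add_Lv S α m Ba r
  have hpb := sum_Sv_add_Lv S α m Bb r
  have hSb0 : 0 ≤ ∑ v ∈ S.Sv α m Bb, r v := Finset.sum_nonneg fun v _ => hr0 v
  have hSa0 : 0 ≤ ∑ v ∈ S.Sv α m Ba, r v := Finset.sum_nonneg fun v _ => hr0 v
  have hLa0 : 0 ≤ ∑ v ∈ S.Lv α m Ba, r v := Finset.sum_nonneg fun v _ => hr0 v
  have hΛr := hΛ r
  have hZ : ∑ v ∈ Λ, r v ≤ 2 * Mm := by linarith
  have hs20 : (0 : ℝ) ≤ 1 / (20 * S.b m ^ 2) := by positivity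
  have ht := tilt_row_le sh (fun v _ => hr0 v) (fun v _ => hr1 v) hZ hs20 hsh2
  have hsmall : 1 / (20 * S.b m ^ 2) ≤ 1 / 1000 := by
    apply one_div_le_one_div_of_le (by norm_num)
    have h1 := S.b_ge m
    have h2 : (2 : ℝ) ^ 42 ≥ 100 := by norm_num
    nlinarith
  have hn' : |nzf r| ≤ 150 := by
    apply abs_le_of_sq_le_sq (by norm_num; linarith) (by norm_num)
  have hT : ε * (∑ v ∈ Λ, sh v * r v + nzf r) ≤ |∑ v ∈ Λ, sh v * r v| + |nzf r| := by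
    rcases hε with rfl | rfl
    · have h1 := le_abs_self (∑ v ∈ Λ, sh v * r v)
      have h2 := le_abs_self (nzf r)
      linarith
    · have h1 := neg_abs_le (∑ v ∈ Λ, sh v * r v)
      have h2 := neg_abs_le (nzf r)
      linarith
  rw [hsplit r]
  have h9 : 1 / (20 * S.b m ^ 2) * (2 * Mm) / 2 ≤ 1 / 1000 * Mm := by
    have := mul_le_mul_of_nonneg_right hsmall hM0
    calc _ = 1 / (20 * S.b m ^ 2) * Mm := by ring
      _ ≤ _ := this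
  linarith

/-- The identity for rows of the new block. -/
lemma Sched.new_row {New : Finset V} {nzf : (V → ℝ) → ℝ} {ε : ℝ}
    (hΛ : ∀ r : V → ℝ, ∑ v ∈ Λ, r v = ∑ v ∈ S.Lv α m Ba, r v + ∑ v ∈ S.Lv α m Bb, r v)
    (hsplit : ∀ r : V → ℝ, ∑ v ∈ New, r v = ∑ v ∈ S.Sv α m Ba, r v + (1 / 2) * ∑ v ∈ Λ, r v
        + ε * (∑ v ∈ Λ, sh v * r v + nzf r)) (r : V → ℝ) :
    ∑ v ∈ New, r v = (1 / 2) * ∑ v ∈ Ba, r v + (1 / 2) * ∑ v ∈ Bb, r v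
      + (1 / 2) * ∑ v ∈ S.Sv α m Ba, r v + (-(1 / 2)) * ∑ v ∈ S.Sv α m Bb, r v
      + ε * ∑ v ∈ Λ, sh v * r v + ε * nzf r := by
  have h1 := sum_Sv_add_Lv S α m Ba r
  have h2 := sum_Sv_add_Lv S α m Bb r
  rw [hsplit r, hΛ r, ← h1, ← h2]
  ring

/-- The identity for the entries of the new block. -/
lemma Sched.new_MB {New : Finset V} {nzf : (V → ℝ) → ℝ} {ε : ℝ}
    (hΛ : ∀ r : V → ℝ, ∑ v ∈ Λ, r v = ∑ v ∈ S.Lv α m Ba, r v + ∑ v ∈ S.Lv α m Bb, r v)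
    (hsplit : ∀ r : V → ℝ, ∑ v ∈ New, r v = ∑ v ∈ S.Sv α m Ba, r v + (1 / 2) * ∑ v ∈ Λ, r v
        + ε * (∑ v ∈ Λ, sh v * r v + nzf r)) (k l : Fin d) :
    MB α New k l = (1 / 2) * MB α Ba k l + (1 / 2) * MB α Bb k l
      + (1 / 2) * MB α (S.Sv α m Ba) k l + (-(1 / 2)) * MB α (S.Sv α m Bb) k l
      + ε * tauM α Λ sh k l + ε * nzf (fun v => α v k * α v l) :=
  S.new_row α sh hΛ hsplit (fun v => α v k * α v l)

lemma Sched.new_Err {New : Finset V} {nzf : (V → ℝ) → ℝ} {ε : ℝ}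
    (hΛ : ∀ r : V → ℝ, ∑ v ∈ Λ, r v = ∑ v ∈ S.Lv α m Ba, r v + ∑ v ∈ S.Lv α m Bb, r v)
    (hsplit : ∀ r : V → ℝ, ∑ v ∈ New, r v = ∑ v ∈ S.Sv α m Ba, r v + (1 / 2) * ∑ v ∈ Λ, r v
        + ε * (∑ v ∈ Λ, sh v * r v + nzf r)) (k l : Fin d) :
    S.Err α m New k l = (1 / 2) * S.Err α m Ba k l + (1 / 2) * S.Err α m Bb k l
      + (1 / 2) * MB α (S.Sv α m Ba) k l + (-(1 / 2)) * MB α (S.Sv α m Bb) k l
      + ε * tauM α Λ sh k l + ε * nzf (fun v => α v k * α v l) := by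
  unfold Sched.Err
  rw [S.new_MB α sh hΛ hsplit k l]
  split_ifs <;> ring

lemma abs_eps {ε : ℝ} (hε : ε = 1 ∨ ε = -1) : |ε| = 1 := by
  rcases hε with rfl | rfl <;> simp

/-- Facts on `b`. -/
lemma Sched.b_inv_small (m : ℕ) : 1 / S.b m ≤ 1 / 10 ^ 6 := by
  apply one_div_le_one_div_of_le (by norm_num)
  have h1 := S.b_ge m
  have h2 : (10 : ℝ) ^ 6 ≤ 2 ^ 42 := by norm_num
  linarith

lemma Sched.gram_small {m : ℕ} {c Nh : ℝ} (hc : c ≤ Nh) (hNh : 1000 * Nh ≤ S.b m) :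
    c * (1 / S.b m ^ 3) ≤ 1 / S.b m := by
  have hb := S.b_pos m
  have hb1 : (1 : ℝ) ≤ S.b m := by
    have h1 := S.b_ge m
    have h2 : (1 : ℝ) ≤ 2 ^ 42 := by norm_num
    linarith
  have h1 : c ≤ S.b m ^ 2 := by nlinarith
  have h2 : c * (1 / S.b m ^ 3) ≤ S.b m ^ 2 * (1 / S.b m ^ 3) :=
    mul_le_mul_of_nonneg_right h1 (by positivity)
  refine h2.trans (le_of_eq ?_)
  field_simp

/-- Closure of `Xf`. -/
lemma Sched.closure_X (hα : ∀ v, ∑ i, α v i ^ 2 ≤ 1) {New : Finset V} {nzf : (V → ℝ) → ℝ} {ε : ℝ}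
    (hε : ε = 1 ∨ ε = -1)
    (hΛ : ∀ r : V → ℝ, ∑ v ∈ Λ, r v = ∑ v ∈ S.Lv α (m + 1) Ba, r v + ∑ v ∈ S.Lv α (m + 1) Bb, r v)
    (hsplit : ∀ r : V → ℝ, ∑ v ∈ New, r v = ∑ v ∈ S.Sv α (m + 1) Ba, r v + (1 / 2) * ∑ v ∈ Λ, r v
        + ε * (∑ v ∈ Λ, sh v * r v + nzf r))
    {xb xp Ne M1 M2 : ℝ}
    (hxb : xb ≤ 1 / 200) (hxb0 : 0 ≤ xb)
    (hNh : 1000 * S.NbR (m + 1) ≤ S.b (m + 1))
    (hBa : S.BlockInv α (m + 1) Ba xb xp (S.NbR (m + 1)) Ne M1 M2)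
    (hBb : S.BlockInv α (m + 1) Bb xb xp (S.NbR (m + 1)) Ne M1 M2)
    (hsh2 : ∑ v ∈ Λ, sh v ^ 2 ≤ 1 / (20 * S.b (m + 1) ^ 2))
    (hXn : S.Xf (m + 1) (fun k l => nzf fun v => α v k * α v l) ≤ 1 / 10 ^ 10) :
    S.Xf (m + 1) (S.Err α (m + 1) New) ≤ (xb + 1 / 10 ^ 4) ^ 2 := by
  have hb := S.b_pos (m + 1)
  have hbi := S.b_inv_small (m + 1)
  obtain ⟨s2, hs2⟩ : ∃ s2, s2 = ∑ v ∈ Λ, sh v ^ 2 := ⟨_, rfl⟩
  have hs20 : 0 ≤ s2 := by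
    rw [hs2]
    exact Finset.sum_nonneg fun v _ => sq_nonneg _
  have hs2le : s2 ≤ 1 / (20 * S.b (m + 1) ^ 2) := by rw [hs2]; exact hsh2
  have hdiag : ∀ i ∈ S.H (m + 1), s2 * ∑ v ∈ Λ, α v i ^ 2 ≤ 3 * s2 * S.q i (m + 1) ^ 4 := by
    intro i hi
    have h := S.light_diag_le α hxb hxb0 hΛ hBa hBb hi
    calc s2 * ∑ v ∈ Λ, α v i ^ 2 ≤ s2 * (3 * S.q i (m + 1) ^ 4) := mul_le_mul_of_nonneg_left h hs20
      _ = _ := by ring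
  have hcardA := hBa.hNh
  have hcardB := hBb.hNh
  have hwX : ∀ p ∈ S.H (m + 1) ×ˢ S.H (m + 1), 0 ≤ S.wX (m + 1) p := fun p _ => S.wX_nonneg _ p
  have hb6 : (1 / S.b (m + 1) ^ 3) ^ 2 = 1 / S.b (m + 1) ^ 6 := by
    field_simp
  have hε1 := abs_eps hε
  have hhalf : |(1 / 2 : ℝ)| = 1 / 2 := abs_of_pos (by norm_num)
  have hmhalf : |(-(1 / 2) : ℝ)| = 1 / 2 := by rw [abs_neg, hhalf]
  rw [S.Xf_eq]
  apply sq_of_wn_le _ (by positivity)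
  rw [wn_congr (fun p _ => S.new_Err α sh hΛ hsplit p.1 p.2)]
  refine (wn_six hwX _ _ _ _ _ _ _ _ _ _ _ _).trans ?_
  rw [hε1, hhalf, hmhalf]
  have a1 : wn (S.H (m + 1) ×ˢ S.H (m + 1)) (S.wX (m + 1)) (fun p => S.Err α (m + 1) Ba p.1 p.2) ≤ xb :=
    wn_le (by rw [← S.Xf_eq]; exact hBa.hX) hxb0
  have a2 : wn (S.H (m + 1) ×ˢ S.H (m + 1)) (S.wX (m + 1)) (fun p => S.Err α (m + 1) Bb p.1 p.2) ≤ xb :=
    wn_le (by rw [← S.Xf_eq]; exact hBb.hX) hxb0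
  have hgram : ∀ G : Finset V, wn (S.H (m + 1) ×ˢ S.H (m + 1)) (S.wX (m + 1)) (fun p => MB α G p.1 p.2)
      ≤ (G.card : ℝ) * (1 / S.b (m + 1) ^ 3) := by
    intro G
    apply wn_gram_le α (by positivity) (S.wX_nonneg _)
    · intro p hp
      rw [hb6]
      rcases p with ⟨k, l⟩
      obtain ⟨hk, hl⟩ := Finset.mem_product.1 hp
      exact S.wX_le hk hl
    · exact fun v => part_sq_le α hα v _
    · exact fun v => part_sq_le α hα v _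
  have a3 := (hgram _).trans (S.gram_small hcardA hNh)
  have a4 := (hgram _).trans (S.gram_small hcardB hNh)
  have a5 : wn (S.H (m + 1) ×ˢ S.H (m + 1)) (S.wX (m + 1)) (fun p => tauM α Λ sh p.1 p.2) ≤ 1 / S.b (m + 1) := by
    apply wn_le _ (by positivity)
    rw [← S.Xf_eq]
    refine (S.Xf_tau_le α sh hs20 hdiag hα hs2.symm).trans ?_
    have h1 : 3 * s2 ≤ 3 * (1 / (20 * S.b (m + 1) ^ 2)) := by linarith
    refine h1.trans (le_of_eq_of_le ?_ (?_ : 3 / 20 * (1 / S.b (m + 1)) ^ 2 ≤ _))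
    · field_simp
    · have : 0 ≤ (1 / S.b (m + 1)) ^ 2 := by positivity
      linarith
  have a6 : wn (S.H (m + 1) ×ˢ S.H (m + 1)) (S.wX (m + 1)) (fun p => nzf fun v => α v p.1 * α v p.2)
      ≤ 1 / 10 ^ 5 := by
    apply wn_le _ (by norm_num)
    have e := S.Xf_eq (m + 1) (fun k l => nzf fun v => α v k * α v l)
    refine (le_of_eq e.symm).trans (hXn.trans (le_of_eq ?_))
    norm_num
  norm_num at hbi ⊢
  norm_num at a3 a4 a5 a6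
  linarith

/-- Closure of `Xp`. -/
lemma Sched.closure_Xp (hα : ∀ v, ∑ i, α v i ^ 2 ≤ 1) {New : Finset V} {nzf : (V → ℝ) → ℝ} {ε : ℝ}
    (hε : ε = 1 ∨ ε = -1)
    (hΛ : ∀ r : V → ℝ, ∑ v ∈ Λ, r v = ∑ v ∈ S.Lv α (m + 1) Ba, r v + ∑ v ∈ S.Lv α (m + 1) Bb, r v)
    (hsplit : ∀ r : V → ℝ, ∑ v ∈ New, r v = ∑ v ∈ S.Sv α (m + 1) Ba, r v + (1 / 2) * ∑ v ∈ Λ, r v
        + ε * (∑ v ∈ Λ, sh v * r v + nzf r))
    {xb xp Ne M1 M2 : ℝ}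
    (hxb : xb ≤ 1 / 200) (hxb0 : 0 ≤ xb) (hxp0 : 0 ≤ xp)
    (hNh : 1000 * S.NbR (m + 1) ≤ S.b (m + 1))
    (hBa : S.BlockInv α (m + 1) Ba xb xp (S.NbR (m + 1)) Ne M1 M2)
    (hBb : S.BlockInv α (m + 1) Bb xb xp (S.NbR (m + 1)) Ne M1 M2)
    (hsh2 : ∑ v ∈ Λ, sh v ^ 2 ≤ 1 / (20 * S.b (m + 1) ^ 2))
    (hXpn : S.Xp (m + 1) (fun k l => nzf fun v => α v k * α v l)
        ≤ ((S.C (m + 1)).card : ℝ) / 10 ^ 10) :
    S.Xp (m + 1) (MB α New) ≤ (xp + 1 / 10 ^ 4) ^ 2 * ((S.C (m + 1)).card : ℝ) := by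
  have hb := S.b_pos (m + 1)
  have hb1 : (1 : ℝ) ≤ S.b (m + 1) := by
    have h1 := S.b_ge (m + 1)
    have h2 : (1 : ℝ) ≤ 2 ^ 42 := by norm_num
    linarith
  have hbi := S.b_inv_small (m + 1)
  obtain ⟨s2, hs2⟩ : ∃ s2, s2 = ∑ v ∈ Λ, sh v ^ 2 := ⟨_, rfl⟩
  have hs20 : 0 ≤ s2 := by
    rw [hs2]
    exact Finset.sum_nonneg fun v _ => sq_nonneg _
  have hs2le : s2 ≤ 1 / (20 * S.b (m + 1) ^ 2) := by rw [hs2]; exact hsh2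
  have hdiag : ∀ i ∈ S.H (m + 1), s2 * ∑ v ∈ Λ, α v i ^ 2 ≤ 3 * s2 * S.q i (m + 1) ^ 4 := by
    intro i hi
    have h := S.light_diag_le α hxb hxb0 hΛ hBa hBb hi
    calc s2 * ∑ v ∈ Λ, α v i ^ 2 ≤ s2 * (3 * S.q i (m + 1) ^ 4) := mul_le_mul_of_nonneg_left h hs20
      _ = _ := by ring
  have hcardA := hBa.hNh
  have hcardB := hBb.hNh
  have hwP : ∀ p ∈ S.H (m + 1) ×ˢ S.C (m + 1), 0 ≤ S.wP (m + 1) p := fun p _ => S.wP_nonneg _ p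
  have hb6 : (1 / S.b (m + 1) ^ 3) ^ 2 = 1 / S.b (m + 1) ^ 6 := by
    field_simp
  have hε1 := abs_eps hε
  have hhalf : |(1 / 2 : ℝ)| = 1 / 2 := abs_of_pos (by norm_num)
  have hmhalf : |(-(1 / 2) : ℝ)| = 1 / 2 := by rw [abs_neg, hhalf]
  rcases (S.C (m + 1)).eq_empty_or_nonempty with hC | hC
  · unfold Sched.Xp
    rw [hC]
    simp
  have hc1 : (1 : ℝ) ≤ ((S.C (m + 1)).card : ℝ) := by exact_mod_cast Finset.card_pos.2 hC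
  obtain ⟨rc, hrc⟩ : ∃ rc, rc = √((S.C (m + 1)).card : ℝ) := ⟨_, rfl⟩
  have hrc1 : 1 ≤ rc := by
    rw [hrc]
    exact Real.one_le_sqrt.2 hc1
  have hrc2 : rc ^ 2 = ((S.C (m + 1)).card : ℝ) := by
    rw [hrc]
    exact Real.sq_sqrt (by positivity)
  rw [← hrc2, ← mul_pow, S.Xp_eq]
  apply sq_of_wn_le _ (by positivity)
  rw [wn_congr (fun p _ => S.new_MB α sh hΛ hsplit p.1 p.2)]
  refine (wn_six hwP _ _ _ _ _ _ _ _ _ _ _ _).trans ?_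
  rw [hε1, hhalf, hmhalf]
  have a1 : wn (S.H (m + 1) ×ˢ S.C (m + 1)) (S.wP (m + 1)) (fun p => MB α Ba p.1 p.2) ≤ xp * rc := by
    apply wn_le _ (by positivity)
    rw [← S.Xp_eq, mul_pow, hrc2]
    exact hBa.hXp
  have a2 : wn (S.H (m + 1) ×ˢ S.C (m + 1)) (S.wP (m + 1)) (fun p => MB α Bb p.1 p.2) ≤ xp * rc := by
    apply wn_le _ (by positivity)
    rw [← S.Xp_eq, mul_pow, hrc2]
    exact hBb.hXp
  have hgram : ∀ G : Finset V, wn (S.H (m + 1) ×ˢ S.C (m + 1)) (S.wP (m + 1)) (fun p => MB α G p.1 p.2)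
      ≤ (G.card : ℝ) * (1 / S.b (m + 1) ^ 3) := by
    intro G
    apply wn_gram_le α (by positivity) (S.wP_nonneg _)
    · intro p hp
      rw [hb6]
      rcases p with ⟨k, l⟩
      obtain ⟨hk, -⟩ := Finset.mem_product.1 hp
      exact S.wP_le l hk
    · exact fun v => part_sq_le α hα v _
    · exact fun v => part_sq_le α hα v _
  have a3 := (hgram _).trans (S.gram_small hcardA hNh)
  have a4 := (hgram _).trans (S.gram_small hcardB hNh)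
  have a5 : wn (S.H (m + 1) ×ˢ S.C (m + 1)) (S.wP (m + 1)) (fun p => tauM α Λ sh p.1 p.2) ≤ 1 / S.b (m + 1) := by
    apply wn_le _ (by positivity)
    rw [← S.Xp_eq]
    refine (S.Xp_tau_le α sh hs20 hdiag hα hs2.symm).trans ?_
    have h1 : 3 * s2 / S.b (m + 1) ≤ 3 * (1 / (20 * S.b (m + 1) ^ 2)) / S.b (m + 1) := by
      apply div_le_div_of_nonneg_right (by linarith) hb.le
    refine h1.trans ?_
    have e : 3 * (1 / (20 * S.b (m + 1) ^ 2)) / S.b (m + 1) = 3 / 20 * (1 / S.b (m + 1)) ^ 2 * (1 / S.b (m + 1)) := by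
      field_simp
    rw [e]
    have h2 : 0 ≤ (1 / S.b (m + 1)) ^ 2 := by positivity
    have h3 : 1 / S.b (m + 1) ≤ 1 := by
      rw [div_le_one hb]
      exact hb1
    nlinarith
  have a6 : wn (S.H (m + 1) ×ˢ S.C (m + 1)) (S.wP (m + 1)) (fun p => nzf fun v => α v p.1 * α v p.2)
      ≤ rc / 10 ^ 5 := by
    apply wn_le _ (by positivity)
    have e := S.Xp_eq (m + 1) (fun k l => nzf fun v => α v k * α v l)
    refine (le_of_eq e.symm).trans (hXpn.trans (le_of_eq ?_))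
    rw [div_pow, hrc2]
    norm_num
  norm_num at hbi ⊢
  norm_num at a3 a4 a5 a6
  nlinarith

/-- Closure of the light trace. -/
lemma Sched.closure_Ne {New : Finset V} {nzf : (V → ℝ) → ℝ} {ε : ℝ}
    (hε : ε = 1 ∨ ε = -1)
    (hΛ : ∀ r : V → ℝ, ∑ v ∈ Λ, r v = ∑ v ∈ S.Lv α (m + 1) Ba, r v + ∑ v ∈ S.Lv α (m + 1) Bb, r v)
    (hΛl : ∀ v ∈ Λ, ¬ S.Hv α (m + 1) v)
    (hsn : ∀ r : V → ℝ, ∑ v ∈ S.Lv α (m + 1) New, r v = (1 / 2) * ∑ v ∈ Λ, r v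
      + ε * (∑ v ∈ Λ, sh v * r v + nzf r))
    {Ne : ℝ}
    (hNe : 1000 * Ne ≤ S.b (m + 1))
    (h1 : ∑ v ∈ S.Lv α (m + 1) Ba, S.uu α (m + 1) v ≤ Ne)
    (h2 : ∑ v ∈ S.Lv α (m + 1) Bb, S.uu α (m + 1) v ≤ Ne)
    (hsh2 : ∑ v ∈ Λ, sh v ^ 2 ≤ 1 / (20 * S.b (m + 1) ^ 2))
    (hR : (nzf (S.uu α (m + 1))) ^ 2 ≤ 22400) :
    ∑ v ∈ S.Lv α (m + 1) New, S.uu α (m + 1) v ≤ Ne + 151 := by
  have hb := S.b_pos (m + 1)
  have hb1 : (1 : ℝ) ≤ S.b (m + 1) := by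
    have h1 := S.b_ge (m + 1)
    have h2 : (1 : ℝ) ≤ 2 ^ 42 := by norm_num
    linarith
  rw [hsn, hΛ]
  have hNe0 : 0 ≤ Ne := le_trans (Finset.sum_nonneg fun v _ => S.uu_nonneg α _ v) h1
  have hr0 : ∀ v ∈ Λ, 0 ≤ S.uu α (m + 1) v := fun v _ => S.uu_nonneg α _ v
  have hr1 : ∀ v ∈ Λ, S.uu α (m + 1) v ≤ 1 := fun v hv => not_lt.1 (hΛl v hv)
  have hZ : ∑ v ∈ Λ, S.uu α (m + 1) v ≤ 2 * Ne := by rw [hΛ]; linarith
  have ht := tilt_row_le sh hr0 hr1 hZ (s2 := 1 / (20 * S.b (m + 1) ^ 2)) (by positivity) hsh2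
  have h3 : 1 / (20 * S.b (m + 1) ^ 2) * (2 * Ne) / 2 ≤ 1 / 2 := by
    have e : 1 / (20 * S.b (m + 1) ^ 2) * (2 * Ne) / 2 = Ne / (20 * S.b (m + 1) ^ 2) := by
      field_simp
    rw [e, div_le_iff₀ (by positivity)]
    nlinarith
  have hn' : |nzf (S.uu α (m + 1))| ≤ 150 := by
    apply abs_le_of_sq_le_sq (by norm_num; linarith) (by norm_num)
  have hT : ε * (∑ v ∈ Λ, sh v * S.uu α (m + 1) v + nzf (S.uu α (m + 1)))
      ≤ |∑ v ∈ Λ, sh v * S.uu α (m + 1) v| + |nzf (S.uu α (m + 1))| := by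
    rcases hε with rfl | rfl
    · have h1 := le_abs_self (∑ v ∈ Λ, sh v * S.uu α (m + 1) v)
      have h2 := le_abs_self (nzf (S.uu α (m + 1)))
      linarith
    · have h1 := neg_abs_le (∑ v ∈ Λ, sh v * S.uu α (m + 1) v)
      have h2 := neg_abs_le (nzf (S.uu α (m + 1)))
      linarith
  linarith

/-- **The core of the closure.** -/
theorem Sched.block_closure_core (hα : ∀ v, ∑ i, α v i ^ 2 ≤ 1) {New : Finset V} {nzf : (V → ℝ) → ℝ} {ε : ℝ}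
    (hε : ε = 1 ∨ ε = -1)
    (hΛ : ∀ r : V → ℝ, ∑ v ∈ Λ, r v = ∑ v ∈ S.Lv α (m + 1) Ba, r v + ∑ v ∈ S.Lv α (m + 1) Bb, r v)
    (hΛl : ∀ v ∈ Λ, ¬ S.Hv α (m + 1) v)
    (hsplit : ∀ r : V → ℝ, ∑ v ∈ New, r v = ∑ v ∈ S.Sv α (m + 1) Ba, r v + (1 / 2) * ∑ v ∈ Λ, r v
        + ε * (∑ v ∈ Λ, sh v * r v + nzf r))
    (hSv : S.Sv α (m + 1) New = S.Sv α (m + 1) Ba)
    {xb xp Ne M1 M2 : ℝ}
    (hxb : xb ≤ 1 / 200) (hxb0 : 0 ≤ xb) (hxp0 : 0 ≤ xp)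
    (hNe : 1000 * Ne ≤ S.b (m + 1)) (hM1 : 0 ≤ M1) (hM20 : 0 ≤ M2)
    (hNh : 1000 * S.NbR (m + 1) ≤ S.b (m + 1))
    (hBa : S.BlockInv α (m + 1) Ba xb xp (S.NbR (m + 1)) Ne M1 M2)
    (hBb : S.BlockInv α (m + 1) Bb xb xp (S.NbR (m + 1)) Ne M1 M2)
    (hsh2 : ∑ v ∈ Λ, sh v ^ 2 ≤ 1 / (20 * S.b (m + 1) ^ 2))
    (hXn : S.Xf (m + 1) (fun k l => nzf fun v => α v k * α v l) ≤ 1 / 10 ^ 10)
    (hXpn : S.Xp (m + 1) (fun k l => nzf fun v => α v k * α v l)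
        ≤ ((S.C (m + 1)).card : ℝ) / 10 ^ 10)
    (hR : (nzf (S.uu α (m + 1))) ^ 2 ≤ 22400)
    (hR1 : (nzf (Row α (S.C (m + 1)))) ^ 2 ≤ 22400)
    (hR2 : (nzf (Row α (S.C m))) ^ 2 ≤ 22400) :
    S.BlockInv α (m + 1) New (xb + 1 / 10 ^ 4) (xp + 1 / 10 ^ 4) (S.NbR (m + 1)) (Ne + 151)
        (1.001 * M1 + S.NbR (m + 1) / 2 + 151) (1.001 * M2 + S.NbR (m + 1) / 2 + 151) := by
  have hcardA := hBa.hNh
  have hsn : ∀ r : V → ℝ, ∑ v ∈ S.Lv α (m + 1) New, r v = (1 / 2) * ∑ v ∈ Λ, r v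
      + ε * (∑ v ∈ Λ, sh v * r v + nzf r) := by
    intro r
    have h1 := sum_Sv_add_Lv S α (m + 1) New r
    rw [hSv, hsplit r] at h1
    linarith
  refine ⟨S.closure_X α sh hα hε hΛ hsplit hxb hxb0 hNh hBa hBb hsh2 hXn,
    S.closure_Xp α sh hα hε hΛ hsplit hxb hxb0 hxp0 hNh hBa hBb hsh2 hXpn, ?_,
    S.closure_Ne α sh hε hΛ hΛl hsn hNe hBa.hNe hBb.hNe hsh2 hR, ?_, ?_⟩
  · rw [hSv]
    exact hcardA
  · exact S.mass_row_le α sh hε (Row_nonneg α _) (Row_le_one α hα _) hΛ hsplit hcardA hBa.hM1 hBb.hM1 hM1 hsh2 hR1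
  · intro c hc
    obtain rfl : c = m := by omega
    exact S.mass_row_le α sh hε (Row_nonneg α _) (Row_le_one α hα _) hΛ hsplit hcardA (hBa.hM2 c rfl) (hBb.hM2 c rfl)
      hM20 hsh2 hR2

end Core

/-- **Closure of the block bounds** for the left block. -/
theorem Sched.block_closure_L (hα : ∀ v, ∑ i, α v i ^ 2 ≤ 1) {m : ℕ} {B₁ B₂ : Finset V} (hdis : Disjoint B₁ B₂)
    {a : Fin d → ℝ} {Y : V → ℝ} (hY : ∀ v, Y v = 0 ∨ Y v = 1) {xb xp Ne M1 M2 : ℝ}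
    (hxb : xb ≤ 1 / 200) (hxb0 : 0 ≤ xb) (hxp : xp ≤ 1 / 1000) (hxp0 : 0 ≤ xp)
    (hNe : 1000 * Ne ≤ S.b (m + 1)) (hM1 : 0 ≤ M1) (hM20 : 0 ≤ M2)
    (hNh : 1000 * S.NbR (m + 1) ≤ S.b (m + 1))
    (hB₁ : S.BlockInv α (m + 1) B₁ xb xp (S.NbR (m + 1)) Ne M1 M2)
    (hB₂ : S.BlockInv α (m + 1) B₂ xb xp (S.NbR (m + 1)) Ne M1 M2)
    (hsh2 : ∑ v ∈ S.Lam α m B₁ B₂, S.shf α m a v ^ 2 ≤ 1 / (20 * S.b (m + 1) ^ 2))
    (hXn : S.Xf (m + 1) (fun k l => S.nz α m B₁ B₂ a Y fun v => α v k * α v l) ≤ 1 / 10 ^ 10)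
    (hXpn : S.Xp (m + 1) (fun k l => S.nz α m B₁ B₂ a Y fun v => α v k * α v l)
        ≤ ((S.C (m + 1)).card : ℝ) / 10 ^ 10)
    (hR : (S.nz α m B₁ B₂ a Y (S.uu α (m + 1))) ^ 2 ≤ 22400)
    (hR1 : (S.nz α m B₁ B₂ a Y (Row α (S.C (m + 1)))) ^ 2 ≤ 22400)
    (hR2 : (S.nz α m B₁ B₂ a Y (Row α (S.C m))) ^ 2 ≤ 22400) :
    S.BlockInv α (m + 1) (S.Lnew α m B₁ B₂ Y) (xb + 1 / 10 ^ 4) (xp + 1 / 10 ^ 4) (S.NbR (m + 1)) (Ne + 151)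
        (1.001 * M1 + S.NbR (m + 1) / 2 + 151) (1.001 * M2 + S.NbR (m + 1) / 2 + 151) := by
  classical
  refine S.block_closure_core α (Ba := B₁) (Bb := B₂) (Λ := S.Lam α m B₁ B₂) (S.shf α m a)
    hα (nzf := S.nz α m B₁ B₂ a Y) (ε := 1) (Or.inl rfl) (S.Lam_sum α hdis) ?_ ?_ (S.Sv_Lnew α hdis)
    hxb hxb0 hxp0 hNe hM1 hM20 hNh hB₁ hB₂ hsh2 hXn hXpn hR hR1 hR2
  · intro v hv
    unfold Sched.Lam Sched.Lv at hv
    exact (Finset.mem_filter.1 hv).2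
  · intro r
    rw [S.split_sum_L α (a := a) hdis hY r]
    ring

/-- **Closure of the block bounds** for the right block. -/
theorem Sched.block_closure_R (hα : ∀ v, ∑ i, α v i ^ 2 ≤ 1) {m : ℕ} {B₁ B₂ : Finset V} (hdis : Disjoint B₁ B₂)
    {a : Fin d → ℝ} {Y : V → ℝ} (hY : ∀ v, Y v = 0 ∨ Y v = 1) {xb xp Ne M1 M2 : ℝ}
    (hxb : xb ≤ 1 / 200) (hxb0 : 0 ≤ xb) (hxp : xp ≤ 1 / 1000) (hxp0 : 0 ≤ xp)
    (hNe : 1000 * Ne ≤ S.b (m + 1)) (hM1 : 0 ≤ M1) (hM20 : 0 ≤ M2)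
    (hNh : 1000 * S.NbR (m + 1) ≤ S.b (m + 1))
    (hB₁ : S.BlockInv α (m + 1) B₁ xb xp (S.NbR (m + 1)) Ne M1 M2)
    (hB₂ : S.BlockInv α (m + 1) B₂ xb xp (S.NbR (m + 1)) Ne M1 M2)
    (hsh2 : ∑ v ∈ S.Lam α m B₁ B₂, S.shf α m a v ^ 2 ≤ 1 / (20 * S.b (m + 1) ^ 2))
    (hXn : S.Xf (m + 1) (fun k l => S.nz α m B₁ B₂ a Y fun v => α v k * α v l) ≤ 1 / 10 ^ 10)
    (hXpn : S.Xp (m + 1) (fun k l => S.nz α m B₁ B₂ a Y fun v => α v k * α v l)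
        ≤ ((S.C (m + 1)).card : ℝ) / 10 ^ 10)
    (hR : (S.nz α m B₁ B₂ a Y (S.uu α (m + 1))) ^ 2 ≤ 22400)
    (hR1 : (S.nz α m B₁ B₂ a Y (Row α (S.C (m + 1)))) ^ 2 ≤ 22400)
    (hR2 : (S.nz α m B₁ B₂ a Y (Row α (S.C m))) ^ 2 ≤ 22400) :
    S.BlockInv α (m + 1) (S.Rnew α m B₁ B₂ Y) (xb + 1 / 10 ^ 4) (xp + 1 / 10 ^ 4) (S.NbR (m + 1)) (Ne + 151)
        (1.001 * M1 + S.NbR (m + 1) / 2 + 151) (1.001 * M2 + S.NbR (m + 1) / 2 + 151) := by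
  classical
  refine S.block_closure_core α (Ba := B₂) (Bb := B₁) (Λ := S.Lam α m B₁ B₂) (S.shf α m a)
    hα (nzf := S.nz α m B₁ B₂ a Y) (ε := -1) (Or.inr rfl) ?_ ?_ ?_ (S.Sv_Rnew α hdis)
    hxb hxb0 hxp0 hNe hM1 hM20 hNh hB₂ hB₁ hsh2 hXn hXpn hR hR1 hR2
  · intro r
    rw [S.Lam_sum α hdis, add_comm]
  · intro v hv
    unfold Sched.Lam Sched.Lv at hv
    exact (Finset.mem_filter.1 hv).2
  · intro r
    rw [S.split_sum_R α (a := a) hdis hY r]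
    ring

end Vale.Agent.P262S
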