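import Vale.Agent.P262S.ResplitH
import Vale.Agent.P262S.CoreLF

/-! # Re-split, piece P5: the spill (notes/P262_sqrtd.md, section 4). -/

open Finset

namespace Vale.Agent.P262S

variable {d : ℕ} (S : Sched d)
variable {V : Type} [Fintype V] [DecidableEq V] (α : V → Fin d → ℝ)

omit [Fintype V] [DecidableEq V] in
/-- Four term subadditivity of `Xp`. -/
lemma Sched.Xp_fourP5 (ℓ : ℕ) {E E₁ E₂ E₃ E₄ : Fin d → Fin d → ℝ}
    (h : ∀ k l, E k l = E₁ k l + E₂ k l - E₃ k l - E₄ k l) :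
    S.Xp ℓ E ≤ 4 * (S.Xp ℓ E₁ + S.Xp ℓ E₂ + S.Xp ℓ E₃ + S.Xp ℓ E₄) := by
  unfold Sched.Xp
  simp only [← Finset.sum_add_distrib, Finset.mul_sum]
  refine Finset.sum_le_sum fun k hk => Finset.sum_le_sum fun l _ => ?_
  have h0 := S.q_pos hk
  rw [h k l, ← add_div, ← add_div, ← add_div, ← mul_div_assoc]
  refine div_le_div_of_nonneg_right ?_ (by positivity)
  nlinarith [sq_nonneg (E₁ k l - E₂ k l), sq_nonneg (E₁ k l + E₃ k l), sq_nonneg (E₁ k l + E₄ k l),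
    sq_nonneg (E₂ k l + E₃ k l), sq_nonneg (E₂ k l + E₄ k l), sq_nonneg (E₃ k l - E₄ k l)]

variable {α} in
/-- `Xp` of the moment matrix of a set of size at most `b / 1000`. -/
lemma Sched.Xp_MB_smallP5 (hα : ∀ v, ∑ i, α v i ^ 2 ≤ 1) (ℓ : ℕ) {G : Finset V}
    (hG : 1000 * (G.card : ℝ) ≤ S.b ℓ) : S.Xp ℓ (MB α G) ≤ 1 / 10 ^ 6 := by
  have hb : (2 : ℝ) ^ 42 ≤ S.b ℓ := S.b_ge ℓ
  have hb0 : 0 < S.b ℓ := lt_of_lt_of_le (by norm_num) hb
  have hb1 : (1 : ℝ) ≤ S.b ℓ := by linarith [show (1 : ℝ) ≤ 2 ^ 42 by norm_num]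
  have h := sum_MB_sq_le hα (G := G) (S.H ℓ) (S.C ℓ)
    (fun k _ => 1 / S.q k ℓ ^ 6) (W := 1 / S.b ℓ ^ 6)
    (fun k hk l _ => by
      have := S.q_pos hk
      positivity)
    (fun k hk l _ => by
      have h1 := S.b_le_q hk
      exact one_div_le_one_div_of_le (by positivity) (pow_le_pow_left₀ hb0.le h1 6))
    (by positivity)
  have e : S.Xp ℓ (MB α G) = ∑ k ∈ S.H ℓ, ∑ c ∈ S.C ℓ, (1 / S.q k ℓ ^ 6) * MB α G k c ^ 2 := by
    unfold Sched.Xp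
    exact Finset.sum_congr rfl fun k _ => Finset.sum_congr rfl fun l _ => by ring
  rw [e]
  refine h.trans ?_
  rw [div_mul_eq_mul_div, one_mul, div_le_div_iff₀ (by positivity) (by norm_num)]
  have h1 : (1000 * (G.card : ℝ)) ^ 2 ≤ S.b ℓ ^ 2 := pow_le_pow_left₀ (by positivity) hG 2
  have h2 : S.b ℓ ^ 2 ≤ S.b ℓ ^ 6 := pow_le_pow_right₀ hb1 (by norm_num)
  nlinarith

/-- **The spill.** Class `m+1`: Cauchy with `∑ a² q⁶` and `Xp`; class `m`: Cauchy with `∑ sh²` and `M2`;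
old coordinates: Cauchy with `∑ sh²` and the light trace. -/
theorem Sched.spill_bound (hα : ∀ v, ∑ i, α v i ^ 2 ≤ 1) {m : ℕ} {B₁ B₂ : Finset V} (hdis : Disjoint B₁ B₂)
    {a : Fin d → ℝ} {xb xp Ne M1 M2 : ℝ} (hxb : xb ≤ 1 / 200) (hxb0 : 0 ≤ xb) (hxp : xp ≤ 1 / 1000) (hxp0 : 0 ≤ xp)
    (hNe : 1000 * Ne ≤ S.b (m + 1)) (hM2 : 10 ^ 4 * M2 ≤ S.b (m + 1) ^ 2) (hM20 : 0 ≤ M2)
    (hNh : 1000 * S.NbR (m + 1) ≤ S.b (m + 1))
    (hB₁ : S.BlockInv α (m + 1) B₁ xb xp (S.NbR (m + 1)) Ne M1 M2)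
    (hB₂ : S.BlockInv α (m + 1) B₂ xb xp (S.NbR (m + 1)) Ne M1 M2)
    (ha0 : ∀ k, k ∉ S.H (m + 1) → a k = 0)
    (hsh2 : ∑ v ∈ S.Lam α m B₁ B₂, S.shf α m a v ^ 2 ≤ 1 / (20 * S.b (m + 1) ^ 2))
    (ha6 : ∑ k ∈ S.H (m + 1), a k ^ 2 * S.q k (m + 1) ^ 6 ≤ 1 / 50) :
    S.LFf (m + 1) (S.spl α m B₁ B₂ a) ≤ S.SPb (m + 1) := by
  classical
  obtain ⟨O, hO⟩ : ∃ O : Finset (Fin d), O = univ.filter fun i => S.e i + 2 ≤ m + 1 := ⟨_, rfl⟩
  have hb : (2 : ℝ) ^ 42 ≤ S.b (m + 1) := S.b_ge (m + 1)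
  have hb0 : 0 < S.b (m + 1) := lt_of_lt_of_le (by norm_num) hb
  have hshn : 0 ≤ ∑ v ∈ S.Lam α m B₁ B₂, S.shf α m a v ^ 2 := Finset.sum_nonneg fun _ _ => sq_nonneg _
  have hU : S.U (m + 1) = S.C (m + 1) ∪ (S.C m ∪ O) := by
    ext i
    simp only [S.mem_U, mem_union, S.mem_C, hO, mem_filter, mem_univ, true_and]
    omega
  have hd1 : Disjoint (S.C m) O := by
    rw [Finset.disjoint_left]
    intro i hi hi'
    rw [S.mem_C] at hi
    rw [hO, mem_filter] at hi'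
    omega
  have hd2 : Disjoint (S.C (m + 1)) (S.C m ∪ O) := by
    rw [Finset.disjoint_left]
    intro i hi hi'
    rw [S.mem_C] at hi
    rw [mem_union, S.mem_C, hO, mem_filter] at hi'
    omega
  have hLF : S.LFf (m + 1) (S.spl α m B₁ B₂ a) = ∑ i ∈ S.C (m + 1), S.ph (m + 1) i * S.spl α m B₁ B₂ a i ^ 2
      + (∑ i ∈ S.C m, S.ph (m + 1) i * S.spl α m B₁ B₂ a i ^ 2
        + ∑ i ∈ O, S.ph (m + 1) i * S.spl α m B₁ B₂ a i ^ 2) := by
    unfold Sched.LFf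
    rw [hU, Finset.sum_union hd2, Finset.sum_union hd1]
  -- the class `m + 1`
  have h1 : ∑ i ∈ S.C (m + 1), S.ph (m + 1) i * S.spl α m B₁ B₂ a i ^ 2 ≤ ((S.C (m + 1)).card : ℝ) / 10 ^ 6 := by
    rcases (S.C (m + 1)).eq_empty_or_nonempty with hC | hC
    · simp [hC]
    have hc1 : (1 : ℝ) ≤ ((S.C (m + 1)).card : ℝ) := by exact_mod_cast hC.card_pos
    have e1 : ∑ i ∈ S.C (m + 1), S.ph (m + 1) i * S.spl α m B₁ B₂ a i ^ 2
        = ∑ i ∈ S.C (m + 1), (∑ v ∈ S.Lam α m B₁ B₂, shL α (S.H (m + 1)) a v * α v i) ^ 2 := by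
      refine Finset.sum_congr rfl fun i hi => ?_
      have he := S.mem_C.1 hi
      have : S.ph (m + 1) i = 1 := by
        unfold Sched.ph
        rw [he]
        simp
      rw [this, one_mul]
      rfl
    rw [e1]
    have h2 := spill_cross (α := α) (Λ := S.Lam α m B₁ B₂) (H := S.H (m + 1)) a
      (fun k => S.q k (m + 1) ^ 6) (S.C (m + 1)) (fun k hk => by
        have := S.q_pos hk
        positivity)
    refine h2.trans ?_
    have e2 : ∑ k ∈ S.H (m + 1), S.q k (m + 1) ^ 6 * a k ^ 2 = ∑ k ∈ S.H (m + 1), a k ^ 2 * S.q k (m + 1) ^ 6 :=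
      Finset.sum_congr rfl fun k _ => mul_comm _ _
    rw [e2]
    have e3 : ∑ k ∈ S.H (m + 1), ∑ j ∈ S.C (m + 1), MML α (S.Lam α m B₁ B₂) k j ^ 2 / S.q k (m + 1) ^ 6
        = S.Xp (m + 1) (MB α (S.Lam α m B₁ B₂)) := rfl
    rw [e3]
    have h3 : S.Xp (m + 1) (MB α (S.Lam α m B₁ B₂)) ≤ 4 * (S.Xp (m + 1) (MB α B₁) + S.Xp (m + 1) (MB α B₂)
        + S.Xp (m + 1) (MB α (S.Sv α (m + 1) B₁)) + S.Xp (m + 1) (MB α (S.Sv α (m + 1) B₂))) :=
      S.Xp_fourP5 (m + 1) fun k l => S.MB_Lam hdis k l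
    have h4 := hB₁.hXp
    have h5 := hB₂.hXp
    have h6 := S.Xp_MB_smallP5 hα (m + 1) (G := S.Sv α (m + 1) B₁) (by linarith [hB₁.hNh])
    have h7 := S.Xp_MB_smallP5 hα (m + 1) (G := S.Sv α (m + 1) B₂) (by linarith [hB₂.hNh])
    have h8 : xp ^ 2 ≤ (1 / 1000) ^ 2 := pow_le_pow_left₀ hxp0 hxp 2
    have h9 : S.Xp (m + 1) (MB α (S.Lam α m B₁ B₂)) ≤ 16 * (((S.C (m + 1)).card : ℝ) / 10 ^ 6) := by
      have h10 : xp ^ 2 * ((S.C (m + 1)).card : ℝ) ≤ 1 / 10 ^ 6 * ((S.C (m + 1)).card : ℝ) :=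
        mul_le_mul_of_nonneg_right (by norm_num at h8 ⊢; linarith) (by linarith)
      norm_num at h6 h7 h10 ⊢
      linarith
    have h11 : 0 ≤ S.Xp (m + 1) (MB α (S.Lam α m B₁ B₂)) :=
      Finset.sum_nonneg fun k hk => Finset.sum_nonneg fun l _ => by
        have := S.q_pos hk
        positivity
    have h12 : (∑ k ∈ S.H (m + 1), a k ^ 2 * S.q k (m + 1) ^ 6) * S.Xp (m + 1) (MB α (S.Lam α m B₁ B₂))
        ≤ 1 / 50 * (16 * (((S.C (m + 1)).card : ℝ) / 10 ^ 6)) :=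
      mul_le_mul ha6 h9 h11 (by norm_num)
    have h13 : 0 ≤ ((S.C (m + 1)).card : ℝ) / 10 ^ 6 := by positivity
    linarith
  -- the class `m`
  have hsum2 : ∀ r : V → ℝ, (∀ v, 0 ≤ r v) → ∀ R : ℝ, ∑ v ∈ B₁, r v ≤ R → ∑ v ∈ B₂, r v ≤ R →
      ∑ v ∈ S.Lam α m B₁ B₂, r v ≤ 2 * R := by
    intro r hr R h1 h2
    rw [S.Lam_sum' hdis]
    have h3 : ∑ v ∈ S.Lv α (m + 1) B₁, r v ≤ ∑ v ∈ B₁, r v :=
      Finset.sum_le_sum_of_subset_of_nonneg (S.Lv_subset _ _) fun v _ _ => hr v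
    have h4 : ∑ v ∈ S.Lv α (m + 1) B₂, r v ≤ ∑ v ∈ B₂, r v :=
      Finset.sum_le_sum_of_subset_of_nonneg (S.Lv_subset _ _) fun v _ _ => hr v
    linarith
  have h2 : ∑ i ∈ S.C m, S.ph (m + 1) i * S.spl α m B₁ B₂ a i ^ 2
      ≤ (if (S.C m).Nonempty then 1 / 10 ^ 4 else 0) := by
    rcases (S.C m).eq_empty_or_nonempty with hC | hC
    · simp [hC]
    rw [if_pos hC]
    have e1 : ∑ i ∈ S.C m, S.ph (m + 1) i * S.spl α m B₁ B₂ a i ^ 2
        = ∑ i ∈ S.C m, (4 / 3) * (∑ v ∈ S.Lam α m B₁ B₂, shL α (S.H (m + 1)) a v * α v i) ^ 2 := by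
      refine Finset.sum_congr rfl fun i hi => ?_
      have he := S.mem_C.1 hi
      have : S.ph (m + 1) i = 4 / 3 := by
        unfold Sched.ph
        rw [he]
        simp
      rw [this]
      rfl
    rw [e1]
    have h3 := spill_weighted (α := α) (Λ := S.Lam α m B₁ B₂) (H := S.H (m + 1)) a
      (fun _ => 4 / 3) (S.C m) (fun _ _ => by norm_num)
    refine h3.trans ?_
    have h4 : ∑ v ∈ S.Lam α m B₁ B₂, ∑ j ∈ S.C m, (4 / 3 : ℝ) * α v j ^ 2 ≤ 2 * (4 / 3 * M2) := by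
      refine hsum2 _ (fun v => Finset.sum_nonneg fun _ _ => by positivity) _ ?_ ?_
      · have := hB₁.hM2 m rfl
        simp only [Row] at this
        simp only [← Finset.mul_sum]
        linarith
      · have := hB₂.hM2 m rfl
        simp only [Row] at this
        simp only [← Finset.mul_sum]
        linarith
    have h5 : 0 ≤ 2 * (4 / 3 * M2) := by positivity
    have h6 : (∑ v ∈ S.Lam α m B₁ B₂, shL α (S.H (m + 1)) a v ^ 2)
        * ∑ v ∈ S.Lam α m B₁ B₂, ∑ j ∈ S.C m, (4 / 3 : ℝ) * α v j ^ 2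
        ≤ 1 / (20 * S.b (m + 1) ^ 2) * (2 * (4 / 3 * M2)) :=
      mul_le_mul hsh2 h4 (Finset.sum_nonneg fun v _ => Finset.sum_nonneg fun _ _ => by positivity)
        (by positivity)
    refine h6.trans ?_
    rw [div_mul_eq_mul_div, div_le_div_iff₀ (by positivity) (by norm_num)]
    have h7 : 0 ≤ S.b (m + 1) ^ 2 := by positivity
    nlinarith
  -- the old coordinates
  have h3 : ∑ i ∈ O, S.ph (m + 1) i * S.spl α m B₁ B₂ a i ^ 2 ≤ S.Θ (m + 1) / 10 ^ 6 := by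
    have hΘ := S.Θ_pos (m + 1)
    have h4 : ∑ i ∈ O, S.ph (m + 1) i * S.spl α m B₁ B₂ a i ^ 2
        ≤ (16 / 9 * S.Θ (m + 1)) * ∑ i ∈ O, S.om (m + 1) i *
            (∑ v ∈ S.Lam α m B₁ B₂, shL α (S.H (m + 1)) a v * α v i) ^ 2 := by
      rw [Finset.mul_sum]
      refine Finset.sum_le_sum fun i hi => ?_
      have hi' : S.e i + 2 ≤ m + 1 := by
        rw [hO, mem_filter] at hi
        exact hi.2
      have h5 := S.resplit_ph_om (m := m + 1) (i := i) (by omega)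
      have h6 : 0 ≤ S.spl α m B₁ B₂ a i ^ 2 := sq_nonneg _
      have e : S.spl α m B₁ B₂ a i = ∑ v ∈ S.Lam α m B₁ B₂, shL α (S.H (m + 1)) a v * α v i := rfl
      rw [← e, ← mul_assoc]
      exact mul_le_mul_of_nonneg_right h5 h6
    refine h4.trans ?_
    have h5 := spill_weighted (α := α) (Λ := S.Lam α m B₁ B₂) (H := S.H (m + 1)) a
      (fun i => S.om (m + 1) i) O (fun i _ => (S.om_pos _ _).le)
    have e1 : ∀ v, ∑ j ∈ O, S.om (m + 1) j * α v j ^ 2 = S.uu α (m + 1) v := by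
      intro v
      unfold Sched.uu
      rw [hO]
      refine Finset.sum_congr rfl fun i hi => ?_
      have hi' : S.e i + 2 ≤ m + 1 := (mem_filter.1 hi).2
      unfold Sched.om
      rw [if_pos hi']
    simp only [e1] at h5
    have h6 : ∑ v ∈ S.Lam α m B₁ B₂, S.uu α (m + 1) v ≤ 2 * Ne := by
      rw [S.Lam_sum' hdis]
      linarith [hB₁.hNe, hB₂.hNe]
    have h7 : 0 ≤ ∑ v ∈ S.Lam α m B₁ B₂, S.uu α (m + 1) v := Finset.sum_nonneg fun v _ => S.uu_nonneg α _ v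
    have h8 : (∑ v ∈ S.Lam α m B₁ B₂, shL α (S.H (m + 1)) a v ^ 2)
        * ∑ v ∈ S.Lam α m B₁ B₂, S.uu α (m + 1) v ≤ 1 / (20 * S.b (m + 1) ^ 2) * (2 * (S.b (m + 1) / 1000)) :=
      mul_le_mul hsh2 (by linarith) h7 (by positivity)
    have h9 : 1 / (20 * S.b (m + 1) ^ 2) * (2 * (S.b (m + 1) / 1000)) ≤ 1 / 10 ^ 7 := by
      have e2 : 1 / (20 * S.b (m + 1) ^ 2) * (2 * (S.b (m + 1) / 1000)) = 1 / (10000 * S.b (m + 1)) := by
        field_simp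
        norm_num
      rw [e2]
      refine one_div_le_one_div_of_le (by norm_num) ?_
      norm_num at hb
      linarith
    have h10 : 16 / 9 * S.Θ (m + 1) * (1 / 10 ^ 7) ≤ S.Θ (m + 1) / 10 ^ 6 := by
      norm_num
      linarith
    refine le_trans (mul_le_mul_of_nonneg_left (h5.trans (h8.trans h9)) (by positivity)) h10
  rw [hLF]
  unfold Sched.SPb
  have e : m + 1 - 1 = m := rfl
  rw [e]
  have h4 : (if (S.C m).Nonempty then (1 : ℝ) / 10 ^ 4 else 0)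
      = if m + 1 ≠ 0 ∧ (S.C m).Nonempty then 1 / 10 ^ 4 else 0 := by
    simp
  rw [← h4]
  linarith

end Vale.Agent.P262S
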