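import Vale.Agent.P262S.ResplitCore
import Vale.Agent.P262S.Basic

/-! # Re-split, piece P6: the position form (notes/P262_sqrtd.md, section 4). -/

open Finset

namespace Vale.Agent.P262S

variable {d : ℕ} (S : Sched d)
variable {V : Type} [Fintype V] [DecidableEq V] (α : V → Fin d → ℝ)

/-- The shift of the centre on the coordinates of the position form. -/
noncomputable def Sched.shift (m : ℕ) (B₁ B₂ : Finset V) (a : Fin d → ℝ) (i : Fin d) : ℝ :=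
  (sm α (S.Lv α (m + 1) B₂) i - sm α (S.Lv α (m + 1) B₁) i) / 2 + S.spl α m B₁ B₂ a i

/-- One coordinate of the position form, with weight `w` and age factor `g`. -/
lemma center_coord {w g ph x s : ℝ} (hw0 : 0 ≤ w) (hw : w ≤ 1) (hg : 0 < g) (hph : ph * g = 1)
    (h1ph : 1 ≤ ph) :
    w * (x + s) ^ 2 ≤ w * (1 + g / 50) * x ^ 2 + 51 * ph * s ^ 2 := by
  have hph0 : 0 < ph := by linarith
  have h1 : (x + s) ^ 2 ≤ (1 + g / 50) * x ^ 2 + (1 + 50 * ph) * s ^ 2 := by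
    have h3 : 0 ≤ (g * x - 50 * s) ^ 2 * ph / 50 := by positivity
    have h4 : (g * x - 50 * s) ^ 2 * ph / 50
        = (ph * g) * (g * x ^ 2) / 50 - 2 * (ph * g) * (x * s) + 50 * ph * s ^ 2 := by ring
    rw [hph] at h4
    nlinarith
  have h5 : 0 ≤ s ^ 2 := sq_nonneg s
  have h6 : (1 + 50 * ph) * s ^ 2 ≤ 51 * ph * s ^ 2 :=
    mul_le_mul_of_nonneg_right (by linarith) h5
  have h7 : 0 ≤ ph * s ^ 2 := by positivity
  calc w * (x + s) ^ 2 ≤ w * ((1 + g / 50) * x ^ 2 + (1 + 50 * ph) * s ^ 2) :=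
        mul_le_mul_of_nonneg_left h1 hw0
    _ = w * (1 + g / 50) * x ^ 2 + w * ((1 + 50 * ph) * s ^ 2) := by ring
    _ ≤ w * (1 + g / 50) * x ^ 2 + 1 * ((1 + 50 * ph) * s ^ 2) := by
        have : 0 ≤ (1 + 50 * ph) * s ^ 2 := by positivity
        have := mul_le_mul_of_nonneg_right hw this
        linarith
    _ ≤ w * (1 + g / 50) * x ^ 2 + 51 * ph * s ^ 2 := by linarith

/-- From the value at the old cut to the value at the new centre. `x` is `z ± G`. -/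
theorem Sched.center_step {m k : ℕ} (hk : k + 2 ≤ 6) {B₁ B₂ : Finset V} {a : Fin d → ℝ} {LF : ℝ} {x : Fin d → ℝ}
    (hLF₁ : S.LFf (m + 1) (sm α (S.Lv α (m + 1) B₁)) ≤ LF)
    (hLF₂ : S.LFf (m + 1) (sm α (S.Lv α (m + 1) B₂)) ≤ LF)
    (hsp : S.LFf (m + 1) (S.spl α m B₁ B₂ a) ≤ S.SPb (m + 1)) :
    ∑ i ∈ S.U (m + 1), S.Wk (m + 1) (k + 1) i * (x i + S.shift α m B₁ B₂ a i) ^ 2
      ≤ S.Qf (m + 1) (S.Wk (m + 1) (k + 2)) x + 200 * LF + 200 * S.SPb (m + 1) := by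
  have h0 : ∀ y : Fin d → ℝ, 0 ≤ S.LFf (m + 1) y := fun y =>
    sum_nonneg fun i _ => mul_nonneg (by linarith [S.one_le_ph (m + 1) i]) (sq_nonneg _)
  have hLF0 : 0 ≤ LF := (h0 _).trans hLF₁
  have hSP0 : 0 ≤ S.SPb (m + 1) := (h0 _).trans hsp
  have h1 : ∀ i ∈ S.U (m + 1), S.Wk (m + 1) (k + 1) i * (x i + S.shift α m B₁ B₂ a i) ^ 2
      ≤ S.Wk (m + 1) (k + 2) i * x i ^ 2
        + (51 * (3 / 4) * (S.ph (m + 1) i * sm α (S.Lv α (m + 1) B₁) i ^ 2)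
          + 51 * (3 / 4) * (S.ph (m + 1) i * sm α (S.Lv α (m + 1) B₂) i ^ 2)
          + 153 * (S.ph (m + 1) i * S.spl α m B₁ B₂ a i ^ 2)) := by
    intro i hi
    have hi' : S.e i ≤ m + 1 := S.mem_U.1 hi
    have hc := center_coord (w := S.Wk (m + 1) (k + 1) i) (g := S.ag (m + 1) i)
      (ph := S.ph (m + 1) i) (x := x i) (s := S.shift α m B₁ B₂ a i) (S.Wk_pos _ _ _).le
      (S.Wk_le_one (by omega) hi') (S.ag_pos _ _) (S.ph_mul_ag _ _) (S.one_le_ph _ _)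
    have e : S.Wk (m + 1) (k + 1) i * (1 + S.ag (m + 1) i / 50) = S.Wk (m + 1) (k + 2) i := by
      rw [S.Wk_succ (m + 1) (k + 1) i]
      rfl
    rw [e] at hc
    refine hc.trans ?_
    have hph0 : 0 ≤ S.ph (m + 1) i := by linarith [S.one_le_ph (m + 1) i]
    obtain ⟨A, hA⟩ : ∃ A, A = sm α (S.Lv α (m + 1) B₁) i := ⟨_, rfl⟩
    obtain ⟨B, hB⟩ : ∃ B, B = sm α (S.Lv α (m + 1) B₂) i := ⟨_, rfl⟩
    obtain ⟨C, hC⟩ : ∃ C, C = S.spl α m B₁ B₂ a i := ⟨_, rfl⟩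
    have hs : S.shift α m B₁ B₂ a i = (B - A) / 2 + C := by
      rw [hA, hB, hC]; rfl
    rw [hs, ← hA, ← hB, ← hC]
    have h2 : ((B - A) / 2 + C) ^ 2 ≤ 3 / 4 * A ^ 2 + 3 / 4 * B ^ 2 + 3 * C ^ 2 := by
      nlinarith [sq_nonneg (A + B), sq_nonneg (B / 2 - C), sq_nonneg (A / 2 + C), sq_nonneg (B - A - C), sq_nonneg (A - B + C)]
    have h3 := mul_le_mul_of_nonneg_left h2 hph0
    nlinarith
  have h2 := sum_le_sum h1
  rw [sum_add_distrib, sum_add_distrib, sum_add_distrib, ← mul_sum, ← mul_sum, ← mul_sum] at h2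
  refine h2.trans ?_
  have e1 : ∑ i ∈ S.U (m + 1), S.ph (m + 1) i * sm α (S.Lv α (m + 1) B₁) i ^ 2
      = S.LFf (m + 1) (sm α (S.Lv α (m + 1) B₁)) := rfl
  have e2 : ∑ i ∈ S.U (m + 1), S.ph (m + 1) i * sm α (S.Lv α (m + 1) B₂) i ^ 2
      = S.LFf (m + 1) (sm α (S.Lv α (m + 1) B₂)) := rfl
  have e3 : ∑ i ∈ S.U (m + 1), S.ph (m + 1) i * S.spl α m B₁ B₂ a i ^ 2
      = S.LFf (m + 1) (S.spl α m B₁ B₂ a) := rfl
  have e4 : ∑ i ∈ S.U (m + 1), S.Wk (m + 1) (k + 2) i * x i ^ 2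
      = S.Qf (m + 1) (S.Wk (m + 1) (k + 2)) x := rfl
  rw [e1, e2, e3, e4]
  linarith

end Vale.Agent.P262S
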