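import Vale.Agent.P262S.Iface

/-!
# Exact `S₂(d) = O(√d)`: definitions (see notes/P262_sqrtd.md)
-/

open Finset

namespace Vale.Agent.P262S

/-- The schedule, computed from the spectrum only. `H m = {i | m < e i}`, `C m = {i | e i = m}`. -/
structure Sched (d : ℕ) where
  j : ℕ → ℕ
  q : Fin d → ℕ → ℝ
  e : Fin d → ℕ
  hj : ∀ m, 32 ≤ j m
  hq0 : ∀ i m, 0 ≤ q i m
  hqs : ∀ i m, q i (m + 1) = q i m / 2 ^ j m
  he : ∀ i m, m < e i ↔ (2 : ℝ) ^ j m * (j m : ℝ) ^ 2 ≤ q i m
  hC1 : ∀ m, ∑ i ∈ univ.filter (fun i => m < e i), (2 : ℝ) ^ j m / q i m ≤ 1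
  hforced : ∀ m, (j m : ℝ) ^ 4 * (((univ.filter fun i => e i = m).card : ℝ) + 1) ≤ 2 ^ j (m + 1)
  hsum : ∀ M, ∑ m ∈ range M, ((j m : ℝ) - 32) ≤ 8 * d

variable {d : ℕ} (S : Sched d)

/-- The number of pieces at level `m`. -/
def Sched.K (m : ℕ) : ℕ := 16 ^ S.j m

/-- Lower bound of `q` on the corrected coordinates. -/
noncomputable def Sched.b (m : ℕ) : ℝ := (2 : ℝ) ^ S.j m * (S.j m : ℝ) ^ 2

/-- The corrected coordinates at level `m`. -/
def Sched.H (m : ℕ) : Finset (Fin d) := univ.filter fun i => m < S.e i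

/-- The class leaving at level `m`. -/
def Sched.C (m : ℕ) : Finset (Fin d) := univ.filter fun i => S.e i = m

/-- The coordinates whose exit level is at most `u`. -/
def Sched.U (u : ℕ) : Finset (Fin d) := univ.filter fun i => S.e i ≤ u

/-- The noise weight `ω²`. -/
noncomputable def Sched.om (m : ℕ) (i : Fin d) : ℝ :=
  if S.e i + 2 ≤ m then (2 : ℝ) ^ (m - 2 - S.e i) else 1

/-- The scale of the largest noise at level `m`: `1` near a class exit, else decays by `2/3`. -/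
noncomputable def Sched.Θ : ℕ → ℝ
  | 0 => 1
  | m + 1 => if ∃ i, m + 1 ≤ S.e i + 2 ∧ S.e i ≤ m + 3 then 1 else 2 / 3 * Sched.Θ m

/-- The age factor `r = 3/4`. -/
noncomputable def Sched.ag (u : ℕ) (i : Fin d) : ℝ := (3 / 4 : ℝ) ^ (u - S.e i)

/-- The final weights at level `u - 1`, in `[1/2, 1]`. -/
noncomputable def Sched.W (u : ℕ) (i : Fin d) : ℝ := (1 + S.ag u i) / 2

/-- One operation factor. -/
noncomputable def Sched.fa (u : ℕ) (i : Fin d) : ℝ := 1 + S.ag u i / 50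

/-- Intermediate weights: `Wk u 6 ≤ W u`, `Wk u 0 = W (u+1)`. -/
noncomputable def Sched.Wk (u k : ℕ) (i : Fin d) : ℝ := S.W (u + 1) i * S.fa u i ^ k

/-- The weights of the light sum form. -/
noncomputable def Sched.ph (u : ℕ) (i : Fin d) : ℝ := (4 / 3 : ℝ) ^ (u - S.e i)

variable {V : Type} [Fintype V] [DecidableEq V] (α : V → Fin d → ℝ)

/-- The old mass of an element. -/
noncomputable def Sched.uu (m : ℕ) (v : V) : ℝ :=
  ∑ i ∈ univ.filter (fun i => S.e i + 2 ≤ m), (2 : ℝ) ^ (m - 2 - S.e i) * α v i ^ 2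

/-- Heavy elements: a global status at each level. -/
def Sched.Hv (m : ℕ) (v : V) : Prop := 1 < S.uu α m v

/-- The mass on a class. -/
noncomputable def Row (Cl : Finset (Fin d)) (v : V) : ℝ := ∑ i ∈ Cl, α v i ^ 2

/-- The moment matrix of a block. -/
noncomputable def MB (B : Finset V) (k l : Fin d) : ℝ := ∑ v ∈ B, α v k * α v l

/-- The sum of a set of elements. -/
noncomputable def sm (G : Finset V) (i : Fin d) : ℝ := ∑ v ∈ G, α v i

open Classical in
/-- The heavy part of a block. -/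
noncomputable def Sched.Sv (m : ℕ) (B : Finset V) : Finset V := B.filter (S.Hv α m)

open Classical in
/-- The light part of a block. -/
noncomputable def Sched.Lv (m : ℕ) (B : Finset V) : Finset V := B.filter fun v => ¬ S.Hv α m v

/-- The form of the corrected coordinates. -/
noncomputable def Sched.Tf (m : ℕ) (x : Fin d → ℝ) : ℝ :=
  ∑ i ∈ S.H m, x i ^ 2 / S.q i m ^ 2

/-- The error matrix of a block. -/
noncomputable def Sched.Err (m : ℕ) (B : Finset V) (k l : Fin d) : ℝ :=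
  MB α B k l - if k = l then S.q k m ^ 4 else 0

/-- The near diagonality form. -/
noncomputable def Sched.Xf (m : ℕ) (E : Fin d → Fin d → ℝ) : ℝ :=
  ∑ k ∈ S.H m, ∑ l ∈ S.H m,
    E k l ^ 2 / (S.q k m ^ 2 * S.q l m ^ 2 * min (S.q k m) (S.q l m) ^ 2)

/-- The form of the off diagonal entries with the class leaving at this level. -/
noncomputable def Sched.Xp (m : ℕ) (E : Fin d → Fin d → ℝ) : ℝ :=
  ∑ k ∈ S.H m, ∑ c ∈ S.C m, E k c ^ 2 / S.q k m ^ 6

/-- The position form on the coordinates with exit level at most `u`. -/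
noncomputable def Sched.Qf (u : ℕ) (w : Fin d → ℝ) (x : Fin d → ℝ) : ℝ :=
  ∑ i ∈ S.U u, w i * x i ^ 2

/-- The form for the light sums. -/
noncomputable def Sched.LFf (u : ℕ) (x : Fin d → ℝ) : ℝ :=
  ∑ i ∈ S.U u, S.ph u i * x i ^ 2

/-- Bounds valid for one block at level `m`. -/
structure Sched.BlockInv (m : ℕ) (B : Finset V) (xb xp Nh Ne M1 M2 : ℝ) : Prop where
  hX : S.Xf m (S.Err α m B) ≤ xb ^ 2
  hXp : S.Xp m (MB α B) ≤ xp ^ 2 * ((S.C m).card : ℝ)
  hNh : ((S.Sv α m B).card : ℝ) ≤ Nh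
  hNe : ∑ v ∈ S.Lv α m B, S.uu α m v ≤ Ne
  hM1 : ∑ v ∈ B, Row α (S.C m) v ≤ M1
  hM2 : ∀ c, c + 1 = m → ∑ v ∈ B, Row α (S.C c) v ≤ M2

/-- The left end invariant (all heavy subsets). -/
def Sched.JL (m u : ℕ) (w : Fin d → ℝ) (Bud : ℝ) (B : Finset V) (x : Fin d → ℝ) : Prop :=
  ∀ G ⊆ S.Sv α m B, S.Qf u w (fun i => x i + sm α G i) ≤ Bud

/-- The right end invariant (all heavy subsets). -/
def Sched.JR (m u : ℕ) (w : Fin d → ℝ) (Bud : ℝ) (B : Finset V) (x : Fin d → ℝ) : Prop :=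
  ∀ G ⊆ S.Sv α m B, S.Qf u w (fun i => x i - sm α G i) ≤ Bud

/-- The sum of the noise variances of a rough split at level `m`. -/
noncomputable def Sched.Vw (m : ℕ) : ℝ := ∑ i ∈ S.U (m + 1), S.ph (m + 1) i / S.om m i

/-- The sum of the noise variances of a re-split at level `m`. -/
noncomputable def Sched.Vx (m : ℕ) : ℝ := ∑ i ∈ S.U m, S.ph m i / S.om m i

/-- Heavy count and light trace bound at the end of level `m`. -/
noncomputable def Sched.Nb : ℕ → ℝ
  | 0 => 0
  | m + 1 => 720 * √(S.j m : ℝ)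

/-- Heavy count and trace bound right after the rough split into level `m`. -/
noncomputable def Sched.NbR : ℕ → ℝ
  | 0 => 0
  | m + 1 => 340 * √(S.j m : ℝ)

/-- The bound for the mass of the class leaving at level `m`. -/
noncomputable def Sched.Mb1 : ℕ → ℝ
  | 0 => 3 * ∑ i ∈ S.C 0, S.q i 0 ^ 4
  | m + 1 => 3 * (∑ i ∈ S.C (m + 1), S.q i (m + 1) ^ 4) + 1000 * √(S.j m : ℝ)

/-- The bound for the mass of the class which left at level `m - 1`. -/
noncomputable def Sched.Mb2 : ℕ → ℝ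
  | 0 => 0
  | m + 1 => 1.01 * Sched.Mb1 S m / (S.K m : ℝ) + 1000 * √(S.j m : ℝ)

/-- Spill cost at a re-split at level `m`. -/
noncomputable def Sched.SPb (m : ℕ) : ℝ :=
  ((S.C m).card : ℝ) / 10 ^ 6 + (if m ≠ 0 ∧ (S.C (m - 1)).Nonempty then 1 / 10 ^ 4 else 0)
    + S.Θ m / 10 ^ 6

/-- The noise bound in the light sum form at a re-split at level `m`. -/
noncomputable def Sched.LNr (m : ℕ) : ℝ := 3200 * S.Vx m + 36000 * S.Θ m

/-- The noise bound in the light sum form at a rough split at level `m`. -/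
noncomputable def Sched.LNw (m : ℕ) : ℝ := 3200 * S.Vw m + 16000 * S.Θ m * (5 + 4 * (S.j m : ℝ))

/-- The test bound for the next class at a re-split at level `m`. -/
noncomputable def Sched.Q2b (m : ℕ) : ℝ :=
  if (S.C (m + 1)).Nonempty then 3200 * ((S.C (m + 1)).card : ℝ) + 19200 else 0

/-- The bound for the light sum form right after a rough split into level `m`. -/
noncomputable def Sched.LFr (LFprev : ℝ) (m : ℕ) : ℝ :=
  3 * (4 / (S.K m : ℝ) ^ 2 * LFprev + 4 * S.LNw m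
      + 7 * S.NbR (m + 1) ^ 2 * S.Θ m)

/-- The bound for the light sum form after one re-split. -/
noncomputable def Sched.LFs (LF : ℝ) (m : ℕ) : ℝ := 3 * (LF + S.SPb m + S.LNr m)

/-- The bound of the light sum form at the end of level `m`. -/
noncomputable def Sched.LFb : ℕ → ℝ
  | 0 => 0
  | m + 1 =>
      4 / 3 * S.LFs (S.LFs (S.LFr (Sched.LFb m) m) (m + 1)) (m + 1)
        + (if (S.C (m + 2)).Nonempty then 3 * (2 * S.Q2b (m + 1) + S.NbR (m + 1) ^ 2) else 0)

/-- The cost of one re-split at level `m` in the position form. -/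
noncomputable def Sched.RC (m : ℕ) (h LF : ℝ) : ℝ :=
  3200 * S.Vx m + 960000 * S.Θ m * (3 + h) + 200 * LF + 200 * S.SPb m

/-- The cost of a rough split of level `m` in the position form. -/
noncomputable def Sched.RCr (m : ℕ) : ℝ :=
  3200 * S.Vw m + 960000 * S.Θ m * (3 + S.Nb m + 4 * (S.j m : ℝ))
    + 500 * S.NbR (m + 1) ^ 2 * S.Θ m

/-- The budget increment from level `m` to level `m + 1`. -/
noncomputable def Sched.Inc (m : ℕ) : ℝ :=
  S.RCr m
    + (if (S.H (m + 1)).Nonempty then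
        S.RC (m + 1) (S.NbR (m + 1)) (S.LFr (S.LFb m) m)
          + S.RC (m + 1) (S.NbR (m + 1)) (S.LFs (S.LFr (S.LFb m) m) (m + 1))
      else 0)
    + (if (S.C (m + 2)).Nonempty then 2 * S.Q2b (m + 1) + 2 * S.NbR (m + 1) ^ 2 else 0)

/-- The budget. -/
noncomputable def Sched.Bud : ℕ → ℝ
  | 0 => 0
  | m + 1 => Sched.Bud m + S.Inc m

/-- Bound for the mass of the class leaving at level `m + 1`, right after the rough split. -/
noncomputable def Sched.M1R (m : ℕ) : ℝ :=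
  2 * (∑ i ∈ S.C (m + 1), S.q i (m + 1) ^ 4) + 1 + 330 * √(S.j m : ℝ)

/-- Bound for the mass of the class `C m`, right after the rough split into level `m + 1`. -/
noncomputable def Sched.M2R (m : ℕ) : ℝ :=
  S.Mb1 m / (S.K m : ℝ) + 1 + 330 * √(S.j m : ℝ)

/-- A cut of a position function. -/
noncomputable def cut (pos : V → ℕ) (t : ℕ) (i : Fin d) : ℝ := ∑ v, if pos v < t then α v i else 0

/-- A block of a position function. -/
def blk (pos : V → ℕ) (t : ℕ) : Finset V := univ.filter fun v => pos v = t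

/-- The invariants at the end of level `m`. -/
structure Sched.LevelInv (m F : ℕ) (pos : V → ℕ) : Prop where
  hpos : ∀ v, pos v < F
  hT : ∀ t ≤ F, S.Tf m (cut α pos t) ≤ 1 / 1000 ∧ S.Tf (m + 1) (cut α pos t) ≤ 1 / 1000
  hB : ∀ t < F, S.BlockInv α m (blk pos t) (1 / 100) (1 / 1000) (S.Nb m) (S.Nb m) (S.Mb1 m) (S.Mb2 m)
  hLF : ∀ t < F, (S.H m).Nonempty → S.LFf (m + 1) (sm α (S.Lv α m (blk pos t))) ≤ S.LFb m
  hJL : ∀ t < F, S.JL α m (m + 1) (S.W (m + 1)) (S.Bud m) (blk pos t) (cut α pos t)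
  hJR : ∀ t < F, S.JR α m (m + 1) (S.W (m + 1)) (S.Bud m) (blk pos t) (cut α pos (t + 1))

end Vale.Agent.P262S
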