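import Mathlib

/-!
# The deterministic schedule of the `O(√d)` Steinitz blueprint (notes/P262_sqrtd.md, section 1)

Input: `q0 : Fin d → ℝ` (the fourth roots of the eigenvalues).  Output: the sequence of jumps `jm m`,
the high sets `H m`, the classes `C m`, the freezing level `e i`, and all deterministic bounds.
-/

open Finset

namespace Vale.Agent.P262S.SchedB

open scoped Classical

variable {d : ℕ}

/-- The high set for shift `S` and jump `j`. -/
noncomputable def Hs (q0 : Fin d → ℝ) (S j : ℕ) : Finset (Fin d) :=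
  univ.filter fun i => (2:ℝ)^j * (j:ℝ)^2 ≤ q0 i / 2^S

/-- Condition (C1). -/
def C1 (q0 : Fin d → ℝ) (S j : ℕ) : Prop :=
  ∑ i ∈ Hs q0 S j, (2:ℝ)^j / (q0 i / 2^S) ≤ 1

lemma exists_C1 (q0 : Fin d → ℝ) (S n : ℕ) : ∃ j, n ≤ j ∧ C1 q0 S j := by
  obtain ⟨k, hk⟩ := exists_nat_gt (∑ i, |q0 i| + 1)
  refine ⟨max (max n k) 1, le_trans (le_max_left _ _) (le_max_left _ _), ?_⟩
  set j := max (max n k) 1 with hj
  have hj1 : 1 ≤ j := le_max_right _ _
  have hkj : k ≤ j := le_trans (le_max_right _ _) (le_max_left _ _)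
  have hempty : Hs q0 S j = ∅ := by
    apply Finset.filter_eq_empty_iff.mpr
    intro i _ hi
    have h2S : (1:ℝ) ≤ 2^S := one_le_pow₀ (by norm_num)
    have hq : q0 i / 2^S ≤ |q0 i| := by
      have : q0 i / 2^S ≤ |q0 i| / 2^S := by
        apply div_le_div_of_nonneg_right (le_abs_self _) (by positivity)
      exact this.trans (div_le_self (abs_nonneg _) h2S)
    have hsum : |q0 i| ≤ ∑ i, |q0 i| :=
      Finset.single_le_sum (f := fun i => |q0 i|) (fun _ _ => abs_nonneg _) (mem_univ i)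
    have h2j : (k:ℝ) < (2:ℝ)^j := by
      have h1 : (j:ℝ) < 2^j := by exact_mod_cast Nat.lt_two_pow_self
      have h2 : (k:ℝ) ≤ j := by exact_mod_cast hkj
      linarith
    have hj2 : (1:ℝ) ≤ (j:ℝ)^2 := by
      have : (1:ℝ) ≤ j := by exact_mod_cast hj1
      nlinarith
    have h2jp : (0:ℝ) < (2:ℝ)^j := by positivity
    have : (2:ℝ)^j ≤ (2:ℝ)^j * (j:ℝ)^2 := by nlinarith
    linarith
  unfold C1
  rw [hempty]
  simp

/-- State of the recursion. -/
structure St (d : ℕ) where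
  S : ℕ
  jp : ℕ
  cp : ℕ
  Hp : Finset (Fin d)

/-- The lower bound `jf`. -/
def jfOf (s : St d) : ℕ := max 32 (Nat.clog 2 (s.jp^4 * (s.cp + 1)))

/-- The next jump. -/
noncomputable def nj (q0 : Fin d → ℝ) (s : St d) : ℕ :=
  Nat.find (exists_C1 q0 s.S (jfOf s))

/-- The step of the recursion. -/
noncomputable def stepSt (q0 : Fin d → ℝ) (s : St d) : St d :=
  ⟨s.S + nj q0 s, nj q0 s, (s.Hp \ Hs q0 s.S (nj q0 s)).card, Hs q0 s.S (nj q0 s)⟩

/-- The states. -/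
noncomputable def st (q0 : Fin d → ℝ) : ℕ → St d
  | 0 => ⟨0, 0, 0, univ⟩
  | m + 1 => stepSt q0 (st q0 m)

/-- The jump at level `m`. -/
noncomputable def jm (q0 : Fin d → ℝ) (m : ℕ) : ℕ := nj q0 (st q0 m)

/-- The high set at level `m`. -/
noncomputable def H (q0 : Fin d → ℝ) (m : ℕ) : Finset (Fin d) := Hs q0 (st q0 m).S (jm q0 m)

/-- The class at level `m`. -/
noncomputable def C (q0 : Fin d → ℝ) (m : ℕ) : Finset (Fin d) := (st q0 m).Hp \ H q0 m

/-- The scale at level `m`. -/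
noncomputable def q (q0 : Fin d → ℝ) (m : ℕ) (i : Fin d) : ℝ := q0 i / 2^(st q0 m).S

variable (q0 : Fin d → ℝ)

lemma S_succ (m : ℕ) : (st q0 (m+1)).S = (st q0 m).S + jm q0 m := rfl
lemma jp_succ (m : ℕ) : (st q0 (m+1)).jp = jm q0 m := rfl
lemma cp_succ (m : ℕ) : (st q0 (m+1)).cp = (C q0 m).card := rfl
lemma Hp_succ (m : ℕ) : (st q0 (m+1)).Hp = H q0 m := rfl

lemma q_succ (m : ℕ) (i : Fin d) : q q0 (m+1) i = q q0 m i / 2^(jm q0 m) := by
  unfold q
  rw [S_succ, pow_add, div_div]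

lemma mem_H {m : ℕ} {i : Fin d} :
    i ∈ H q0 m ↔ (2:ℝ)^(jm q0 m) * ((jm q0 m : ℕ):ℝ)^2 ≤ q q0 m i := by
  simp [H, Hs, q]

lemma jm_spec (m : ℕ) : jfOf (st q0 m) ≤ jm q0 m ∧ C1 q0 (st q0 m).S (jm q0 m) :=
  Nat.find_spec (exists_C1 q0 (st q0 m).S (jfOf (st q0 m)))

lemma jm_ge (m : ℕ) : 32 ≤ jm q0 m := le_trans (le_max_left _ _) (jm_spec q0 m).1

lemma jm_pos (m : ℕ) : 1 ≤ jm q0 m := le_trans (by norm_num) (jm_ge q0 m)

/-- `2^(j_{m+1}) ≥ j_m^4 (|C_m|+1)`. -/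
lemma pow_jm_succ (m : ℕ) :
    (jm q0 m)^4 * ((C q0 m).card + 1) ≤ 2^(jm q0 (m+1)) := by
  have h1 : jfOf (st q0 (m+1)) ≤ jm q0 (m+1) := (jm_spec q0 (m+1)).1
  have h2 : Nat.clog 2 ((jm q0 m)^4 * ((C q0 m).card + 1)) ≤ jfOf (st q0 (m+1)) := by
    unfold jfOf
    rw [jp_succ, cp_succ]
    exact le_max_right _ _
  calc (jm q0 m)^4 * ((C q0 m).card + 1)
      ≤ 2^(Nat.clog 2 ((jm q0 m)^4 * ((C q0 m).card + 1))) := Nat.le_pow_clog (by norm_num) _
    _ ≤ 2^(jm q0 (m+1)) := Nat.pow_le_pow_right (by norm_num) (h2.trans h1)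

lemma pow_jm_succ_real (m : ℕ) :
    ((jm q0 m : ℕ):ℝ)^4 * (((C q0 m).card : ℝ) + 1) ≤ (2:ℝ)^(jm q0 (m+1)) := by
  exact_mod_cast pow_jm_succ q0 m

/-- A coordinate outside `H m` has small scale at level `m+1`. -/
lemma q_succ_lt {m : ℕ} {i : Fin d} (hi : i ∉ H q0 m) :
    q q0 (m+1) i < ((jm q0 m : ℕ):ℝ)^2 := by
  rw [mem_H] at hi
  push_neg at hi
  rw [q_succ, div_lt_iff₀ (by positivity)]
  linarith [mul_comm ((2:ℝ)^(jm q0 m)) (((jm q0 m : ℕ):ℝ)^2)]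

/-- And very small scale at level `m+2`. -/
lemma q_succ_succ_le {m : ℕ} {i : Fin d} (hi : i ∉ H q0 m) (hq : 0 ≤ q q0 (m+1) i) :
    q q0 (m+2) i ≤ 1 / (((jm q0 m : ℕ):ℝ)^2 * (((C q0 m).card : ℝ) + 1)) := by
  have hj : (0:ℝ) < ((jm q0 m : ℕ):ℝ) := by exact_mod_cast jm_pos q0 m
  have hc : (0:ℝ) < ((C q0 m).card : ℝ) + 1 := by positivity
  have h1 := q_succ_lt q0 hi
  have h2 := pow_jm_succ_real q0 m
  rw [show m + 2 = (m+1) + 1 from rfl, q_succ, div_le_div_iff₀ (by positivity) (by positivity)]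
  have h3 : q q0 (m+1) i * (((jm q0 m : ℕ):ℝ)^2 * (((C q0 m).card : ℝ) + 1))
      ≤ ((jm q0 m : ℕ):ℝ)^2 * (((jm q0 m : ℕ):ℝ)^2 * (((C q0 m).card : ℝ) + 1)) := by
    apply mul_le_mul_of_nonneg_right h1.le (by positivity)
  nlinarith

/-- `H (m+1) ⊆ H m`. -/
lemma H_succ_subset (m : ℕ) : H q0 (m+1) ⊆ H q0 m := by
  intro i hi
  by_contra hn
  have h1 := q_succ_lt q0 hn
  rw [mem_H] at hi
  have hj : (1:ℝ) ≤ ((jm q0 m : ℕ):ℝ) := by exact_mod_cast jm_pos q0 m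
  have hj' : (1:ℝ) ≤ ((jm q0 (m+1) : ℕ):ℝ) := by exact_mod_cast jm_pos q0 (m+1)
  have h2 := pow_jm_succ_real q0 m
  have hc : (1:ℝ) ≤ ((C q0 m).card : ℝ) + 1 := by
    have : (0:ℝ) ≤ ((C q0 m).card : ℝ) := Nat.cast_nonneg _
    linarith
  have h4 : ((jm q0 m : ℕ):ℝ)^2 ≤ ((jm q0 m : ℕ):ℝ)^4 := pow_le_pow_right₀ hj (by norm_num)
  have h5 : ((jm q0 m : ℕ):ℝ)^4 ≤ ((jm q0 m : ℕ):ℝ)^4 * (((C q0 m).card : ℝ) + 1) :=
    le_mul_of_one_le_right (by positivity) hc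
  have h6 : (2:ℝ)^(jm q0 (m+1)) ≤ (2:ℝ)^(jm q0 (m+1)) * ((jm q0 (m+1) : ℕ):ℝ)^2 :=
    le_mul_of_one_le_right (by positivity) (one_le_pow₀ hj')
  linarith

lemma H_antitone {m n : ℕ} (h : m ≤ n) : H q0 n ⊆ H q0 m := by
  induction n, h using Nat.le_induction with
  | base => exact subset_rfl
  | succ n _ ih => exact (H_succ_subset q0 n).trans ih

/-- Positivity of the scale on `H m`. -/
lemma q_pos_of_mem {m : ℕ} {i : Fin d} (hi : i ∈ H q0 m) : 0 < q q0 m i := by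
  rw [mem_H] at hi
  have hj : (0:ℝ) < ((jm q0 m : ℕ):ℝ) := by exact_mod_cast jm_pos q0 m
  have : (0:ℝ) < (2:ℝ)^(jm q0 m) * ((jm q0 m : ℕ):ℝ)^2 := by positivity
  linarith

/-- The form of (C1) at level `m`. -/
lemma c1_sum (m : ℕ) : ∑ i ∈ H q0 m, (2:ℝ)^(jm q0 m) / q q0 m i ≤ 1 := (jm_spec q0 m).2

/-- `∑_{H m} 1/q_i(m+1) ≤ 1`. -/
lemma c1_sum_succ (m : ℕ) : ∑ i ∈ H q0 m, 1 / q q0 (m+1) i ≤ 1 := by
  refine le_trans (le_of_eq ?_) (c1_sum q0 m)
  apply Finset.sum_congr rfl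
  intro i _
  rw [q_succ, one_div_div]

/-- `∑_{H m} 1/q_i(m) ≤ 2^{-j_m}`. -/
lemma c1_sum_self (m : ℕ) : ∑ i ∈ H q0 m, 1 / q q0 m i ≤ 1 / (2:ℝ)^(jm q0 m) := by
  have h := c1_sum q0 m
  have h2 : (0:ℝ) < (2:ℝ)^(jm q0 m) := by positivity
  rw [le_div_iff₀ h2, Finset.sum_mul]
  refine le_trans (le_of_eq ?_) h
  apply Finset.sum_congr rfl
  intro i _
  ring

/-- The lower bound `b_m`. -/
noncomputable def b (m : ℕ) : ℝ := (2:ℝ)^(jm q0 m) * ((jm q0 m : ℕ):ℝ)^2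

lemma le_q_of_mem {m : ℕ} {i : Fin d} (hi : i ∈ H q0 m) : b q0 m ≤ q q0 m i := (mem_H q0).1 hi

lemma b_ge (m : ℕ) : (2:ℝ)^32 * 1024 ≤ b q0 m := by
  unfold b
  have h1 : (32:ℝ) ≤ ((jm q0 m : ℕ):ℝ) := by exact_mod_cast jm_ge q0 m
  have h2 : (2:ℝ)^32 ≤ (2:ℝ)^(jm q0 m) := pow_le_pow_right₀ (by norm_num) (jm_ge q0 m)
  have h3 : (1024:ℝ) ≤ ((jm q0 m : ℕ):ℝ)^2 := by nlinarith
  exact mul_le_mul h2 h3 (by norm_num) (by positivity)

lemma b_succ_ge (m : ℕ) :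
    ((jm q0 m : ℕ):ℝ)^4 * (((C q0 m).card : ℝ) + 1) * 1024 ≤ b q0 (m+1) := by
  unfold b
  have h1 : (32:ℝ) ≤ ((jm q0 (m+1) : ℕ):ℝ) := by exact_mod_cast jm_ge q0 (m+1)
  have h3 : (1024:ℝ) ≤ ((jm q0 (m+1) : ℕ):ℝ)^2 := by nlinarith
  exact mul_le_mul (pow_jm_succ_real q0 m) h3 (by norm_num) (by positivity)

/-! ### Cardinalities -/

lemma H_subset_Hp (m : ℕ) : H q0 m ⊆ (st q0 m).Hp := by
  cases m with
  | zero => exact subset_univ _
  | succ m => exact H_succ_subset q0 m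

lemma card_C_add (m : ℕ) : (C q0 m).card + (H q0 m).card = ((st q0 m).Hp).card := by
  unfold C
  exact Finset.card_sdiff_add_card_eq_card (H_subset_Hp q0 m)

/-- The classes have total size at most `d`. -/
lemma sum_card_C (M : ℕ) : ∑ m ∈ range M, (C q0 m).card ≤ d := by
  have key : ∀ M, ∑ m ∈ range M, (C q0 m).card + ((st q0 M).Hp).card = d := by
    intro M
    induction M with
    | zero => simp [st]
    | succ M ih =>
      rw [Finset.sum_range_succ, Hp_succ]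
      have := card_C_add q0 M
      omega
  have := key M
  omega

/-! ### The bound on `P(m) = j_m - 32` -/

/-- `P(m)`. -/
noncomputable def Pm (m : ℕ) : ℕ := jm q0 m - 32

/-- The pure arithmetic fact behind the halving. -/
lemma pow4_le (P : ℕ) : (32 + P)^4 ≤ 2^(32 + P/2) := by
  induction P using Nat.strong_induction_on with
  | _ P ih =>
    match P, ih with
    | 0, _ => norm_num
    | 1, _ => norm_num
    | (P+2), ih =>
      have h := ih P (by omega)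
      have h2 : (P+2)/2 = P/2 + 1 := by omega
      rw [h2]
      have h3 : (32 + (P+2))^4 ≤ 2 * (32 + P)^4 := by
        have : 32 ≤ 32 + P := by omega
        set x := 32 + P with hx
        have hx' : 32 + (P+2) = x + 2 := by omega
        rw [hx']
        nlinarith [pow_pos (show 0 < x by omega) 2, pow_pos (show 0 < x by omega) 3,
          mul_le_mul this this (by omega) (by omega),
          pow_le_pow_left₀ (by omega : 0 ≤ 32) this 3, pow_le_pow_left₀ (by omega : 0 ≤ 32) this 2]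
      calc (32 + (P+2))^4 ≤ 2 * (32 + P)^4 := h3
        _ ≤ 2 * 2^(32 + P/2) := by omega
        _ = 2^(32 + (P/2 + 1)) := by ring

lemma two_pow_ge_succ (c : ℕ) : c + 1 ≤ 2^c := Nat.lt_two_pow_self

/-- `jf` at level `m+1` is at most `32 + P(m)/2 + |C m|`. -/
lemma jf_succ_le (m : ℕ) :
    jfOf (st q0 (m+1)) ≤ 32 + Pm q0 m / 2 + (C q0 m).card := by
  unfold jfOf
  rw [jp_succ, cp_succ]
  apply max_le (by omega)
  apply Nat.clog_le_of_le_pow
  have h1 : jm q0 m = 32 + Pm q0 m := by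
    have := jm_ge q0 m
    unfold Pm
    omega
  calc (jm q0 m)^4 * ((C q0 m).card + 1)
      ≤ 2^(32 + Pm q0 m / 2) * 2^((C q0 m).card) := by
        apply Nat.mul_le_mul _ (two_pow_ge_succ _)
        rw [h1]
        have := pow4_le (Pm q0 m)
        simpa using this
    _ = 2^(32 + Pm q0 m / 2 + (C q0 m).card) := by ring

/-- If the jump is larger than forced then the class is large. -/
lemma large_class {m : ℕ} (h : jfOf (st q0 m) < jm q0 m) :
    (jm q0 m - 1)^2 ≤ 2 * (C q0 m).card := by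
  set j := jm q0 m with hj
  set S := (st q0 m).S with hS
  have hj32 : 32 ≤ j := jm_ge q0 m
  have hmin : ¬ (jfOf (st q0 m) ≤ j - 1 ∧ C1 q0 S (j - 1)) :=
    Nat.find_min (exists_C1 q0 (st q0 m).S (jfOf (st q0 m)))
      (m := j - 1) (by
        have : j = Nat.find (exists_C1 q0 (st q0 m).S (jfOf (st q0 m))) := rfl
        omega)
  have hnot : ¬ C1 q0 S (j - 1) := fun hc => hmin ⟨by omega, hc⟩
  unfold C1 at hnot
  push_neg at hnot
  have hjj : j = (j - 1) + 1 := by omega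
  set j' := j - 1 with hj'
  have hj'1 : (31:ℝ) ≤ (j':ℝ) := by
    have : 31 ≤ j' := by omega
    exact_mod_cast this
  -- split
  have hsub : Hs q0 S j ⊆ Hs q0 S j' := by
    intro i hi
    simp only [Hs, mem_filter, mem_univ, true_and] at hi ⊢
    refine le_trans ?_ hi
    have h1 : (2:ℝ)^j' ≤ (2:ℝ)^j := pow_le_pow_right₀ (by norm_num) (by omega)
    have h2 : ((j':ℕ):ℝ)^2 ≤ ((j:ℕ):ℝ)^2 := by
      have : ((j':ℕ):ℝ) ≤ ((j:ℕ):ℝ) := by exact_mod_cast (by omega : j' ≤ j)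
      nlinarith
    exact mul_le_mul h1 h2 (by positivity) (by positivity)
  have hC1 : ∑ i ∈ Hs q0 S j, (2:ℝ)^j / (q0 i / 2^S) ≤ 1 := (jm_spec q0 m).2
  have hfirst : ∑ i ∈ Hs q0 S j, (2:ℝ)^j' / (q0 i / 2^S) ≤ 1/2 := by
    have : ∑ i ∈ Hs q0 S j, (2:ℝ)^j' / (q0 i / 2^S)
        = (1/2) * ∑ i ∈ Hs q0 S j, (2:ℝ)^j / (q0 i / 2^S) := by
      rw [Finset.mul_sum]
      apply Finset.sum_congr rfl
      intro i _
      rw [hjj, pow_succ]
      ring
    rw [this]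
    linarith
  have hsplit := Finset.sum_sdiff (f := fun i => (2:ℝ)^j' / (q0 i / 2^S)) hsub
  have hsecond : 1/2 < ∑ i ∈ Hs q0 S j' \ Hs q0 S j, (2:ℝ)^j' / (q0 i / 2^S) := by
    linarith
  have hj'pos : (0:ℝ) < ((j':ℕ):ℝ)^2 := by
    have : (0:ℝ) < ((j':ℕ):ℝ) := by linarith
    positivity
  have hterm : ∀ i ∈ Hs q0 S j' \ Hs q0 S j, (2:ℝ)^j' / (q0 i / 2^S) ≤ 1 / ((j':ℕ):ℝ)^2 := by
    intro i hi
    simp only [Hs, mem_sdiff, mem_filter, mem_univ, true_and] at hi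
    have h1 := hi.1
    have h2pos : (0:ℝ) < (2:ℝ)^j' := by positivity
    have hq : 0 < q0 i / 2^S := lt_of_lt_of_le (by positivity) h1
    rw [div_le_div_iff₀ hq hj'pos]
    linarith
  have hcount : ((Hs q0 S j' \ Hs q0 S j).card : ℝ) * (1 / ((j':ℕ):ℝ)^2) > 1/2 := by
    have := Finset.sum_le_card_nsmul _ _ _ hterm
    rw [nsmul_eq_mul] at this
    linarith
  -- the second set is inside `C m`
  have hsubC : Hs q0 S j' \ Hs q0 S j ⊆ C q0 m := by
    intro i hi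
    simp only [mem_sdiff] at hi
    have hi1 := hi.1
    simp only [Hs, mem_filter, mem_univ, true_and] at hi1
    unfold C
    rw [mem_sdiff]
    refine ⟨?_, hi.2⟩
    cases m with
    | zero => exact mem_univ _
    | succ m =>
      rw [Hp_succ, mem_H]
      -- `q_m i ≥ 2^{j_m} j_m^2`
      have hfj : jfOf (st q0 (m+1)) ≤ j' := by omega
      have hcl : Nat.clog 2 ((jm q0 m)^4 * ((C q0 m).card + 1)) ≤ j' := by
        refine le_trans ?_ hfj
        unfold jfOf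
        rw [jp_succ, cp_succ]
        exact le_max_right _ _
      have hp : (jm q0 m)^4 * ((C q0 m).card + 1) ≤ 2^j' :=
        (Nat.le_pow_clog (by norm_num) _).trans (Nat.pow_le_pow_right (by norm_num) hcl)
      have hp' : ((jm q0 m : ℕ):ℝ)^4 * (((C q0 m).card : ℝ) + 1) ≤ (2:ℝ)^j' := by
        exact_mod_cast hp
      have hj1 : (1:ℝ) ≤ ((jm q0 m : ℕ):ℝ) := by exact_mod_cast jm_pos q0 m
      have hc1 : (1:ℝ) ≤ ((C q0 m).card : ℝ) + 1 := by
        have : (0:ℝ) ≤ ((C q0 m).card : ℝ) := Nat.cast_nonneg _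
        linarith
      have h4 : ((jm q0 m : ℕ):ℝ)^2 ≤ ((jm q0 m : ℕ):ℝ)^4 := pow_le_pow_right₀ hj1 (by norm_num)
      have h5 : ((jm q0 m : ℕ):ℝ)^4 ≤ ((jm q0 m : ℕ):ℝ)^4 * (((C q0 m).card : ℝ) + 1) :=
        le_mul_of_one_le_right (by positivity) hc1
      have h6 : (1:ℝ) ≤ ((j':ℕ):ℝ)^2 := by nlinarith
      have h2p : (0:ℝ) < (2:ℝ)^j' := by positivity
      have h7 : ((jm q0 m : ℕ):ℝ)^2 ≤ q q0 (m+1) i := by
        have : (2:ℝ)^j' ≤ q q0 (m+1) i := by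
          have : (2:ℝ)^j' * ((j':ℕ):ℝ)^2 ≤ q0 i / 2^S := hi1
          have h8 : (2:ℝ)^j' ≤ (2:ℝ)^j' * ((j':ℕ):ℝ)^2 := by nlinarith
          exact h8.trans this
        linarith
      rw [q_succ, le_div_iff₀ (by positivity)] at h7
      linarith
  have hcard : ((Hs q0 S j' \ Hs q0 S j).card : ℝ) ≤ ((C q0 m).card : ℝ) := by
    exact_mod_cast Finset.card_le_card hsubC
  have hfin : ((j':ℕ):ℝ)^2 ≤ 2 * ((C q0 m).card : ℝ) := by
    have h9 : ((Hs q0 S j' \ Hs q0 S j).card : ℝ) / ((j':ℕ):ℝ)^2 > 1/2 := by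
      have := hcount
      rw [mul_one_div] at this
      exact this
    rw [gt_iff_lt, lt_div_iff₀ hj'pos] at h9
    linarith
  exact_mod_cast hfin

/-- Arithmetic: a large class bounds the jump. -/
lemma arith_large {j c : ℕ} (h32 : 32 ≤ j) (h : (j - 1)^2 ≤ 2 * c) : j - 32 ≤ 2 * c := by
  obtain ⟨k, rfl⟩ : ∃ k, j = k + 1 := ⟨j - 1, by omega⟩
  have h1 : k + 1 - 1 = k := by omega
  rw [h1] at h
  have h2 : k ≤ k^2 := Nat.le_self_pow (by norm_num) k
  omega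

/-- The recursive bound on `P(0)`. -/
lemma Pm_zero_le : Pm q0 0 ≤ 2 * (C q0 0).card := by
  unfold Pm
  by_cases h : jfOf (st q0 0) < jm q0 0
  · exact arith_large (jm_ge q0 0) (large_class q0 h)
  · have : jm q0 0 = jfOf (st q0 0) := le_antisymm (not_lt.mp h) (jm_spec q0 0).1
    have h2 : jfOf (st q0 0) = 32 := by
      show max 32 (Nat.clog 2 (0^4 * (0 + 1))) = 32
      norm_num
    omega

/-- The recursive bound on `P(m+1)`. -/
lemma Pm_succ_le (m : ℕ) :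
    Pm q0 (m+1) ≤ Pm q0 m / 2 + (C q0 m).card + 2 * (C q0 (m+1)).card := by
  by_cases h : jfOf (st q0 (m+1)) < jm q0 (m+1)
  · have := arith_large (jm_ge q0 (m+1)) (large_class q0 h)
    unfold Pm at *
    omega
  · have h0 : jm q0 (m+1) = jfOf (st q0 (m+1)) := le_antisymm (not_lt.mp h) (jm_spec q0 (m+1)).1
    have h1 := jf_succ_le q0 m
    unfold Pm at *
    omega

/-- `∑ P(m) ≤ 6 d`. -/
lemma sum_Pm_le (M : ℕ) : ∑ m ∈ range M, Pm q0 m ≤ 6 * d := by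
  have key : ∀ M, 2 * ∑ m ∈ range (M+1), Pm q0 m ≤ ∑ m ∈ range M, Pm q0 m
      + 4 * ∑ m ∈ range (M+1), (C q0 m).card + 2 * ∑ m ∈ range M, (C q0 m).card := by
    intro M
    induction M with
    | zero =>
      have := Pm_zero_le q0
      simp only [Finset.sum_range_succ, Finset.sum_range_zero]
      omega
    | succ M ih =>
      have h1 := Pm_succ_le q0 M
      have e1 : ∑ m ∈ range (M+1+1), Pm q0 m = ∑ m ∈ range (M+1), Pm q0 m + Pm q0 (M+1) :=
        Finset.sum_range_succ _ _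
      have e2 : ∑ m ∈ range (M+1), Pm q0 m = ∑ m ∈ range M, Pm q0 m + Pm q0 M :=
        Finset.sum_range_succ _ _
      have e3 : ∑ m ∈ range (M+1+1), (C q0 m).card = ∑ m ∈ range (M+1), (C q0 m).card + (C q0 (M+1)).card :=
        Finset.sum_range_succ _ _
      have e4 : ∑ m ∈ range (M+1), (C q0 m).card = ∑ m ∈ range M, (C q0 m).card + (C q0 M).card :=
        Finset.sum_range_succ _ _
      omega
  cases M with
  | zero => simp
  | succ M =>
    have h1 := key M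
    have h2 := sum_card_C q0 (M+1)
    have h3 := sum_card_C q0 M
    have e2 : ∑ m ∈ range (M+1), Pm q0 m = ∑ m ∈ range M, Pm q0 m + Pm q0 M :=
      Finset.sum_range_succ _ _
    omega

/-! ### The exit level -/

lemma S_ge (m : ℕ) : m ≤ (st q0 m).S := by
  induction m with
  | zero => exact Nat.zero_le _
  | succ m ih =>
    rw [S_succ]
    have := jm_pos q0 m
    omega

lemma exists_not_mem (i : Fin d) : ∃ m, i ∉ H q0 m := by
  obtain ⟨m, hm⟩ := pow_unbounded_of_one_lt (q0 i) (by norm_num : (1:ℝ) < 2)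
  refine ⟨m, fun hi => ?_⟩
  have h1 := le_q_of_mem q0 hi
  have h2 := b_ge q0 m
  have h3 : q q0 m i < 1 := by
    unfold q
    have h4 : (2:ℝ)^m ≤ (2:ℝ)^(st q0 m).S := pow_le_pow_right₀ (by norm_num) (S_ge q0 m)
    rw [div_lt_one (by positivity)]
    linarith
  have h5 : (1:ℝ) ≤ (2:ℝ)^32 * 1024 := by norm_num
  linarith

/-- The exit level. -/
noncomputable def e (i : Fin d) : ℕ := Nat.find (exists_not_mem q0 i)

lemma mem_H_iff (i : Fin d) (m : ℕ) : i ∈ H q0 m ↔ m < e q0 i := by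
  constructor
  · intro hi
    by_contra hn
    push_neg at hn
    exact (Nat.find_spec (exists_not_mem q0 i)) (H_antitone q0 hn hi)
  · intro hm
    by_contra hn
    exact Nat.find_min (exists_not_mem q0 i) hm hn

lemma mem_C_iff (i : Fin d) (m : ℕ) : i ∈ C q0 m ↔ e q0 i = m := by
  unfold C
  rw [mem_sdiff, mem_H_iff]
  cases m with
  | zero =>
    constructor
    · rintro ⟨_, h⟩; omega
    · intro h; exact ⟨mem_univ _, by omega⟩
  | succ m =>
    rw [Hp_succ, mem_H_iff]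
    omega

lemma sum_j_le (M : ℕ) : ∑ m ∈ range M, (((jm q0 m : ℕ):ℝ) - 32) ≤ 6 * d := by
  have h := sum_Pm_le q0 M
  have h2 : ∑ m ∈ range M, (((jm q0 m : ℕ):ℝ) - 32) = ((∑ m ∈ range M, Pm q0 m : ℕ):ℝ) := by
    rw [Nat.cast_sum]
    apply Finset.sum_congr rfl
    intro m _
    unfold Pm
    rw [Nat.cast_sub (jm_ge q0 m)]
    norm_num
  rw [h2]
  exact_mod_cast h

end Vale.Agent.P262S.SchedB
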