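import Vale.Agent.P262S.Defs
import Vale.Agent.P262S.Schedule

/-! # Existence of the schedule (module SchedEx), notes/P262_sqrtd.md section 1. -/

open Finset

namespace Vale.Agent.P262S

/-- Every spectrum has a schedule. `j m = min {j ≥ jf m | (C1) at j}`,
`jf m = max 32 (clog 2 ((j (m-1))^4 (card (C (m-1)) + 1)))`.
For `hsum`: `P m = j m - 32` satisfies `P m ≤ P (m-1) / 2 + card (C (m-1)) + 3 card (C m)`:
if `j m > jf m` then (C1) fails at `j m - 1`; the terms with `q ≥ 2^j j^2` contribute `≤ 1/2`; the others are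
`≤ 1/(j-1)^2`, so `card (C m) ≥ (j m - 1)^2 / 2`. -/
theorem exists_sched {d : ℕ} (lam : Fin d → ℝ) (hlam : ∀ i, 0 ≤ lam i) :
    ∃ S : Sched d, ∀ i, S.q i 0 ^ 4 = lam i := by
  classical
  set q0 : Fin d → ℝ := fun i => √(√(lam i)) with hq0def
  have hq0 : ∀ i, 0 ≤ q0 i := fun i => Real.sqrt_nonneg _
  have hfilt : ∀ m, (univ.filter fun i => SchedB.e q0 i = m) = SchedB.C q0 m := by
    intro m
    ext i
    simp [SchedB.mem_C_iff]
  have hfiltH : ∀ m, (univ.filter fun i => m < SchedB.e q0 i) = SchedB.H q0 m := by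
    intro m
    ext i
    simp [SchedB.mem_H_iff]
  refine ⟨{ j := SchedB.jm q0
            q := fun i m => SchedB.q q0 m i
            e := SchedB.e q0
            hj := SchedB.jm_ge q0
            hq0 := ?_
            hqs := fun i m => SchedB.q_succ q0 m i
            he := ?_
            hC1 := ?_
            hforced := ?_
            hsum := ?_ }, ?_⟩
  · intro i m
    exact div_nonneg (hq0 i) (by positivity)
  · intro i m
    rw [← SchedB.mem_H_iff, SchedB.mem_H]
  · intro m
    rw [hfiltH]
    exact SchedB.c1_sum q0 m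
  · intro m
    rw [hfilt]
    exact SchedB.pow_jm_succ_real q0 m
  · intro M
    refine (SchedB.sum_j_le q0 M).trans ?_
    have : (0:ℝ) ≤ d := Nat.cast_nonneg _
    linarith
  · intro i
    show (q0 i / 2 ^ 0) ^ 4 = lam i
    have h1 : (√(lam i))^2 = lam i := Real.sq_sqrt (hlam i)
    have h2 : (√(√(lam i)))^2 = √(lam i) := Real.sq_sqrt (Real.sqrt_nonneg _)
    simp only [pow_zero, div_one, hq0def]
    calc (√(√(lam i)))^4 = ((√(√(lam i)))^2)^2 := by ring
      _ = lam i := by rw [h2, h1]

end Vale.Agent.P262S
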