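import Vale.Agent.P262S.LevelStep
import Vale.Agent.P262S.Budget
import Vale.Agent.P262S.SchedEx
import Vale.Agent.P262H.Spectral

/-! # The final bound (root, iteration, order, eigenbasis). -/

open Finset

namespace Vale.Agent.P262S

section Root

variable {d : ℕ} {V : Type} [Fintype V] {α : V → Fin d → ℝ}

lemma cut_root (h0 : ∀ i, ∑ v, α v i = 0) {t : ℕ} (ht : t ≤ 1) :
    cut α (fun _ : V => 0) t = fun _ => 0 := by
  funext i
  unfold cut
  interval_cases t
  · simp
  · simp [h0 i]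

lemma blk_root : blk (fun _ : V => 0) 0 = univ := by
  unfold blk
  simp

lemma Tf_zero (S : Sched d) (m : ℕ) : S.Tf m (fun _ => 0) = 0 := by
  unfold Sched.Tf
  simp

lemma Sv_root (S : Sched d) : S.Sv α 0 (univ : Finset V) = ∅ := by
  classical
  unfold Sched.Sv
  refine Finset.filter_eq_empty_iff.2 fun v _ => ?_
  unfold Sched.Hv
  rw [S.uu_zero α v]
  norm_num

lemma Lv_root (S : Sched d) : S.Lv α 0 (univ : Finset V) = univ := by
  classical
  unfold Sched.Lv
  refine Finset.filter_true_of_mem fun v _ => ?_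
  unfold Sched.Hv
  rw [S.uu_zero α v]
  norm_num

end Root

/-- Root: one block, at level `0`. `Sched` with `q i 0 ^ 4 = lam i`, moment matrix `diag lam`. -/
theorem root {d : ℕ} (S : Sched d) {V : Type} [Fintype V] [DecidableEq V] {α : V → Fin d → ℝ}
    (h0 : ∀ i, ∑ v, α v i = 0)
    (hM : ∀ k l, MB α univ k l = if k = l then S.q k 0 ^ 4 else 0) :
    S.LevelInv α 0 1 (fun _ => 0) := by
  classical
  have hsm0 : ∀ i, sm α (univ : Finset V) i = 0 := fun i => h0 i
  have hErr : S.Err α 0 (univ : Finset V) = fun _ _ => 0 := by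
    funext k l
    unfold Sched.Err
    rw [hM k l]
    ring
  have hJ : ∀ (x : Fin d → ℝ), (x = fun _ => 0) → ∀ G ⊆ S.Sv α 0 (univ : Finset V),
      S.Qf 1 (S.W 1) (fun i => x i + sm α G i) ≤ S.Bud 0 := by
    intro x hx G hG
    rw [Sv_root S, Finset.subset_empty] at hG
    subst hG
    subst hx
    have : S.Bud 0 = 0 := rfl
    rw [this]
    unfold Sched.Qf sm
    simp
  have hJ' : ∀ (x : Fin d → ℝ), (x = fun _ => 0) → ∀ G ⊆ S.Sv α 0 (univ : Finset V),
      S.Qf 1 (S.W 1) (fun i => x i - sm α G i) ≤ S.Bud 0 := by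
    intro x hx G hG
    rw [Sv_root S, Finset.subset_empty] at hG
    subst hG
    subst hx
    have : S.Bud 0 = 0 := rfl
    rw [this]
    unfold Sched.Qf sm
    simp
  refine ⟨fun _ => by norm_num, ?_, ?_, ?_, ?_, ?_⟩
  · intro t ht
    rw [cut_root h0 ht, Tf_zero, Tf_zero]
    norm_num
  · intro t ht
    have ht0 : t = 0 := by omega
    subst ht0
    rw [blk_root]
    refine ⟨?_, ?_, ?_, ?_, ?_, ?_⟩
    · rw [hErr]
      unfold Sched.Xf
      simp
    · unfold Sched.Xp
      have : ∑ k ∈ S.H 0, ∑ c ∈ S.C 0, MB α (univ : Finset V) k c ^ 2 / S.q k 0 ^ 6 = 0 := by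
        refine Finset.sum_eq_zero fun k hk => Finset.sum_eq_zero fun c hc => ?_
        have hkc : k ≠ c := by
          rintro rfl
          have h1 := S.mem_H.1 hk
          have h2 := S.mem_C.1 hc
          omega
        rw [hM k c, if_neg hkc]
        simp
      rw [this]
      positivity
    · rw [Sv_root S]
      simp [Sched.Nb]
    · rw [Lv_root S]
      have : S.Nb 0 = 0 := rfl
      rw [this]
      refine le_of_eq (Finset.sum_eq_zero fun v _ => S.uu_zero α v)
    · have h1 : ∑ v, Row α (S.C 0) v = ∑ i ∈ S.C 0, S.q i 0 ^ 4 := by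
        unfold Row
        rw [Finset.sum_comm]
        refine Finset.sum_congr rfl fun i _ => ?_
        have := hM i i
        rw [if_pos rfl] at this
        rw [← this]
        unfold MB
        refine Finset.sum_congr rfl fun v _ => ?_
        ring
      rw [h1]
      have h2 : S.Mb1 0 = 3 * ∑ i ∈ S.C 0, S.q i 0 ^ 4 := rfl
      rw [h2]
      have h3 : 0 ≤ ∑ i ∈ S.C 0, S.q i 0 ^ 4 := Finset.sum_nonneg fun i _ => by positivity
      linarith
    · intro c hc
      omega
  · intro t ht _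
    have ht0 : t = 0 := by omega
    subst ht0
    rw [blk_root, Lv_root S]
    have h1 : S.LFb 0 = 0 := rfl
    rw [h1]
    unfold Sched.LFf
    simp [hsm0]
  · intro t ht
    have ht0 : t = 0 := by omega
    subst ht0
    rw [blk_root]
    exact hJ _ (cut_root h0 (by norm_num))
  · intro t ht
    have ht0 : t = 0 := by omega
    subst ht0
    rw [blk_root]
    exact hJ' _ (cut_root h0 (by norm_num))

section Iter

variable {d : ℕ} (S : Sched d) {V : Type} [Fintype V] [DecidableEq V] {α : V → Fin d → ℝ}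

/-- Iteration up to any level. -/
lemma exists_level (hα : ∀ v, ∑ i, α v i ^ 2 ≤ 1) (h0 : ∀ i, ∑ v, α v i = 0)
    (hM : ∀ k l, MB α univ k l = if k = l then S.q k 0 ^ 4 else 0) (m : ℕ) :
    ∃ (F : ℕ) (pos : V → ℕ), S.LevelInv α m F pos := by
  induction m with
  | zero => exact ⟨1, _, root S h0 hM⟩
  | succ m ih =>
    obtain ⟨F, pos, h⟩ := ih
    obtain ⟨F', pos', h', -⟩ := level_step S hα h0 h
    exact ⟨F', pos', h'⟩

/-- Past the last exit level the blocks shrink. -/
lemma exists_level_small (hα : ∀ v, ∑ i, α v i ^ 2 ≤ 1) (h0 : ∀ i, ∑ v, α v i = 0)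
    (hM : ∀ k l, MB α univ k l = if k = l then S.q k 0 ^ 4 else 0) {M : ℕ} (hE : ∀ i, S.e i < M)
    (r : ℕ) :
    ∃ (F : ℕ) (pos : V → ℕ), S.LevelInv α (M + r) F pos ∧
      ∀ t, ((blk pos t).card : ℝ) ≤ (Fintype.card V : ℝ) / 16 ^ r + 16 / 15 := by
  induction r with
  | zero =>
    obtain ⟨F, pos, h⟩ := exists_level S hα h0 hM M
    refine ⟨F, pos, h, fun t => ?_⟩
    have h1 : (blk pos t).card ≤ Fintype.card V := Finset.card_le_univ _
    have h2 : ((blk pos t).card : ℝ) ≤ (Fintype.card V : ℝ) := by exact_mod_cast h1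
    norm_num
    linarith
  | succ r ih =>
    obtain ⟨F, pos, h, hs⟩ := ih
    obtain ⟨F', pos', h', h2⟩ := level_step S hα h0 h
    refine ⟨F', pos', h', fun t => ?_⟩
    have hH : S.H (M + r + 1) = ∅ := by
      unfold Sched.H
      refine Finset.filter_eq_empty_iff.2 fun i _ => ?_
      have := hE i
      omega
    refine (h2 hH _ hs t).trans (le_of_eq ?_)
    rw [pow_succ]
    field_simp
    ring

/-- All blocks have at most one element at some level. -/
lemma exists_level_inj (hα : ∀ v, ∑ i, α v i ^ 2 ≤ 1) (h0 : ∀ i, ∑ v, α v i = 0)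
    (hM : ∀ k l, MB α univ k l = if k = l then S.q k 0 ^ 4 else 0) {M : ℕ} (hE : ∀ i, S.e i < M) :
    ∃ (u F : ℕ) (pos : V → ℕ), M ≤ u ∧ S.LevelInv α u F pos ∧ Function.Injective pos := by
  obtain ⟨F, pos, h, hs⟩ := exists_level_small S hα h0 hM hE (Fintype.card V + 1)
  refine ⟨M + (Fintype.card V + 1), F, pos, by omega, h, ?_⟩
  intro v w hvw
  have hc := hs (pos v)
  have h1 : ((Fintype.card V : ℝ)) / 16 ^ (Fintype.card V + 1) ≤ 1 / 2 := by
    have h2 : Fintype.card V < 2 ^ Fintype.card V := Nat.lt_two_pow_self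
    have h3 : ((Fintype.card V : ℝ)) ≤ 2 ^ Fintype.card V := by exact_mod_cast h2.le
    have h4 : (2 : ℝ) ^ Fintype.card V ≤ 16 ^ Fintype.card V :=
      pow_le_pow_left₀ (by norm_num) (by norm_num) _
    rw [div_le_iff₀ (by positivity), pow_succ]
    have h5 : (0 : ℝ) < 16 ^ Fintype.card V := by positivity
    nlinarith
  have h6 : ((blk pos (pos v)).card : ℝ) < 2 := by
    have : (1 / 2 : ℝ) + 16 / 15 < 2 := by norm_num
    linarith
  have h7 : (blk pos (pos v)).card < 2 := by exact_mod_cast h6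
  have h8 : v ∈ blk pos (pos v) := by simp [blk]
  have h9 : w ∈ blk pos (pos v) := by simp [blk, hvw]
  exact Finset.card_le_one.1 (by omega) v h8 w h9

/-- The bound on a cut at a level past all exits. -/
lemma cut_bound (hd : 1 ≤ d) {u F : ℕ} {pos : V → ℕ} (hE : ∀ i, S.e i ≤ u + 1)
    (h : S.LevelInv α u F pos) {t : ℕ} (ht : t < F) :
    √(∑ i, cut α pos t i ^ 2) ≤ 10 ^ 8 * √(d : ℝ) := by
  have h1 := h.hJL t ht ∅ (Finset.empty_subset _)
  have hU : S.U (u + 1) = univ := by
    unfold Sched.U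
    exact Finset.filter_true_of_mem fun i _ => hE i
  unfold Sched.Qf at h1
  rw [hU] at h1
  have h2 : ∑ i, cut α pos t i ^ 2 ≤ 2 * ∑ i, S.W (u + 1) i * (cut α pos t i + sm α ∅ i) ^ 2 := by
    rw [Finset.mul_sum]
    refine Finset.sum_le_sum fun i _ => ?_
    have h3 := S.W_half_le (u + 1) i
    have h4 : sm α ∅ i = 0 := by simp [sm]
    rw [h4, add_zero]
    nlinarith [sq_nonneg (cut α pos t i)]
  have h3 := Bud_le S u
  have hd' : (1 : ℝ) ≤ (d : ℝ) := by exact_mod_cast hd
  rw [Real.sqrt_le_left (by positivity), mul_pow, Real.sq_sqrt (by positivity)]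
  linarith

end Iter

/-- In coordinates. -/
theorem final_coord {d N : ℕ} (hd : 1 ≤ d) (α : Fin N → Fin d → ℝ) (hα : ∀ v, ∑ i, α v i ^ 2 ≤ 1)
    (h0 : ∀ i, ∑ v, α v i = 0) (lam : Fin d → ℝ) (hlam : ∀ i, 0 ≤ lam i)
    (hM : ∀ k l, ∑ v, α v k * α v l = if k = l then lam k else 0) :
    ∃ π : Equiv.Perm (Fin N), ∀ k : ℕ, k ≤ N →
      √(∑ i, (∑ v : Fin N, if v.val < k then α (π v) i else 0) ^ 2) ≤ 10 ^ 8 * √(d : ℝ) := by
  obtain ⟨S, hS⟩ := exists_sched lam hlam
  have hM' : ∀ k l, MB α univ k l = if k = l then S.q k 0 ^ 4 else 0 := by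
    intro k l
    unfold MB
    rw [hM k l, hS k]
  have hE : ∀ i, S.e i < univ.sup S.e + 1 := fun i =>
    Nat.lt_succ_of_le (Finset.le_sup (f := S.e) (Finset.mem_univ i))
  obtain ⟨u, F, pos, hu, hI, hinj⟩ := exists_level_inj S hα h0 hM' hE
  have hEu : ∀ i, S.e i ≤ u + 1 := fun i => by
    have := hE i
    omega
  let π : Equiv.Perm (Fin N) := Tuple.sort pos
  have hmono : Monotone (pos ∘ π) := Tuple.monotone_sort pos
  refine ⟨π, fun k hk => ?_⟩
  rcases eq_or_lt_of_le hk with hkN | hkN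
  · have h1 : ∀ i, ∑ v : Fin N, (if v.val < k then α (π v) i else 0) = 0 := by
      intro i
      have h2 : ∀ v : Fin N, (if v.val < k then α (π v) i else 0) = α (π v) i := by
        intro v
        rw [if_pos (by rw [hkN]; exact v.2)]
      rw [Finset.sum_congr rfl fun v _ => h2 v]
      rw [Equiv.sum_comp π (fun v => α v i)]
      exact h0 i
    have h3 : ∑ i, (∑ v : Fin N, if v.val < k then α (π v) i else 0) ^ 2 = 0 := by
      refine Finset.sum_eq_zero fun i _ => ?_
      rw [h1 i]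
      norm_num
    rw [h3, Real.sqrt_zero]
    positivity
  · let w : Fin N := π ⟨k, hkN⟩
    have hiff : ∀ v : Fin N, v.val < k ↔ pos (π v) < pos w := by
      intro v
      constructor
      · intro hv
        have h1 : pos (π v) ≤ pos w := hmono (show v ≤ ⟨k, hkN⟩ from Fin.le_def.2 (le_of_lt hv))
        refine lt_of_le_of_ne h1 fun h2 => ?_
        have h3 : π v = w := hinj h2
        have h4 : v = ⟨k, hkN⟩ := π.injective h3
        rw [h4] at hv
        exact lt_irrefl _ hv
      · intro hv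
        by_contra h1
        have h2 : (⟨k, hkN⟩ : Fin N) ≤ v := Fin.le_def.2 (not_lt.1 h1)
        have h3 : pos w ≤ pos (π v) := hmono h2
        omega
    have hcut : ∀ i, ∑ v : Fin N, (if v.val < k then α (π v) i else 0) = cut α pos (pos w) i := by
      intro i
      unfold cut
      rw [← Equiv.sum_comp π (fun v => if pos v < pos w then α v i else 0)]
      refine Finset.sum_congr rfl fun v _ => ?_
      by_cases h : v.val < k
      · rw [if_pos h, if_pos ((hiff v).1 h)]
      · rw [if_neg h, if_neg (fun h' => h ((hiff v).2 h'))]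
    have h5 := cut_bound S hd hEu hI (hI.hpos w)
    refine le_trans (le_of_eq ?_) h5
    congr 1
    refine Finset.sum_congr rfl fun i _ => ?_
    rw [hcut i]

/-- **Exact Euclidean Steinitz bound**: `S₂(d) ≤ 10⁸ √d`. -/
theorem steinitz_sqrt (d N : ℕ) (hd : 1 ≤ d) (v : Fin N → EuclideanSpace ℝ (Fin d)) (hv : ∀ i, ‖v i‖ ≤ 1)
    (h0 : ∑ i, v i = 0) :
    ∃ π : Equiv.Perm (Fin N), ∀ k : ℕ, k ≤ N →
      ‖∑ i : Fin N, if i.val < k then v (π i) else 0‖ ≤ 10 ^ 8 * √(d : ℝ) := by
  refine Vale.Agent.P262H.steinitz_of_coord d (10 ^ 8 * √(d : ℝ)) (by positivity) ?_ N v hv h0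
  intro N' α L h1 h2 h3
  have hL : ∀ i, 0 ≤ L i := by
    intro i
    have := h3 i i
    rw [if_pos rfl] at this
    rw [← this]
    exact Finset.sum_nonneg fun n _ => mul_self_nonneg _
  obtain ⟨π, hπ⟩ := final_coord hd α h1 h2 L hL h3
  refine ⟨π, fun k hk => ?_⟩
  exact (Real.sqrt_le_left (by positivity)).1 (hπ k hk)

end Vale.Agent.P262S
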