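import Vale.Agent.P262S.Iface

/-! # Tests in the units of the rows (formula (*) of notes/P262_sqrtd.md, section 0). -/

open Finset

namespace Vale.Agent.P262S

variable {I : Type} [Fintype I]

/-- The test `τ ∑ f i (c i + N i)²`, where the lift is `l i = (√(β2 i) / 3) * row i`, `β2 i > 0`. -/
noncomputable def QT.ofForm (β2 f c : I → ℝ) (τ : ℝ) (hβ : ∀ i, 0 < β2 i) (hf : ∀ i, 0 ≤ f i) (hτ : 0 ≤ τ)
    (h : ∀ i, τ * f i * (1600 / β2 i) ≤ 1 / 4) : QT I where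
  μ := fun i => τ * (9 * f i / β2 i)
  c := fun i => √(β2 i) / 3 * c i
  hμ0 := fun i => mul_nonneg hτ (div_nonneg (mul_nonneg (by norm_num) (hf i)) (hβ i).le)
  hμ1 := fun i => by
    have := h i
    have hb := hβ i
    have e : τ * (9 * f i / β2 i) * (1600 / 9) = τ * f i * (1600 / β2 i) := by
      field_simp
    rw [e]
    exact this

lemma QT.ofForm_val (β2 f c : I → ℝ) (τ : ℝ) (hβ : ∀ i, 0 < β2 i) (hf : ∀ i, 0 ≤ f i) (hτ : 0 ≤ τ)
    (h : ∀ i, τ * f i * (1600 / β2 i) ≤ 1 / 4) (N : I → ℝ) :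
    (QT.ofForm β2 f c τ hβ hf hτ h).val (fun i => √(β2 i) / 3 * N i)
      = τ * ∑ i, f i * (c i + N i) ^ 2 := by
  unfold QT.val QT.ofForm
  rw [Finset.mul_sum]
  refine Finset.sum_congr rfl fun i _ => ?_
  have hb := hβ i
  have hs : √(β2 i) ^ 2 = β2 i := Real.sq_sqrt hb.le
  have e : √(β2 i) / 3 * c i + √(β2 i) / 3 * N i = √(β2 i) / 3 * (c i + N i) := by ring
  simp only
  rw [e, mul_pow, div_pow, hs]
  field_simp
  ring

lemma QT.ofForm_Psi (β2 f c : I → ℝ) (τ : ℝ) (hβ : ∀ i, 0 < β2 i) (hf : ∀ i, 0 ≤ f i) (hτ : 0 ≤ τ)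
    (h : ∀ i, τ * f i * (1600 / β2 i) ≤ 1 / 4) :
    (QT.ofForm β2 f c τ hβ hf hτ h).Psi
      = τ * ∑ i, (3200 * f i / β2 i + f i * (1 + 6400 * τ * f i / β2 i) * c i ^ 2) := by
  unfold QT.Psi QT.ofForm
  rw [Finset.mul_sum]
  refine Finset.sum_congr rfl fun i _ => ?_
  have hb := hβ i
  have hs : √(β2 i) ^ 2 = β2 i := Real.sq_sqrt hb.le
  simp only
  rw [mul_pow, div_pow, hs]
  field_simp
  ring

/-- Multiplying out the logarithmic bound. -/
lemma div_form_bound {τ A B L : ℝ} (hτ : 0 < τ) (h : τ * A ≤ τ * B + L) : A ≤ B + L / τ := by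
  have : τ * A ≤ τ * (B + L / τ) := by
    have e : τ * (B + L / τ) = τ * B + L := by field_simp
    rw [e]; exact h
  exact le_of_mul_le_mul_left this hτ

end Vale.Agent.P262S
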