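import Vale.Agent.P262V.KR2
import Vale.Agent.P262.FBOrder

/-!
# Gaussian averages of diagonal exponential-quadratic functions
-/

open MeasureTheory ProbabilityTheory Finset
open scoped NNReal

namespace Vale.Agent.P262S

lemma gauss_pdf (x : ℝ) : gaussianPDFReal 0 1 x = (√(2 * Real.pi))⁻¹ * Real.exp (-x ^ 2 / 2) := by
  simp [gaussianPDFReal]

lemma gauss_key (a d s x : ℝ) (hb : a * s ^ 2 < 1 / 2) :
    gaussianPDFReal 0 1 x * Real.exp (a * (d + s * x) ^ 2)
      = (√(2 * Real.pi))⁻¹ * Real.exp (a * d ^ 2 / (1 - 2 * a * s ^ 2))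
        * Real.exp (-(1 / 2 - a * s ^ 2) * (x - a * d * s / (1 / 2 - a * s ^ 2)) ^ 2) := by
  have hb' : 0 < 1 / 2 - a * s ^ 2 := by linarith
  have h2 : 1 - 2 * a * s ^ 2 = 2 * (1 / 2 - a * s ^ 2) := by ring
  rw [gauss_pdf, mul_assoc, mul_assoc, ← Real.exp_add, ← Real.exp_add]
  congr 2
  rw [h2]
  obtain ⟨b, hbb⟩ : ∃ b, b = 1 / 2 - a * s ^ 2 := ⟨_, rfl⟩
  rw [← hbb] at hb' ⊢
  have has : a * s ^ 2 = 1 / 2 - b := by linarith
  have e1 : a * d ^ 2 / (2 * b) - (a * d * s) ^ 2 / b = a * d ^ 2 := by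
    have : (a * d * s) ^ 2 = a * d ^ 2 * (a * s ^ 2) := by ring
    rw [this, has]
    field_simp
    ring
  have e2 : -b * (x - a * d * s / b) ^ 2 = -b * x ^ 2 + 2 * (a * d * s) * x - (a * d * s) ^ 2 / b := by
    field_simp
    ring
  rw [e2]
  have e3 : -x ^ 2 / 2 + a * (d + s * x) ^ 2
      = (-(1 / 2) + a * s ^ 2) * x ^ 2 + 2 * (a * d * s) * x + a * d ^ 2 := by ring
  rw [e3, has]
  linarith

lemma gauss_one_integrable (a d s : ℝ) (hb : a * s ^ 2 < 1 / 2) :
    Integrable (fun x : ℝ => Real.exp (a * (d + s * x) ^ 2)) (gaussianReal 0 1) := by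
  have hb' : 0 < 1 / 2 - a * s ^ 2 := by linarith
  rw [gaussianReal_of_var_ne_zero 0 (one_ne_zero), integrable_withDensity_iff_integrable_smul'
    (measurable_gaussianPDF 0 1) (Filter.Eventually.of_forall fun x => by simp [gaussianPDF])]
  have h1 : Integrable (fun x : ℝ => (√(2 * Real.pi))⁻¹ * Real.exp (a * d ^ 2 / (1 - 2 * a * s ^ 2))
        * Real.exp (-(1 / 2 - a * s ^ 2) * (x - a * d * s / (1 / 2 - a * s ^ 2)) ^ 2)) := by
    exact ((integrable_exp_neg_mul_sq hb').comp_sub_right _).const_mul _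
  refine h1.congr (Filter.Eventually.of_forall fun x => ?_)
  simp only [smul_eq_mul]
  rw [← gauss_key a d s x hb]
  congr 1
  simp only [gaussianPDF, gaussianPDFReal_nonneg, ENNReal.toReal_ofReal]

lemma gauss_one_integral (a d s : ℝ) (hb : a * s ^ 2 < 1 / 2) :
    ∫ x : ℝ, Real.exp (a * (d + s * x) ^ 2) ∂(gaussianReal 0 1)
      = (√(1 - 2 * a * s ^ 2))⁻¹ * Real.exp (a * d ^ 2 / (1 - 2 * a * s ^ 2)) := by
  have hb' : 0 < 1 / 2 - a * s ^ 2 := by linarith
  rw [integral_gaussianReal_eq_integral_smul one_ne_zero]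
  simp only [smul_eq_mul]
  simp_rw [gauss_key a d s _ hb]
  rw [integral_const_mul, integral_sub_right_eq_self
    (fun x : ℝ => Real.exp (-(1 / 2 - a * s ^ 2) * x ^ 2)) (a * d * s / (1 / 2 - a * s ^ 2)),
    integral_gaussian]
  have h2 : 1 - 2 * a * s ^ 2 = 2 * (1 / 2 - a * s ^ 2) := by ring
  have hsq : √(Real.pi / (1 / 2 - a * s ^ 2)) * (√(2 * Real.pi))⁻¹ = (√(1 - 2 * a * s ^ 2))⁻¹ := by
    rw [h2, ← Real.sqrt_inv, ← Real.sqrt_inv, ← Real.sqrt_mul (by positivity)]
    congr 1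
    have := Real.pi_pos
    field_simp
  calc _ = (√(Real.pi / (1 / 2 - a * s ^ 2)) * (√(2 * Real.pi))⁻¹)
        * Real.exp (a * d ^ 2 / (1 - 2 * a * s ^ 2)) := by ring
    _ = _ := by rw [hsq]

/-! ### the closed family -/

section family

variable {I : Type} [Fintype I]

/-- The prefactor of the heat flow of a diagonal exponential-quadratic function. -/
noncomputable def pre (μ : I → ℝ) (A : ℝ) : ℝ := ∏ i, (√(1 - 2 * μ i * A))⁻¹

/-- Heat flow of the diagonal exponential-quadratic function at time `A`. -/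
noncomputable def VF (μ c : I → ℝ) (A : ℝ) (x : EuclideanSpace ℝ I) : ℝ :=
  pre μ A * Real.exp (∑ i, μ i / (1 - 2 * μ i * A) * (c i + x i) ^ 2)

lemma pre_pos (μ : I → ℝ) (A : ℝ) (h : ∀ i, 2 * μ i * A < 1) : 0 < pre μ A := by
  refine Finset.prod_pos fun i _ => ?_
  exact inv_pos.mpr (Real.sqrt_pos.mpr (by linarith [h i]))

lemma VF_prod (μ c : I → ℝ) (A : ℝ) (x : EuclideanSpace ℝ I) :
    VF μ c A x = ∏ i, ((√(1 - 2 * μ i * A))⁻¹ * Real.exp (μ i / (1 - 2 * μ i * A) * (c i + x i) ^ 2)) := by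
  unfold VF pre
  rw [Real.exp_sum, Finset.prod_mul_distrib]

lemma VF_zero (μ c : I → ℝ) (x : EuclideanSpace ℝ I) :
    VF μ c 0 x = Real.exp (∑ i, μ i * (c i + x i) ^ 2) := by
  simp [VF, pre]

/-- One coordinate. -/
lemma coord_int (μ d A s : ℝ) (hμ : 0 ≤ μ) (hA : 0 ≤ A) (h : μ * (A + s ^ 2) < 1 / 2) :
    let a := μ / (1 - 2 * μ * A)
    Integrable (fun g : ℝ => (√(1 - 2 * μ * A))⁻¹ * Real.exp (a * (d + s * g) ^ 2)) (gaussianReal 0 1) ∧
    ∫ g : ℝ, (√(1 - 2 * μ * A))⁻¹ * Real.exp (a * (d + s * g) ^ 2) ∂(gaussianReal 0 1)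
      = (√(1 - 2 * μ * (A + s ^ 2)))⁻¹ * Real.exp (μ / (1 - 2 * μ * (A + s ^ 2)) * d ^ 2) := by
  intro a
  have hs2 : 0 ≤ s ^ 2 := sq_nonneg s
  have hμs : 0 ≤ μ * s ^ 2 := by positivity
  have h1 : 0 < 1 - 2 * μ * A := by nlinarith
  have h2 : 0 < 1 - 2 * μ * (A + s ^ 2) := by nlinarith
  have ha : a * s ^ 2 < 1 / 2 := by
    simp only [a]
    rw [div_mul_eq_mul_div, div_lt_iff₀ h1]
    nlinarith
  have hdenom : 1 - 2 * a * s ^ 2 = (1 - 2 * μ * (A + s ^ 2)) / (1 - 2 * μ * A) := by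
    simp only [a]
    field_simp
    ring
  constructor
  · exact (gauss_one_integrable a d s ha).const_mul _
  · rw [integral_const_mul, gauss_one_integral a d s ha, hdenom, ← mul_assoc]
    congr 1
    · rw [Real.sqrt_div h2.le, inv_div, div_eq_mul_inv]
      have hs1 := (Real.sqrt_pos.mpr h1).ne'
      field_simp
    · congr 1
      simp only [a]
      have hne1 := h1.ne'
      have hne2 := h2.ne'
      have aux : ∀ D1 D2 : ℝ, D1 ≠ 0 → D2 ≠ 0 → μ / D1 * d ^ 2 / (D2 / D1) = μ / D2 * d ^ 2 := by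
        intro D1 D2 h1 h2
        field_simp
      exact aux _ _ hne1 hne2

variable [DecidableEq I]

/-- Gaussian integral of the family along a line. -/
lemma VF_integral (μ c : I → ℝ) (A s : ℝ) (O : EuclideanSpace ℝ I) (hμ : ∀ i, 0 ≤ μ i) (hA : 0 ≤ A)
    (h : ∀ i, μ i * (A + s ^ 2) < 1 / 2) :
    Integrable (fun z : EuclideanSpace ℝ I => VF μ c A (O + s • z)) (stdGaussian _) ∧
    ∫ z : EuclideanSpace ℝ I, VF μ c A (O + s • z) ∂(stdGaussian _) = VF μ c (A + s ^ 2) O := by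
  have hmeas : Measurable (fun g : I → ℝ => (WithLp.toLp 2 g : EuclideanSpace ℝ I)) := by fun_prop
  have hform : ∀ g : I → ℝ, VF μ c A (O + s • (WithLp.toLp 2 g : EuclideanSpace ℝ I))
      = ∏ i, ((√(1 - 2 * μ i * A))⁻¹ *
          Real.exp (μ i / (1 - 2 * μ i * A) * ((c i + O i) + s * g i) ^ 2)) := by
    intro g
    rw [VF_prod]
    refine Finset.prod_congr rfl fun i _ => ?_
    congr 3
    simp
    ring
  have hcoord := fun i => coord_int (μ i) (c i + O i) A s (hμ i) hA (h i)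
  rw [← map_pi_eq_stdGaussian]
  constructor
  · rw [integrable_map_measure (by
      apply Measurable.aestronglyMeasurable
      unfold VF
      fun_prop) hmeas.aemeasurable]
    have := Integrable.fintype_prod (μ := fun _ : I => gaussianReal 0 1) (f := fun i (g : ℝ) =>
      (√(1 - 2 * μ i * A))⁻¹ * Real.exp (μ i / (1 - 2 * μ i * A) * ((c i + O i) + s * g) ^ 2))
      (fun i => (hcoord i).1)
    refine this.congr (Filter.Eventually.of_forall fun g => ?_)
    simp only [Function.comp]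
    rw [hform]
  · rw [integral_map hmeas.aemeasurable (by
      apply Measurable.aestronglyMeasurable
      unfold VF
      fun_prop)]
    simp_rw [hform]
    rw [integral_fintype_prod_eq_prod (𝕜 := ℝ) (fun i (g : ℝ) =>
      (√(1 - 2 * μ i * A))⁻¹ * Real.exp (μ i / (1 - 2 * μ i * A) * ((c i + O i) + s * g) ^ 2))]
    rw [VF_prod]
    refine Finset.prod_congr rfl fun i _ => ?_
    exact (hcoord i).2

lemma VF_nonneg (μ c : I → ℝ) (A : ℝ) (x : EuclideanSpace ℝ I) : 0 ≤ VF μ c A x := by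
  unfold VF pre
  refine mul_nonneg (Finset.prod_nonneg fun i _ => ?_) (Real.exp_pos _).le
  exact inv_nonneg.mpr (Real.sqrt_nonneg _)

open Vale.Agent.P262.FB in
/-- Admissibility along a line. -/
lemma VF_adm (μ c : I → ℝ) (A s : ℝ) (O : EuclideanSpace ℝ I) (hμ : ∀ i, 0 ≤ μ i) (hA : 0 ≤ A)
    (h : ∀ i, μ i * (A + s ^ 2) < 1 / 2) :
    Adm (fun z : EuclideanSpace ℝ I => VF μ c A (O + s • z)) where
  convex := by
    refine ⟨convex_univ, fun x _ y _ p q hp hq hpq => ?_⟩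
    have hai : ∀ i, 0 ≤ μ i / (1 - 2 * μ i * A) := by
      intro i
      have h1 : μ i * A ≤ μ i * (A + s ^ 2) := by
        have := mul_nonneg (hμ i) (sq_nonneg s)
        nlinarith
      exact div_nonneg (hμ i) (by linarith [h i])
    simp only [smul_eq_mul]
    unfold VF
    have hP : 0 ≤ pre μ A := by
      unfold pre
      exact Finset.prod_nonneg fun i _ => inv_nonneg.mpr (Real.sqrt_nonneg _)
    set Q : EuclideanSpace ℝ I → ℝ := fun z =>
      ∑ i, μ i / (1 - 2 * μ i * A) * (c i + (O + s • z) i) ^ 2 with hQ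
    have hQc : Q (p • x + q • y) ≤ p * Q x + q * Q y := by
      simp only [hQ]
      rw [Finset.mul_sum, Finset.mul_sum, ← Finset.sum_add_distrib]
      refine Finset.sum_le_sum fun i _ => ?_
      have e1 : (c i + (O + s • (p • x + q • y)) i)
          = p * (c i + (O + s • x) i) + q * (c i + (O + s • y) i) := by
        have hq' : q = 1 - p := by linarith
        subst hq'
        simp
        ring
      rw [e1]
      have hq' : q = 1 - p := by linarith
      have key : (p * (c i + (O + s • x) i) + q * (c i + (O + s • y) i)) ^ 2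
          ≤ p * (c i + (O + s • x) i) ^ 2 + q * (c i + (O + s • y) i) ^ 2 := by
        subst hq'
        nlinarith [mul_nonneg hp hq, sq_nonneg ((c i + (O + s • x) i) - (c i + (O + s • y) i))]
      calc _ ≤ μ i / (1 - 2 * μ i * A) * (p * (c i + (O + s • x) i) ^ 2 + q * (c i + (O + s • y) i) ^ 2) :=
            mul_le_mul_of_nonneg_left key (hai i)
        _ = _ := by ring
    have hE := convexOn_exp.2 (Set.mem_univ (Q x)) (Set.mem_univ (Q y)) hp hq hpq
    simp only [smul_eq_mul] at hE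
    calc pre μ A * Real.exp (Q (p • x + q • y)) ≤ pre μ A * Real.exp (p * Q x + q * Q y) := by
          exact mul_le_mul_of_nonneg_left (Real.exp_le_exp.mpr hQc) hP
      _ ≤ pre μ A * (p * Real.exp (Q x) + q * Real.exp (Q y)) := mul_le_mul_of_nonneg_left hE hP
      _ = _ := by ring
  nonneg := fun _ => VF_nonneg _ _ _ _
  integ := by
    intro v
    have := (VF_integral μ c A s (O + s • v) hμ hA h).1
    refine this.congr (Filter.Eventually.of_forall fun x => ?_)
    simp only [smul_add]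
    congr 1
    abel

/-- One coordinate bound for the value at the origin. -/
lemma coord_bound (μ c A κ : ℝ) (hμ : 0 ≤ μ) (hA : 0 ≤ A) (hAκ : A ≤ κ) (h : μ * κ ≤ 1 / 4) :
    (√(1 - 2 * μ * A))⁻¹ * Real.exp (μ / (1 - 2 * μ * A) * c ^ 2)
      ≤ Real.exp (2 * κ * μ + μ * (1 + 4 * κ * μ) * c ^ 2) := by
  have hμA : μ * A ≤ μ * κ := mul_le_mul_of_nonneg_left hAκ hμ
  have hμA0 : 0 ≤ μ * A := mul_nonneg hμ hA
  set u : ℝ := 2 * μ * A with hu
  have hu0 : 0 ≤ u := by rw [hu]; nlinarith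
  have hu1 : u ≤ 1 / 2 := by rw [hu]; nlinarith
  have hpos : 0 < 1 - u := by linarith
  have h1 : (1 - u)⁻¹ ≤ Real.exp (2 * u) := by
    have h2 : (1 - u)⁻¹ = 1 + u / (1 - u) := by field_simp; ring
    have h3 : u / (1 - u) ≤ 2 * u := by
      rw [div_le_iff₀ hpos]
      nlinarith
    have h4 := Real.add_one_le_exp (u / (1 - u))
    rw [h2]
    calc 1 + u / (1 - u) ≤ Real.exp (u / (1 - u)) := by linarith
      _ ≤ _ := Real.exp_le_exp.mpr h3
  have h5 : (√(1 - u))⁻¹ ≤ Real.exp u := by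
    rw [← Real.sqrt_inv]
    have : Real.exp u = √(Real.exp (2 * u)) := by
      rw [show 2 * u = u + u by ring, Real.exp_add, Real.sqrt_mul_self (Real.exp_pos u).le]
    rw [this]
    exact Real.sqrt_le_sqrt h1
  have h6 : μ / (1 - u) ≤ μ * (1 + 4 * κ * μ) := by
    rw [div_le_iff₀ hpos]
    have h7 : 1 ≤ (1 + 4 * κ * μ) * (1 - u) := by
      have h8 : 2 * u ≤ 4 * κ * μ := by rw [hu]; nlinarith
      nlinarith
    nlinarith
  have h9 : u ≤ 2 * κ * μ := by rw [hu]; nlinarith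
  calc (√(1 - u))⁻¹ * Real.exp (μ / (1 - u) * c ^ 2)
      ≤ Real.exp (2 * κ * μ) * Real.exp (μ * (1 + 4 * κ * μ) * c ^ 2) := by
        refine mul_le_mul (h5.trans (Real.exp_le_exp.mpr h9)) (Real.exp_le_exp.mpr ?_)
          (Real.exp_pos _).le (Real.exp_pos _).le
        exact mul_le_mul_of_nonneg_right h6 (sq_nonneg c)
    _ = _ := by rw [← Real.exp_add]

/-- Value at the origin. -/
lemma VF_origin_bound (μ c : I → ℝ) (A κ : ℝ) (hμ : ∀ i, 0 ≤ μ i) (hA : 0 ≤ A) (hAκ : A ≤ κ)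
    (h : ∀ i, μ i * κ ≤ 1 / 4) :
    VF μ c A 0 ≤ Real.exp (∑ i, (2 * κ * μ i + μ i * (1 + 4 * κ * μ i) * c i ^ 2)) := by
  rw [VF_prod, Real.exp_sum]
  refine Finset.prod_le_prod (fun i _ => mul_nonneg (inv_nonneg.mpr (Real.sqrt_nonneg _))
    (Real.exp_pos _).le) fun i _ => ?_
  simpa using coord_bound (μ i) (c i) A κ (hμ i) hA hAκ (h i)

end family

/-! ### Generic rounding -/

section rounding

variable {E : Type} [NormedAddCommGroup E] [InnerProductSpace ℝ E] [FiniteDimensional ℝ E]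
  [MeasurableSpace E] [BorelSpace E]

open Vale.Agent.P262.FB Vale.Agent.P262V

/-- The generic digit recursion. -/
theorem round_gen_dyadic {ι : Type} [Fintype ι] (l : ι → E) (hl : ∀ v, ‖l v‖ ≤ 1)
    (G : ℝ → E → ℝ) (hAmax : ℝ) (hA : 100 / 27 ≤ hAmax)
    (hAdm : ∀ (A s : ℝ) (O : E), 0 ≤ A → A + s ^ 2 ≤ hAmax → Adm fun z : E => G A (O + s • z))
    (hint : ∀ (A s : ℝ) (O : E), 0 ≤ A → A + s ^ 2 ≤ hAmax →
      ∫ z : E, G A (O + s • z) ∂(stdGaussian E) ≤ G (A + s ^ 2) O) (n : ℕ) :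
    ∀ (m : ι → ℕ), (∀ v, m v ≤ 2 ^ n) → ∀ O : E,
      ∃ Y : ι → ℝ, (∀ v, Y v = 0 ∨ Y v = 1) ∧
        G 0 (O + ∑ v, (Y v - m v / 2 ^ n) • l v) ≤ G ((100 / 9) * Ax n) O := by
  classical
  induction n with
  | zero =>
    intro m hm O
    refine ⟨fun v => m v, fun v => ?_, ?_⟩
    · have := hm v
      simp only [pow_zero] at this
      have h2 : m v = 0 ∨ m v = 1 := by omega
      rcases h2 with h2 | h2
      · left; simp [h2]
      · right; simp [h2]
    · simp [Ax_zero]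
  | succ n ih =>
    intro m hm O
    set h : ℝ := (1 / 2 : ℝ) ^ (n + 1) with hh
    set s : ℝ := h * (10 / 3) with hs
    set A : ℝ := (100 / 9) * Ax n with hAdef
    have hA0 : 0 ≤ A := by have := Ax_nonneg n; rw [hAdef]; positivity
    have hAs : A + s ^ 2 = (100 / 9) * Ax (n + 1) := by
      rw [Ax_succ, hAdef, hs]; ring
    have hAs' : A + s ^ 2 ≤ hAmax := by
      rw [hAs]
      have := Ax_le (n + 1)
      linarith
    let u : ι → E := fun v => (3 / 10 : ℝ) • (if m v % 2 = 1 then l v else 0)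
    have hu : ∀ v, ‖u v‖ ≤ 3 / 10 := by
      intro v
      simp only [u]
      by_cases hv : m v % 2 = 1
      · simp only [hv, if_true, norm_smul, Real.norm_eq_abs]
        rw [abs_of_pos (by norm_num : (0:ℝ) < 3 / 10)]
        nlinarith [hl v, norm_nonneg (l v)]
      · simp [hv]
        norm_num
    obtain ⟨ε, hε, hF⟩ := fb_one u hu (fun z => G A (O + s • z)) (hAdm A s O hA0 hAs')
    have hz : s • ∑ i, ε i • u i = h • ∑ v, (if m v % 2 = 1 then ε v else 0) • l v := by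
      rw [Finset.smul_sum, Finset.smul_sum]
      refine Finset.sum_congr rfl fun v _ => ?_
      simp only [u, hs]
      by_cases hv : m v % 2 = 1
      · simp only [hv, if_true, smul_smul]
        congr 1
        ring
      · simp [hv]
    simp only [hz] at hF
    have hm' : ∀ v, ∃ k : ℕ, k ≤ 2 ^ n ∧ (k : ℝ) / 2 ^ n
        = (m v : ℝ) / 2 ^ (n + 1) + h * (if m v % 2 = 1 then ε v else 0) := by
      intro v
      have hmv := hm v
      have hp : (2 : ℝ) ^ (n + 1) = 2 * 2 ^ n := by rw [pow_succ]; ring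
      have hh2 : h = 1 / (2 * 2 ^ n) := by
        rw [hh, ← hp, one_div_pow, one_div]
      have hpos : (0 : ℝ) < 2 ^ n := by positivity
      by_cases hodd : m v % 2 = 1
      · rw [if_pos hodd]
        rcases hε v with he | he
        · refine ⟨(m v + 1) / 2, ?_, ?_⟩
          · have : (2:ℕ) ^ (n + 1) = 2 * 2 ^ n := by rw [pow_succ]; ring
            omega
          · have hk : (((m v + 1) / 2 : ℕ) : ℝ) * 2 = (m v : ℝ) + 1 := by
              have : (m v + 1) / 2 * 2 = m v + 1 := by omega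
              exact_mod_cast this
            rw [he, hp, hh2]
            field_simp
            linarith
        · refine ⟨(m v - 1) / 2, ?_, ?_⟩
          · have : (2:ℕ) ^ (n + 1) = 2 * 2 ^ n := by rw [pow_succ]; ring
            omega
          · have hk : (((m v - 1) / 2 : ℕ) : ℝ) * 2 = (m v : ℝ) - 1 := by
              have h1 : (m v - 1) / 2 * 2 + 1 = m v := by omega
              have h2 : (((m v - 1) / 2 * 2 + 1 : ℕ) : ℝ) = (m v : ℝ) := by rw [h1]
              push_cast at h2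
              linarith
            rw [he, hp, hh2]
            field_simp
            linarith
      · rw [if_neg hodd]
        refine ⟨m v / 2, ?_, ?_⟩
        · have : (2:ℕ) ^ (n + 1) = 2 * 2 ^ n := by rw [pow_succ]; ring
          omega
        · have hk : ((m v / 2 : ℕ) : ℝ) * 2 = (m v : ℝ) := by
            have : m v / 2 * 2 = m v := by omega
            exact_mod_cast this
          rw [hp]
          field_simp
          linarith
    choose m' hm'1 hm'2 using hm'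
    set O1 : E := O + h • ∑ v, (if m v % 2 = 1 then ε v else 0) • l v with hO1
    obtain ⟨Y, hY, hPhi⟩ := ih m' hm'1 O1
    refine ⟨Y, hY, ?_⟩
    have hsame : O + ∑ v, (Y v - (m v : ℝ) / 2 ^ (n + 1)) • l v
        = O1 + ∑ v, (Y v - (m' v : ℝ) / 2 ^ n) • l v := by
      rw [hO1, Finset.smul_sum, add_assoc, ← Finset.sum_add_distrib]
      congr 1
      refine Finset.sum_congr rfl fun v _ => ?_
      rw [hm'2 v, smul_smul, ← add_smul]
      congr 1
      ring
    rw [hsame, ← hAs]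
    exact hPhi.trans (hF.trans (hint A s O hA0 hAs'))

/-- The generic rounding theorem. -/
theorem round_gen {ι : Type} [Fintype ι] (l : ι → E) (hl : ∀ v, ‖l v‖ ≤ 1)
    (G : ℝ → E → ℝ) (hAmax : ℝ) (hA : 100 / 27 ≤ hAmax)
    (hAdm : ∀ (A s : ℝ) (O : E), 0 ≤ A → A + s ^ 2 ≤ hAmax → Adm fun z : E => G A (O + s • z))
    (hint : ∀ (A s : ℝ) (O : E), 0 ≤ A → A + s ^ 2 ≤ hAmax →
      ∫ z : E, G A (O + s • z) ∂(stdGaussian E) ≤ G (A + s ^ 2) O)
    (Bd : ℝ) (hBd : ∀ A, 0 ≤ A → A ≤ 100 / 27 → G A 0 ≤ Bd) (hcont : Continuous (G 0))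
    (y : ι → ℝ) (hy : ∀ v, 0 ≤ y v ∧ y v ≤ 1) :
    ∃ Y : ι → ℝ, (∀ v, Y v = 0 ∨ Y v = 1) ∧ G 0 (∑ v, (Y v - y v) • l v) ≤ Bd := by
  classical
  let m : ℕ → ι → ℕ := fun n v => ⌊y v * 2 ^ n⌋₊
  have hm : ∀ n v, m n v ≤ 2 ^ n := by
    intro n v
    have hpow : (0 : ℝ) < 2 ^ n := by positivity
    have h1 : (m n v : ℝ) ≤ y v * 2 ^ n :=
      Nat.floor_le (mul_nonneg (hy v).1 hpow.le)
    have h2 : (m n v : ℝ) ≤ 2 ^ n := by nlinarith [(hy v).2]
    exact_mod_cast h2
  have hlim : ∀ v, Filter.Tendsto (fun n : ℕ => (m n v : ℝ) / 2 ^ n) Filter.atTop (nhds (y v)) := by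
    intro v
    have hsq : Filter.Tendsto (fun n : ℕ => ((1 / 2 : ℝ)) ^ n) Filter.atTop (nhds 0) :=
      tendsto_pow_atTop_nhds_zero_of_lt_one (by norm_num) (by norm_num)
    have hlo : Filter.Tendsto (fun n : ℕ => y v - (1 / 2 : ℝ) ^ n) Filter.atTop (nhds (y v)) := by
      simpa using (tendsto_const_nhds (x := y v)).sub hsq
    refine tendsto_of_tendsto_of_tendsto_of_le_of_le hlo tendsto_const_nhds ?_ ?_
    · intro n
      have hpow : (0 : ℝ) < 2 ^ n := by positivity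
      have h2 : y v * 2 ^ n < (m n v : ℝ) + 1 := Nat.lt_floor_add_one _
      have e : (1 / 2 : ℝ) ^ n = 1 / 2 ^ n := by rw [one_div_pow]
      simp only
      rw [e, sub_le_iff_le_add]
      have h3 : (m n v : ℝ) / 2 ^ n + 1 / 2 ^ n = ((m n v : ℝ) + 1) / 2 ^ n := by ring
      rw [h3, le_div_iff₀ hpow]
      exact h2.le
    · intro n
      have hpow : (0 : ℝ) < 2 ^ n := by positivity
      have h1 : (m n v : ℝ) ≤ y v * 2 ^ n :=
        Nat.floor_le (mul_nonneg (hy v).1 hpow.le)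
      simp only
      rw [div_le_iff₀ hpow]
      exact h1
  have hEach : ∀ n : ℕ, ∃ Y : ι → Fin 2,
      G 0 (∑ v, (((Y v : ℕ) : ℝ) - (m n v : ℝ) / 2 ^ n) • l v) ≤ Bd := by
    intro n
    obtain ⟨Y, hY, hb1⟩ := round_gen_dyadic l hl G hAmax hA hAdm hint n (m n) (hm n) (0 : E)
    have hYv : ∀ v, ∃ c : Fin 2, Y v = ((c : ℕ) : ℝ) := by
      intro v
      rcases hY v with h | h
      · exact ⟨0, by simp [h]⟩
      · exact ⟨1, by simp [h]⟩
    choose c hc using hYv
    refine ⟨c, ?_⟩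
    simp only [zero_add] at hb1
    have e : ∀ v, (((c v : ℕ) : ℝ) - (m n v : ℝ) / 2 ^ n) = Y v - (m n v : ℝ) / 2 ^ n := by
      intro v
      rw [hc v]
    simp only [e]
    refine hb1.trans (hBd _ ?_ ?_)
    · have := Ax_nonneg n; positivity
    · have := Ax_le n; linarith
  choose Yn hYn using hEach
  obtain ⟨Y, hinf⟩ := Finite.exists_infinite_fiber Yn
  have hfreq : ∃ᶠ n in Filter.atTop, Yn n = Y := by
    rw [Nat.frequently_atTop_iff_infinite]
    exact Set.infinite_coe_iff.mp hinf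
  refine ⟨fun v => ((Y v : ℕ) : ℝ), fun v => ?_, ?_⟩
  · have : (Y v : ℕ) = 0 ∨ (Y v : ℕ) = 1 := by omega
    rcases this with h | h
    · left; simp [h]
    · right; simp [h]
  · have hcont2 : Filter.Tendsto (fun n : ℕ =>
        G 0 (∑ v, (((Y v : ℕ) : ℝ) - (m n v : ℝ) / 2 ^ n) • l v))
        Filter.atTop (nhds (G 0 (∑ v, (((Y v : ℕ) : ℝ) - y v) • l v))) := by
      have hO : Filter.Tendsto (fun n : ℕ => ∑ v, (((Y v : ℕ) : ℝ) - (m n v : ℝ) / 2 ^ n) • l v)
          Filter.atTop (nhds (∑ v, (((Y v : ℕ) : ℝ) - y v) • l v)) := by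
        refine tendsto_finsetSum _ fun v _ => ?_
        exact (tendsto_const_nhds.sub (hlim v)).smul_const _
      exact hcont.continuousAt.tendsto.comp hO
    by_contra hcon
    push Not at hcon
    have hev := hcont2.eventually (lt_mem_nhds hcon)
    obtain ⟨n, hn1, hn2⟩ := (hfreq.and_eventually hev).exists
    have := hYn n
    rw [hn1] at this
    linarith

end rounding

end Vale.Agent.P262S
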