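import Vale.Agent.P262V.KR2

/-!
# The heat family of an exponential of a diagonal quadratic form and the digit recursion

`gq μ c A x = (1 - 2 μ A)^(-1/2) exp (μ / (1 - 2 μ A) (c + x)^2)` is the Gaussian heat flow of
`exp (μ (c + x)^2)`, time `A`.  This gives fractional rounding for exponential-quadratic tests.
-/

open MeasureTheory ProbabilityTheory Finset
open scoped InnerProductSpace

namespace Vale.Agent.P262S

open Vale.Agent.P262.FB (Adm)
open Vale.Agent.P262V (fb_one Ax Ax_zero Ax_succ Ax_le Ax_nonneg adm_const Adm_sum)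

/-! ## One dimensional Gaussian integral -/

/-- Completing the square. -/
lemma pdf_mul_exp (a c s g : ℝ) (h : 2 * a * s ^ 2 < 1) :
    gaussianPDFReal 0 1 g * Real.exp (a * (c + s * g) ^ 2)
      = ((√(2 * Real.pi))⁻¹ * Real.exp (a / (1 - 2 * a * s ^ 2) * c ^ 2))
        * Real.exp (-(1 / 2 - a * s ^ 2) * (g - a * c * s / (1 / 2 - a * s ^ 2)) ^ 2) := by
  have hb : (0 : ℝ) < 1 / 2 - a * s ^ 2 := by linarith
  have hd : (1 - 2 * a * s ^ 2) = 2 * (1 / 2 - a * s ^ 2) := by ring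
  rw [gaussianPDFReal_def]
  simp only [NNReal.coe_one, mul_one, sub_zero]
  rw [mul_assoc, ← Real.exp_add, mul_assoc, ← Real.exp_add]
  congr 2
  rw [hd]
  obtain ⟨b, hbd⟩ : ∃ b, b = 1 / 2 - a * s ^ 2 := ⟨_, rfl⟩
  rw [← hbd] at hb ⊢
  have hne : b ≠ 0 := hb.ne'
  have e1 : a / (2 * b) * c ^ 2 - b * (a * c * s / b) ^ 2 = a * c ^ 2 := by
    field_simp
    subst hbd
    ring
  have e2 : -b * (g - a * c * s / b) ^ 2
      = - b * g ^ 2 + 2 * (b * (a * c * s / b)) * g - b * (a * c * s / b) ^ 2 := by ring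
  have e3 : b * (a * c * s / b) = a * c * s := by field_simp
  rw [e2, e3]
  have e4 : a * s ^ 2 = 1 / 2 - b := by rw [hbd]; ring
  have e5 : a * (c + s * g) ^ 2 = a * c ^ 2 + 2 * (a * c * s) * g + (a * s ^ 2) * g ^ 2 := by ring
  rw [e5, e4]
  rw [← e1]
  ring

/-- The exponential of a shifted square is integrable under the standard Gaussian and the
value of the integral. -/
lemma exp_sq_gauss (a c s : ℝ) (h : 2 * a * s ^ 2 < 1) :
    Integrable (fun g : ℝ => Real.exp (a * (c + s * g) ^ 2)) (gaussianReal 0 1) ∧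
    ∫ g : ℝ, Real.exp (a * (c + s * g) ^ 2) ∂(gaussianReal 0 1)
      = (√(1 - 2 * a * s ^ 2))⁻¹ * Real.exp (a / (1 - 2 * a * s ^ 2) * c ^ 2) := by
  have hb : (0 : ℝ) < 1 / 2 - a * s ^ 2 := by linarith
  set b : ℝ := 1 / 2 - a * s ^ 2 with hbd
  set t : ℝ := a * c * s / b with ht
  set K : ℝ := (√(2 * Real.pi))⁻¹ * Real.exp (a / (1 - 2 * a * s ^ 2) * c ^ 2) with hK
  have hpt : ∀ g, gaussianPDFReal 0 1 g * Real.exp (a * (c + s * g) ^ 2)
      = K * Real.exp (-b * (g - t) ^ 2) := fun g => pdf_mul_exp a c s g h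
  have hi0 : Integrable (fun g : ℝ => Real.exp (-b * (g - t) ^ 2)) :=
    (integrable_exp_neg_mul_sq hb).comp_sub_right t
  constructor
  · rw [gaussianReal_of_var_ne_zero _ one_ne_zero]
    rw [integrable_withDensity_iff_integrable_smul' (measurable_gaussianPDF _ _)
      (ae_of_all _ fun _ => gaussianPDF_lt_top)]
    refine (hi0.const_mul K).congr (ae_of_all _ fun g => ?_)
    simp only [smul_eq_mul, toReal_gaussianPDF]
    exact (hpt g).symm
  · rw [integral_gaussianReal_eq_integral_smul one_ne_zero]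
    simp only [smul_eq_mul, hpt]
    rw [integral_const_mul]
    have h1 : ∫ g : ℝ, Real.exp (-b * (g - t) ^ 2) = √(Real.pi / b) := by
      rw [integral_sub_right_eq_self (fun x : ℝ => Real.exp (-b * x ^ 2)) t]
      exact integral_gaussian b
    rw [h1, hK]
    have hd : 1 - 2 * a * s ^ 2 = 2 * b := by rw [hbd]; ring
    rw [hd]
    have hpi : (0 : ℝ) < Real.pi := Real.pi_pos
    have h2 : (√(2 * Real.pi))⁻¹ * √(Real.pi / b) = (√(2 * b))⁻¹ := by
      rw [← Real.sqrt_inv, ← Real.sqrt_mul (by positivity), ← Real.sqrt_inv]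
      congr 1
      field_simp
    rw [← h2]
    ring

/-! ## The heat family -/

/-- One coordinate of the heat family. -/
noncomputable def gq (μ c A x : ℝ) : ℝ :=
  (√(1 - 2 * μ * A))⁻¹ * Real.exp (μ / (1 - 2 * μ * A) * (c + x) ^ 2)

lemma gq_pos (μ c A x : ℝ) (h : 2 * μ * A < 1) : 0 < gq μ c A x := by
  unfold gq
  have : 0 < √(1 - 2 * μ * A) := Real.sqrt_pos.mpr (by linarith)
  positivity

lemma gq_zero (μ c x : ℝ) : gq μ c 0 x = Real.exp (μ * (c + x) ^ 2) := by
  simp [gq]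

lemma gq_integral (μ c A x s : ℝ) (h : 2 * μ * (A + s ^ 2) < 1) (hA : 2 * μ * A < 1) :
    Integrable (fun g : ℝ => gq μ c A (x + s * g)) (gaussianReal 0 1) ∧
    ∫ g : ℝ, gq μ c A (x + s * g) ∂(gaussianReal 0 1) = gq μ c (A + s ^ 2) x := by
  have hp : 0 < 1 - 2 * μ * A := by linarith
  have hp2 : 0 < 1 - 2 * μ * (A + s ^ 2) := by linarith
  set a : ℝ := μ / (1 - 2 * μ * A) with ha
  have hh : 2 * a * s ^ 2 < 1 := by
    rw [ha]
    have : 2 * (μ / (1 - 2 * μ * A)) * s ^ 2 = (2 * μ * s ^ 2) / (1 - 2 * μ * A) := by ring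
    rw [this, div_lt_one hp]
    linarith
  obtain ⟨h1, h2⟩ := exp_sq_gauss a (c + x) s hh
  have e : ∀ g : ℝ, gq μ c A (x + s * g)
      = (√(1 - 2 * μ * A))⁻¹ * Real.exp (a * (c + x + s * g) ^ 2) := by
    intro g
    unfold gq
    rw [← ha]
    congr 3
    ring
  simp only [e]
  refine ⟨h1.const_mul _, ?_⟩
  rw [integral_const_mul, h2]
  unfold gq
  have hq : 1 - 2 * a * s ^ 2 = (1 - 2 * μ * (A + s ^ 2)) / (1 - 2 * μ * A) := by
    rw [ha]
    field_simp
    ring
  have hq2 : a / (1 - 2 * a * s ^ 2) = μ / (1 - 2 * μ * (A + s ^ 2)) := by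
    rw [hq, ha, div_div_div_cancel_right₀ hp.ne']
  rw [hq2, hq, Real.sqrt_div hp2.le, ← mul_assoc]
  congr 1
  have h3 : 0 < √(1 - 2 * μ * A) := Real.sqrt_pos.mpr hp
  have h4 : 0 < √(1 - 2 * μ * (A + s ^ 2)) := Real.sqrt_pos.mpr hp2
  field_simp

/-- Elementary bound for the heat family at a point. -/
lemma gq_zero_le (μ c A κ : ℝ) (hμ : 0 ≤ μ) (hA : 0 ≤ A) (hAκ : A ≤ κ) (h : μ * κ ≤ 1 / 4) :
    gq μ c A 0 ≤ Real.exp (2 * κ * μ + μ * (1 + 4 * κ * μ) * c ^ 2) := by
  have hx0 : 0 ≤ μ * A := mul_nonneg hμ hA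
  have hxκ : μ * A ≤ μ * κ := mul_le_mul_of_nonneg_left hAκ hμ
  obtain ⟨x, hx⟩ : ∃ x, x = μ * A := ⟨_, rfl⟩
  have hd : 1 - 2 * μ * A = 1 - 2 * x := by rw [hx]; ring
  unfold gq
  rw [hd]
  rw [← hx] at hx0 hxκ
  have hx4 : x ≤ 1 / 4 := by linarith
  have hp : 0 < 1 - 2 * x := by linarith
  have hs : 0 < √(1 - 2 * x) := Real.sqrt_pos.mpr hp
  have h1 : (√(1 - 2 * x))⁻¹ ≤ 1 + 2 * x := by
    rw [inv_le_iff_one_le_mul₀ hs]
    have h2 : (1 : ℝ) ≤ √((1 + 2 * x) ^ 2 * (1 - 2 * x)) := by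
      rw [Real.one_le_sqrt]
      nlinarith [mul_nonneg hx0 hx0, mul_nonneg hx0 (mul_nonneg hx0 hx0)]
    rwa [Real.sqrt_mul (by positivity), Real.sqrt_sq (by positivity)] at h2
  have h2 : 1 + 2 * x ≤ Real.exp (2 * κ * μ) := by
    have := Real.add_one_le_exp (2 * κ * μ)
    nlinarith
  have h3 : μ / (1 - 2 * x) * (c + 0) ^ 2 ≤ μ * (1 + 4 * κ * μ) * c ^ 2 := by
    rw [add_zero]
    refine mul_le_mul_of_nonneg_right ?_ (sq_nonneg c)
    rw [div_le_iff₀ hp]
    have h4 : 1 ≤ (1 + 4 * κ * μ) * (1 - 2 * x) := by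
      nlinarith
    nlinarith
  rw [Real.exp_add]
  exact mul_le_mul (h1.trans h2) (Real.exp_le_exp.mpr h3) (Real.exp_pos _).le (Real.exp_pos _).le

/-! ## Several coordinates -/

variable {I : Type} [Fintype I]

/-- The heat family of a diagonal quadratic test. -/
noncomputable def Vq (μ c : I → ℝ) (A : ℝ) (x : EuclideanSpace ℝ I) : ℝ :=
  ∏ i, gq (μ i) (c i) A (x i)

lemma Vq_pos (μ c : I → ℝ) (A : ℝ) (x : EuclideanSpace ℝ I) (h : ∀ i, 2 * μ i * A < 1) :
    0 < Vq μ c A x :=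
  Finset.prod_pos fun i _ => gq_pos _ _ _ _ (h i)

lemma gq_continuous (μ c A : ℝ) : Continuous (gq μ c A) := by
  unfold gq
  fun_prop

lemma Vq_continuous (μ c : I → ℝ) (A : ℝ) : Continuous (Vq μ c A) := by
  unfold Vq
  refine continuous_finsetProd _ fun i _ => ?_
  exact (gq_continuous _ _ _).comp (by fun_prop)

lemma Vq_integral (μ c : I → ℝ) (A s : ℝ) (O : EuclideanSpace ℝ I)
    (h : ∀ i, 2 * μ i * (A + s ^ 2) < 1) (hA : ∀ i, 2 * μ i * A < 1) :
    Integrable (fun z => Vq μ c A (O + s • z)) (stdGaussian (EuclideanSpace ℝ I)) ∧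
    ∫ z, Vq μ c A (O + s • z) ∂(stdGaussian (EuclideanSpace ℝ I)) = Vq μ c (A + s ^ 2) O := by
  classical
  have hm : Measurable (fun x : I → ℝ => (WithLp.toLp 2 x : EuclideanSpace ℝ I)) := by fun_prop
  have hc : Continuous (fun z : EuclideanSpace ℝ I => Vq μ c A (O + s • z)) :=
    (Vq_continuous μ c A).comp (by fun_prop)
  have e : ∀ x : I → ℝ, Vq μ c A (O + s • (WithLp.toLp 2 x : EuclideanSpace ℝ I))
      = ∏ i, gq (μ i) (c i) A (O i + s * x i) := by
    intro x
    unfold Vq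
    simp
  rw [← map_pi_eq_stdGaussian]
  constructor
  · rw [integrable_map_measure hc.aestronglyMeasurable hm.aemeasurable]
    have := Integrable.fintype_prod (μ := fun _ : I => gaussianReal 0 1)
      (f := fun i g => gq (μ i) (c i) A (O i + s * g))
      (fun i => (gq_integral (μ i) (c i) A (O i) s (h i) (hA i)).1)
    refine this.congr (ae_of_all _ fun x => ?_)
    simp only [Function.comp]
    exact (e x).symm
  · rw [integral_map hm.aemeasurable hc.aestronglyMeasurable]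
    simp only [e]
    rw [integral_fintype_prod_eq_prod (𝕜 := ℝ)
      (f := fun i g => gq (μ i) (c i) A (O i + s * g))]
    unfold Vq
    refine Finset.prod_congr rfl fun i _ => ?_
    exact (gq_integral (μ i) (c i) A (O i) s (h i) (hA i)).2

lemma Vq_adm (μ c : I → ℝ) (A s : ℝ) (O : EuclideanSpace ℝ I)
    (hμ : ∀ i, 0 ≤ μ i)
    (h : ∀ i, 2 * μ i * (A + s ^ 2) < 1) (hA : ∀ i, 2 * μ i * A < 1) :
    Adm (fun z => Vq μ c A (O + s • z)) where
  convex := by
    refine ⟨convex_univ, fun z _ w _ p q hp hq hpq => ?_⟩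
    have hform : ∀ x : EuclideanSpace ℝ I, Vq μ c A x
        = (∏ i, (√(1 - 2 * μ i * A))⁻¹)
          * Real.exp (∑ i, μ i / (1 - 2 * μ i * A) * (c i + x i) ^ 2) := by
      intro x
      unfold Vq gq
      rw [Finset.prod_mul_distrib, Real.exp_sum]
    have hC : 0 ≤ ∏ i, (√(1 - 2 * μ i * A))⁻¹ :=
      Finset.prod_nonneg fun i _ => by positivity
    simp only [hform, smul_eq_mul]
    set C : ℝ := ∏ i, (√(1 - 2 * μ i * A))⁻¹
    set Q : EuclideanSpace ℝ I → ℝ := fun x => ∑ i, μ i / (1 - 2 * μ i * A) * (c i + x i) ^ 2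
      with hQ
    have hQc : Q (O + s • (p • z + q • w)) ≤ p * Q (O + s • z) + q * Q (O + s • w) := by
      simp only [hQ, Finset.mul_sum]
      rw [← Finset.sum_add_distrib]
      refine Finset.sum_le_sum fun i _ => ?_
      have ha : 0 ≤ μ i / (1 - 2 * μ i * A) :=
        div_nonneg (hμ i) (by linarith [hA i])
      have e1 : (O + s • (p • z + q • w)) i
          = p * (O i + s * z i) + q * (O i + s * w i) := by
        have : O i = (p + q) * O i := by rw [hpq, one_mul]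
        simp
        linarith [this, show s * (p * z i + q * w i) = p * (s * z i) + q * (s * w i) by ring]
      have e2 : (O + s • z) i = O i + s * z i := by simp
      have e3 : (O + s • w) i = O i + s * w i := by simp
      rw [e1, e2, e3]
      generalize O i + s * z i = a
      generalize O i + s * w i = b
      have hc' : c i = p * c i + q * c i := by rw [← add_mul, hpq, one_mul]
      have hq' : q = 1 - p := by linarith
      have key : (c i + (p * a + q * b)) ^ 2 ≤ p * (c i + a) ^ 2 + q * (c i + b) ^ 2 := by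
        subst hq'
        nlinarith [mul_nonneg hp hq, sq_nonneg (a - b)]
      calc μ i / (1 - 2 * μ i * A) * (c i + (p * a + q * b)) ^ 2
          ≤ μ i / (1 - 2 * μ i * A) * (p * (c i + a) ^ 2 + q * (c i + b) ^ 2) :=
            mul_le_mul_of_nonneg_left key ha
        _ = _ := by ring
    have hexp := convexOn_exp.2 (Set.mem_univ (Q (O + s • z))) (Set.mem_univ (Q (O + s • w)))
      hp hq hpq
    simp only [smul_eq_mul] at hexp
    have h3 : Real.exp (Q (O + s • (p • z + q • w)))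
        ≤ p * Real.exp (Q (O + s • z)) + q * Real.exp (Q (O + s • w)) :=
      (Real.exp_le_exp.mpr hQc).trans hexp
    calc C * Real.exp (Q (O + s • (p • z + q • w)))
        ≤ C * (p * Real.exp (Q (O + s • z)) + q * Real.exp (Q (O + s • w))) :=
          mul_le_mul_of_nonneg_left h3 hC
      _ = _ := by ring
  nonneg := fun z => (Vq_pos μ c A _ hA).le
  integ := by
    intro v
    have := (Vq_integral μ c A s (O + s • v) h hA).1
    refine this.congr (ae_of_all _ fun x => ?_)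
    simp only
    congr 1
    rw [smul_add]
    abel

/-! ## The digit recursion for an abstract family of potentials -/

section Abstract

variable {E : Type} [NormedAddCommGroup E] [InnerProductSpace ℝ E] [FiniteDimensional ℝ E]
  [MeasurableSpace E] [BorelSpace E]

/-- The digit recursion: at each digit `n`, the potential `Φ n` integrated along the Gaussian
of scale `(1/2)^(n+1) * (10/3)` is at most `Φ (n+1)`. -/
theorem dyadic_round_abs {ι : Type} [Fintype ι] (l : ι → E) (hl : ∀ v, ‖l v‖ ≤ 1)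
    (Φ : ℕ → E → ℝ)
    (hadm : ∀ n O, Adm (fun z : E => Φ n (O + (((1 / 2 : ℝ) ^ (n + 1)) * (10 / 3)) • z)))
    (hint : ∀ n O, ∫ z, Φ n (O + (((1 / 2 : ℝ) ^ (n + 1)) * (10 / 3)) • z) ∂(stdGaussian E)
      ≤ Φ (n + 1) O) (n : ℕ) :
    ∀ (m : ι → ℕ), (∀ v, m v ≤ 2 ^ n) → ∀ O : E,
      ∃ Y : ι → ℝ, (∀ v, Y v = 0 ∨ Y v = 1) ∧
        Φ 0 (O + ∑ v, (Y v - m v / 2 ^ n) • l v) ≤ Φ n O := by
  classical
  induction n with
  | zero =>
    intro m hm O
    refine ⟨fun v => m v, fun v => ?_, ?_⟩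
    · have := hm v
      simp only [pow_zero] at this
      have h2 : m v = 0 ∨ m v = 1 := by omega
      rcases h2 with h2 | h2
      · left; simp [h2]
      · right; simp [h2]
    · simp
  | succ n ih =>
    intro m hm O
    set h : ℝ := (1 / 2 : ℝ) ^ (n + 1) with hh
    let u : ι → E := fun v => (3 / 10 : ℝ) • (if m v % 2 = 1 then l v else 0)
    have hu : ∀ v, ‖u v‖ ≤ 3 / 10 := by
      intro v
      simp only [u]
      by_cases hv : m v % 2 = 1
      · simp only [hv, if_true, norm_smul, Real.norm_eq_abs]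
        rw [abs_of_pos (by norm_num : (0:ℝ) < 3 / 10)]
        nlinarith [hl v, norm_nonneg (l v)]
      · simp [hv]
        norm_num
    obtain ⟨ε, hε, hF⟩ := fb_one u hu _ (hadm n O)
    have hstep : Φ n (O + h • ∑ v, (if m v % 2 = 1 then ε v else 0) • l v) ≤ Φ (n + 1) O := by
      have hz : (h * (10 / 3)) • ∑ i, ε i • u i = h • ∑ v, (if m v % 2 = 1 then ε v else 0) • l v := by
        rw [Finset.smul_sum, Finset.smul_sum]
        refine Finset.sum_congr rfl fun v _ => ?_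
        simp only [u]
        by_cases hv : m v % 2 = 1
        · simp only [hv, if_true, smul_smul]
          congr 1
          ring
        · simp [hv]
      rw [← hz]
      exact hF.trans (hint n O)
    have hm' : ∀ v, ∃ k : ℕ, k ≤ 2 ^ n ∧ (k : ℝ) / 2 ^ n
        = (m v : ℝ) / 2 ^ (n + 1) + h * (if m v % 2 = 1 then ε v else 0) := by
      intro v
      have hmv := hm v
      have hp : (2 : ℝ) ^ (n + 1) = 2 * 2 ^ n := by rw [pow_succ]; ring
      have hh2 : h = 1 / (2 * 2 ^ n) := by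
        rw [hh, ← hp, one_div_pow, one_div]
      have hpos : (0 : ℝ) < 2 ^ n := by positivity
      by_cases hodd : m v % 2 = 1
      · rw [if_pos hodd]
        rcases hε v with he | he
        · refine ⟨(m v + 1) / 2, ?_, ?_⟩
          · have : (2:ℕ) ^ (n + 1) = 2 * 2 ^ n := by rw [pow_succ]; ring
            omega
          · have hk : (((m v + 1) / 2 : ℕ) : ℝ) * 2 = (m v : ℝ) + 1 := by
              have : (m v + 1) / 2 * 2 = m v + 1 := by omega
              exact_mod_cast this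
            rw [he, hp, hh2]
            field_simp
            linarith
        · refine ⟨(m v - 1) / 2, ?_, ?_⟩
          · have : (2:ℕ) ^ (n + 1) = 2 * 2 ^ n := by rw [pow_succ]; ring
            omega
          · have hk : (((m v - 1) / 2 : ℕ) : ℝ) * 2 = (m v : ℝ) - 1 := by
              have h1 : (m v - 1) / 2 * 2 + 1 = m v := by omega
              have h2 : (((m v - 1) / 2 * 2 + 1 : ℕ) : ℝ) = (m v : ℝ) := by rw [h1]
              push_cast at h2
              linarith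
            rw [he, hp, hh2]
            field_simp
            linarith
      · rw [if_neg hodd]
        refine ⟨m v / 2, ?_, ?_⟩
        · have : (2:ℕ) ^ (n + 1) = 2 * 2 ^ n := by rw [pow_succ]; ring
          omega
        · have hk : ((m v / 2 : ℕ) : ℝ) * 2 = (m v : ℝ) := by
            have : m v / 2 * 2 = m v := by omega
            exact_mod_cast this
          rw [hp]
          field_simp
          linarith
    choose m' hm'1 hm'2 using hm'
    set O1 : E := O + h • ∑ v, (if m v % 2 = 1 then ε v else 0) • l v with hO1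
    obtain ⟨Y, hY, hPhi⟩ := ih m' hm'1 O1
    refine ⟨Y, hY, ?_⟩
    have hsame : O + ∑ v, (Y v - (m v : ℝ) / 2 ^ (n + 1)) • l v
        = O1 + ∑ v, (Y v - (m' v : ℝ) / 2 ^ n) • l v := by
      rw [hO1, Finset.smul_sum, add_assoc, ← Finset.sum_add_distrib]
      congr 1
      refine Finset.sum_congr rfl fun v _ => ?_
      rw [hm'2 v, smul_smul, ← add_smul]
      congr 1
      ring
    rw [hsame]
    exact hPhi.trans hstep

/-- From dyadic to real fractions. -/
theorem round_abs {ι : Type} [Fintype ι] (l : ι → E) (hl : ∀ v, ‖l v‖ ≤ 1)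
    (Φ : ℕ → E → ℝ)
    (hadm : ∀ n O, Adm (fun z : E => Φ n (O + (((1 / 2 : ℝ) ^ (n + 1)) * (10 / 3)) • z)))
    (hint : ∀ n O, ∫ z, Φ n (O + (((1 / 2 : ℝ) ^ (n + 1)) * (10 / 3)) • z) ∂(stdGaussian E)
      ≤ Φ (n + 1) O)
    (hcont : Continuous (Φ 0)) (Bd : ℝ) (hBd : ∀ n, Φ n 0 ≤ Bd)
    (y : ι → ℝ) (hy : ∀ v, 0 ≤ y v ∧ y v ≤ 1) :
    ∃ Y : ι → ℝ, (∀ v, Y v = 0 ∨ Y v = 1) ∧ Φ 0 (∑ v, (Y v - y v) • l v) ≤ Bd := by
  classical
  let m : ℕ → ι → ℕ := fun n v => ⌊y v * 2 ^ n⌋₊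
  have hm : ∀ n v, m n v ≤ 2 ^ n := by
    intro n v
    have hpow : (0 : ℝ) < 2 ^ n := by positivity
    have h1 : (m n v : ℝ) ≤ y v * 2 ^ n :=
      Nat.floor_le (mul_nonneg (hy v).1 hpow.le)
    have h2 : (m n v : ℝ) ≤ 2 ^ n := by nlinarith [(hy v).2]
    exact_mod_cast h2
  have hlim : ∀ v, Filter.Tendsto (fun n : ℕ => (m n v : ℝ) / 2 ^ n) Filter.atTop (nhds (y v)) := by
    intro v
    have hsq : Filter.Tendsto (fun n : ℕ => ((1 / 2 : ℝ)) ^ n) Filter.atTop (nhds 0) :=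
      tendsto_pow_atTop_nhds_zero_of_lt_one (by norm_num) (by norm_num)
    have hlo : Filter.Tendsto (fun n : ℕ => y v - (1 / 2 : ℝ) ^ n) Filter.atTop (nhds (y v)) := by
      simpa using (tendsto_const_nhds (x := y v)).sub hsq
    refine tendsto_of_tendsto_of_tendsto_of_le_of_le hlo tendsto_const_nhds ?_ ?_
    · intro n
      have hpow : (0 : ℝ) < 2 ^ n := by positivity
      have h2 : y v * 2 ^ n < (m n v : ℝ) + 1 := Nat.lt_floor_add_one _
      have e : (1 / 2 : ℝ) ^ n = 1 / 2 ^ n := by rw [one_div_pow]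
      simp only
      rw [e, sub_le_iff_le_add]
      have h3 : (m n v : ℝ) / 2 ^ n + 1 / 2 ^ n = ((m n v : ℝ) + 1) / 2 ^ n := by ring
      rw [h3, le_div_iff₀ hpow]
      exact h2.le
    · intro n
      have hpow : (0 : ℝ) < 2 ^ n := by positivity
      have h1 : (m n v : ℝ) ≤ y v * 2 ^ n :=
        Nat.floor_le (mul_nonneg (hy v).1 hpow.le)
      simp only
      rw [div_le_iff₀ hpow]
      exact h1
  have hEach : ∀ n : ℕ, ∃ Y : ι → Fin 2,
      Φ 0 (∑ v, (((Y v : ℕ) : ℝ) - (m n v : ℝ) / 2 ^ n) • l v) ≤ Bd := by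
    intro n
    obtain ⟨Y, hY, hb1⟩ := dyadic_round_abs l hl Φ hadm hint n (m n) (hm n) (0 : E)
    have hYv : ∀ v, ∃ c : Fin 2, Y v = ((c : ℕ) : ℝ) := by
      intro v
      rcases hY v with h | h
      · exact ⟨0, by simp [h]⟩
      · exact ⟨1, by simp [h]⟩
    choose c hc using hYv
    refine ⟨c, ?_⟩
    simp only [zero_add] at hb1
    have e : ∀ v, (((c v : ℕ) : ℝ) - (m n v : ℝ) / 2 ^ n) = Y v - (m n v : ℝ) / 2 ^ n := by
      intro v
      rw [hc v]
    simp only [e]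
    exact hb1.trans (hBd n)
  choose Yn hYn using hEach
  obtain ⟨Y, hinf⟩ := Finite.exists_infinite_fiber Yn
  have hfreq : ∃ᶠ n in Filter.atTop, Yn n = Y := by
    rw [Nat.frequently_atTop_iff_infinite]
    exact Set.infinite_coe_iff.mp hinf
  refine ⟨fun v => ((Y v : ℕ) : ℝ), fun v => ?_, ?_⟩
  · have : (Y v : ℕ) = 0 ∨ (Y v : ℕ) = 1 := by omega
    rcases this with h | h
    · left; simp [h]
    · right; simp [h]
  · have hO : Filter.Tendsto (fun n : ℕ => ∑ v, (((Y v : ℕ) : ℝ) - (m n v : ℝ) / 2 ^ n) • l v)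
        Filter.atTop (nhds (∑ v, (((Y v : ℕ) : ℝ) - y v) • l v)) := by
      refine tendsto_finsetSum _ fun v _ => ?_
      exact (tendsto_const_nhds.sub (hlim v)).smul_const _
    have hcont2 := hcont.continuousAt.tendsto.comp hO
    by_contra hcon
    push Not at hcon
    have hev := hcont2.eventually (lt_mem_nhds hcon)
    obtain ⟨n, hn1, hn2⟩ := (hfreq.and_eventually hev).exists
    have := hYn n
    rw [hn1] at this
    simp only [Function.comp] at hn2
    linarith

end Abstract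

/-! ## Concrete rounding -/

/-- Fractional rounding for a family of diagonal exponential-quadratic tests. -/
theorem heat_round {ι 𝒯 : Type} [Fintype ι] [Fintype 𝒯] (l : ι → EuclideanSpace ℝ I)
    (hl : ∀ v, ‖l v‖ ≤ 1) (y : ι → ℝ) (hy : ∀ v, 0 ≤ y v ∧ y v ≤ 1)
    (w : 𝒯 → ℝ) (hw : ∀ τ, 0 ≤ w τ) (μ c : 𝒯 → I → ℝ) (hμ : ∀ τ i, 0 ≤ μ τ i)
    (hμ1 : ∀ τ i, μ τ i * (1600 / 9) ≤ 1 / 4) :
    ∃ Y : ι → ℝ, (∀ v, Y v = 0 ∨ Y v = 1) ∧
      ∑ τ, w τ * Real.exp (∑ i, μ τ i * (c τ i + (∑ v, (Y v - y v) • l v) i) ^ 2)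
        ≤ ∑ τ, w τ * Real.exp (∑ i, (2 * (1600 / 9) * μ τ i
            + μ τ i * (1 + 4 * (1600 / 9) * μ τ i) * c τ i ^ 2)) := by
  classical
  -- the times
  let A : ℕ → ℝ := fun n => 100 / 9 * Ax n
  have hA0 : ∀ n, 0 ≤ A n := fun n => mul_nonneg (by norm_num) (Ax_nonneg n)
  have hA1 : ∀ n, A n ≤ 100 / 27 := fun n => by
    have := Ax_le n
    simp only [A]
    linarith
  have hAs : ∀ n, A (n + 1) = A n + (((1 / 2 : ℝ) ^ (n + 1)) * (10 / 3)) ^ 2 := by
    intro n
    simp only [A]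
    rw [Ax_succ]
    ring
  have hsm : ∀ τ i n, 2 * μ τ i * A n < 1 := by
    intro τ i n
    have h1 := hμ1 τ i
    have h0 := hμ τ i
    have h2 := hA1 n
    have h3 : μ τ i ≤ 9 / 6400 := by linarith
    nlinarith [hA0 n]
  let Φ : ℕ → EuclideanSpace ℝ I → ℝ := fun n x => ∑ τ, w τ * Vq (μ τ) (c τ) (A n) x
  have hadm : ∀ n O, Adm (fun z : EuclideanSpace ℝ I =>
      Φ n (O + (((1 / 2 : ℝ) ^ (n + 1)) * (10 / 3)) • z)) := by
    intro n O
    refine Adm_sum _ _ fun τ _ => ?_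
    refine (Vq_adm _ _ _ _ _ (hμ τ) ?_ (fun i => hsm τ i n)).smul (hw τ)
    intro i
    rw [← hAs]
    exact hsm τ i (n + 1)
  have hint : ∀ n O, ∫ z, Φ n (O + (((1 / 2 : ℝ) ^ (n + 1)) * (10 / 3)) • z)
      ∂(stdGaussian (EuclideanSpace ℝ I)) ≤ Φ (n + 1) O := by
    intro n O
    have hi : ∀ τ, Integrable (fun z => w τ * Vq (μ τ) (c τ) (A n)
        (O + (((1 / 2 : ℝ) ^ (n + 1)) * (10 / 3)) • z)) (stdGaussian (EuclideanSpace ℝ I)) := by
      intro τ
      refine (Vq_integral _ _ _ _ _ ?_ (fun i => hsm τ i n)).1.const_mul _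
      intro i
      rw [← hAs]
      exact hsm τ i (n + 1)
    simp only [Φ]
    rw [integral_finsetSum _ fun τ _ => hi τ]
    refine le_of_eq (Finset.sum_congr rfl fun τ _ => ?_)
    rw [integral_const_mul, (Vq_integral _ _ _ _ _ ?_ (fun i => hsm τ i n)).2, ← hAs]
    intro i
    rw [← hAs]
    exact hsm τ i (n + 1)
  have hcont : Continuous (Φ 0) := by
    simp only [Φ]
    refine continuous_finsetSum _ fun τ _ => ?_
    exact continuous_const.mul (Vq_continuous _ _ _)
  have hBd : ∀ n, Φ n 0 ≤ ∑ τ, w τ * Real.exp (∑ i, (2 * (1600 / 9) * μ τ i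
            + μ τ i * (1 + 4 * (1600 / 9) * μ τ i) * c τ i ^ 2)) := by
    intro n
    refine Finset.sum_le_sum fun τ _ => mul_le_mul_of_nonneg_left ?_ (hw τ)
    rw [Real.exp_sum]
    refine Finset.prod_le_prod (fun i _ => (gq_pos _ _ _ _ (hsm τ i n)).le) fun i _ => ?_
    have h := gq_zero_le (μ τ i) (c τ i) (A n) (1600 / 9) (hμ τ i) (hA0 n)
      (by have := hA1 n; linarith) (hμ1 τ i)
    simpa using h
  obtain ⟨Y, hY, hbd⟩ := round_abs l hl Φ hadm hint hcont _ hBd y hy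
  refine ⟨Y, hY, le_trans (le_of_eq ?_) hbd⟩
  refine Finset.sum_congr rfl fun τ _ => ?_
  congr 1
  simp only [Vq, A, Ax_zero, mul_zero, gq_zero]
  rw [Real.exp_sum]

end Vale.Agent.P262S
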