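import Vale.Agent.P262.FBMain
import Vale.Agent.P262.FBOrder
import Vale.Agent.P262S.GaussQuad
import Vale.Agent.P262S.GaussQ

/-!
# Two rounding theorems with diagonal exponential-quadratic tests (see notes/P262_sqrtd.md, section 0)
-/

open Finset

namespace Vale.Agent.P262S

variable {I : Type} [Fintype I]

/-- A test: the diagonal quadratic form `∑ μ i (c i + x i)²`. -/
structure QT (I : Type) where
  μ : I → ℝ
  c : I → ℝ
  hμ0 : ∀ i, 0 ≤ μ i
  hμ1 : ∀ i, μ i * (1600 / 9) ≤ 1 / 4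

/-- The value of a test. -/
noncomputable def QT.val (t : QT I) (x : I → ℝ) : ℝ := ∑ i, t.μ i * (t.c i + x i) ^ 2

/-- The upper bound for the logarithm of the Gaussian mean of the exponential of a test. -/
noncomputable def QT.Psi (t : QT I) : ℝ :=
  ∑ i, (2 * (1600 / 9) * t.μ i + t.μ i * (1 + 4 * (1600 / 9) * t.μ i) * t.c i ^ 2)

/-- **Fractional rounding.** -/
theorem round_frac {V 𝒯 : Type} [Fintype 𝒯] (B : Finset V)
    (l : V → I → ℝ) (hl : ∀ v ∈ B, ∑ i, l v i ^ 2 ≤ 1)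
    (y : V → ℝ) (hy : ∀ v ∈ B, 0 ≤ y v ∧ y v ≤ 1)
    (t : 𝒯 → QT I) (π : 𝒯 → ℝ) (hπ : ∀ τ, 0 < π τ) (hπ1 : ∑ τ, π τ ≤ 1) :
    ∃ Y : V → ℝ, (∀ v, Y v = 0 ∨ Y v = 1) ∧
      ∀ τ, (t τ).val (fun i => ∑ v ∈ B, (Y v - y v) * l v i) ≤ (t τ).Psi + Real.log (1 / π τ) := by
  classical
  let l' : {v // v ∈ B} → EuclideanSpace ℝ I := fun v => WithLp.toLp 2 (l v.1)
  have hl' : ∀ v, ‖l' v‖ ≤ 1 := by
    intro v
    rw [EuclideanSpace.norm_eq]
    refine Real.sqrt_le_one.mpr ?_ |>.trans_eq (by simp)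
    simpa [l', sq_abs] using hl v.1 v.2
  obtain ⟨Y', hY', hbd⟩ := heat_round l' hl' (fun v => y v.1) (fun v => hy v.1 v.2)
    (fun τ => π τ * Real.exp (-(t τ).Psi))
    (fun τ => mul_nonneg (hπ τ).le (Real.exp_pos _).le)
    (fun τ => (t τ).μ) (fun τ => (t τ).c) (fun τ => (t τ).hμ0) (fun τ => (t τ).hμ1)
  refine ⟨fun v => if h : v ∈ B then Y' ⟨v, h⟩ else 0, fun v => ?_, fun τ => ?_⟩
  · by_cases h : v ∈ B
    · simpa [h] using hY' ⟨v, h⟩
    · simp [h]
  · have hO : ∀ i, (∑ v, (Y' v - y v.1) • l' v) i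
        = ∑ v ∈ B, ((if h : v ∈ B then Y' ⟨v, h⟩ else 0) - y v) * l v i := by
      intro i
      rw [← Finset.sum_coe_sort B]
      simp [l', WithLp.ofLp_sum]
    have hval : (t τ).val (fun i => ∑ v ∈ B, ((if h : v ∈ B then Y' ⟨v, h⟩ else 0) - y v) * l v i)
        = ∑ i, (t τ).μ i * ((t τ).c i + (∑ v, (Y' v - y v.1) • l' v) i) ^ 2 := by
      unfold QT.val
      refine Finset.sum_congr rfl fun i _ => ?_
      rw [hO]
    rw [hval]
    set V : ℝ := ∑ i, (t τ).μ i * ((t τ).c i + (∑ v, (Y' v - y v.1) • l' v) i) ^ 2 with hV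
    have hR : ∑ τ, π τ * Real.exp (-(t τ).Psi) * Real.exp (∑ i, (2 * (1600 / 9) * (t τ).μ i
            + (t τ).μ i * (1 + 4 * (1600 / 9) * (t τ).μ i) * (t τ).c i ^ 2)) ≤ 1 := by
      refine le_trans (le_of_eq ?_) hπ1
      refine Finset.sum_congr rfl fun τ _ => ?_
      have : (∑ i, (2 * (1600 / 9) * (t τ).μ i
            + (t τ).μ i * (1 + 4 * (1600 / 9) * (t τ).μ i) * (t τ).c i ^ 2)) = (t τ).Psi := rfl
      rw [this, mul_assoc, ← Real.exp_add]
      simp
    have hsingle : π τ * Real.exp (-(t τ).Psi) * Real.exp V ≤ 1 := by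
      refine le_trans ?_ (hbd.trans hR)
      exact Finset.single_le_sum (f := fun τ => π τ * Real.exp (-(t τ).Psi)
        * Real.exp (∑ i, (t τ).μ i * ((t τ).c i + (∑ v, (Y' v - y v.1) • l' v) i) ^ 2))
        (fun τ _ => mul_nonneg (mul_nonneg (hπ τ).le (Real.exp_pos _).le) (Real.exp_pos _).le)
        (Finset.mem_univ τ)
    have hlog : Real.log (π τ * Real.exp (-(t τ).Psi) * Real.exp V) ≤ 0 :=
      Real.log_nonpos (by positivity [hπ τ]) hsingle
    have hπτ := hπ τ
    rw [Real.log_mul (by positivity) (by positivity), Real.log_mul (by positivity) (by positivity),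
      Real.log_exp, Real.log_exp] at hlog
    rw [one_div, Real.log_inv]
    linarith

lemma QT.Psi_eq (t : QT I) :
    t.Psi = ∑ i, (2 * (1600 / 9) * t.μ i + t.μ i * (1 + 4 * (1600 / 9) * t.μ i) * t.c i ^ 2) := rfl

lemma QT.hlt (t : QT I) (A s : ℝ) (hAs : A + s ^ 2 ≤ 1600 / 9) (i : I) : t.μ i * (A + s ^ 2) < 1 / 2 := by
  have h1 := t.hμ1 i
  have h2 := mul_le_mul_of_nonneg_left hAs (t.hμ0 i)
  linarith

open MeasureTheory ProbabilityTheory in
open Vale.Agent.P262.FB Vale.Agent.P262V in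
/-- The weighted family is admissible and satisfies the heat flow inequality. -/
lemma fam_props {𝒯 : Type} [Fintype 𝒯] [DecidableEq I] (t : 𝒯 → QT I) (W : 𝒯 → ℝ) (hW : ∀ τ, 0 ≤ W τ)
    (A s : ℝ) (O : EuclideanSpace ℝ I) (hA : 0 ≤ A) (hAs : A + s ^ 2 ≤ 1600 / 9) :
    (Adm fun z : EuclideanSpace ℝ I => ∑ τ, W τ * VF (t τ).μ (t τ).c A (O + s • z)) ∧
    ∫ z : EuclideanSpace ℝ I, ∑ τ, W τ * VF (t τ).μ (t τ).c A (O + s • z) ∂(stdGaussian _)
      = ∑ τ, W τ * VF (t τ).μ (t τ).c (A + s ^ 2) O := by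
  constructor
  · exact Adm_sum _ _ fun τ _ =>
      (VF_adm _ _ A s O (t τ).hμ0 hA fun i => (t τ).hlt A s hAs i).smul (hW τ)
  · rw [integral_finsetSum _ fun τ _ =>
      ((VF_integral (t τ).μ (t τ).c A s O (t τ).hμ0 hA fun i => (t τ).hlt A s hAs i).1).const_mul _]
    refine Finset.sum_congr rfl fun τ _ => ?_
    rw [integral_const_mul, (VF_integral (t τ).μ (t τ).c A s O (t τ).hμ0 hA
      fun i => (t τ).hlt A s hAs i).2]

lemma VF_origin_le (t : QT I) (A : ℝ) (hA : 0 ≤ A) (hAκ : A ≤ 1600 / 9) :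
    VF t.μ t.c A 0 ≤ Real.exp t.Psi := by
  classical
  refine VF_origin_bound t.μ t.c A (1600 / 9) t.hμ0 hA hAκ fun i => ?_
  exact t.hμ1 i

/-- The total mass of the weights at the origin. -/
lemma fam_origin {𝒯 : Type} [Fintype 𝒯] (t : 𝒯 → QT I) (π : 𝒯 → ℝ) (hπ : ∀ τ, 0 < π τ)
    (hπ1 : ∑ τ, π τ ≤ 1) (A : ℝ) (hA : 0 ≤ A) (hAκ : A ≤ 1600 / 9) :
    ∑ τ, π τ * Real.exp (-(t τ).Psi) * VF (t τ).μ (t τ).c A 0 ≤ 1 := by
  refine le_trans (Finset.sum_le_sum fun τ _ => ?_) hπ1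
  have h := VF_origin_le (t τ) A hA hAκ
  have hp : 0 < π τ * Real.exp (-(t τ).Psi) := mul_pos (hπ τ) (Real.exp_pos _)
  calc _ ≤ π τ * Real.exp (-(t τ).Psi) * Real.exp (t τ).Psi :=
        mul_le_mul_of_nonneg_left h hp.le
    _ = π τ := by rw [mul_assoc, ← Real.exp_add]; simp

/-- Extraction of a single bound from the weighted sum. -/
lemma fam_extract {𝒯 : Type} [Fintype 𝒯] (t : 𝒯 → QT I) (π : 𝒯 → ℝ) (hπ : ∀ τ, 0 < π τ) (τ : 𝒯)
    (x : I → ℝ) (Bd : ℝ) (hBd : 0 < Bd)
    (h : π τ * Real.exp (-(t τ).Psi) * Real.exp ((t τ).val x) ≤ Bd) :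
    (t τ).val x ≤ (t τ).Psi + Real.log (Bd / π τ) := by
  have h1 : Real.exp ((t τ).val x) ≤ Bd / π τ * Real.exp (t τ).Psi := by
    have hp := hπ τ
    have e : π τ * Real.exp (-(t τ).Psi) * Real.exp ((t τ).val x)
        = π τ * (Real.exp ((t τ).val x) * Real.exp (-(t τ).Psi)) := by ring
    rw [e] at h
    have h2 : Real.exp ((t τ).val x) * Real.exp (-(t τ).Psi) ≤ Bd / π τ := by
      rw [le_div_iff₀ hp]; linarith
    have h3 : Real.exp (-(t τ).Psi) * Real.exp (t τ).Psi = 1 := by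
      rw [← Real.exp_add]; simp
    calc Real.exp ((t τ).val x)
        = Real.exp ((t τ).val x) * Real.exp (-(t τ).Psi) * Real.exp (t τ).Psi := by
          rw [mul_assoc, h3, mul_one]
      _ ≤ _ := mul_le_mul_of_nonneg_right h2 (Real.exp_pos _).le
  have hpos : 0 < Bd / π τ := div_pos hBd (hπ τ)
  have h4 := Real.log_le_log (Real.exp_pos _) h1
  rw [Real.log_exp, Real.log_mul hpos.ne' (Real.exp_pos _).ne', Real.log_exp] at h4
  linarith

section rotate

variable {E : Type*} [AddCommGroup E]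

/-- Rotation of an order: all cuts of one rotation are good. -/
theorem rotate_cuts (G : E → ℝ) (hG0 : ∀ x, 0 ≤ G x) (n : ℕ) (hn : 0 < n) (v : Fin n → E)
    (hv0 : ∑ i, v i = 0) (C : ℝ) (hC : ∑ k : Fin n, G (∑ i ∈ Finset.Iic k, v i) ≤ C)
    (K : ℕ) (hK : 1 ≤ K) :
    ∃ (ρ : Equiv.Perm (Fin n)) (A : E), G A ≤ K * C / n ∧ ∀ s ≤ K,
      G (A + ∑ i ∈ Finset.univ.filter (fun i : Fin n => i.val < s * n / K), v (ρ i)) ≤ K * C / n := by
  classical
  have hnR : (0 : ℝ) < n := by exact_mod_cast hn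
  let w : ℕ → E := fun t => v ⟨t % n, Nat.mod_lt _ hn⟩
  let S : ℕ → E := fun t => ∑ i ∈ Finset.range t, w i
  let c : ℕ → ℝ := fun t => G (S t)
  have hwF : ∀ i : Fin n, w i = v i := by
    intro i
    simp only [w]
    congr 1
    exact Fin.ext (Nat.mod_eq_of_lt i.2)
  have hSn : S n = 0 := by
    simp only [S]
    rw [Finset.sum_range]
    simp only [hwF]
    exact hv0
  have hwper : ∀ i, w (n + i) = w i := by
    intro i
    simp only [w]
    congr 2
    simp
  have hSper : ∀ t, S (n + t) = S t := by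
    intro t
    simp only [S]
    rw [Finset.sum_range_add]
    have : ∑ i ∈ Finset.range n, w i = 0 := hSn
    rw [this, zero_add]
    exact Finset.sum_congr rfl fun i _ => hwper i
  have hcper : ∀ t, c (n + t) = c t := fun t => by simp only [c, hSper]
  let W : ℕ → ℝ := fun a => ∑ r ∈ Finset.range n, c (r + a)
  have hWstep : ∀ a, W (a + 1) = W a := by
    intro a
    simp only [W]
    have h1 := Finset.sum_range_succ (fun r => c (r + a)) n
    have h2 := Finset.sum_range_succ' (fun r => c (r + a)) n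
    have h3 : ∀ r, c (r + 1 + a) = c (r + (a + 1)) := fun r => by
      congr 1; ring
    simp only [h3, zero_add] at h2
    rw [h1, hcper a] at h2
    linarith
  have hWconst : ∀ a, W a = W 1 := by
    have up : ∀ a, W (a + 1) = W 1 := by
      intro a
      induction a with
      | zero => rfl
      | succ a ih => rw [hWstep, ih]
    intro a
    cases a with
    | zero => rw [← hWstep 0]
    | succ a => exact up a
  have hW1 : W 1 ≤ C := by
    refine le_trans (le_of_eq ?_) hC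
    simp only [W, c]
    rw [Finset.sum_range]
    refine Finset.sum_congr rfl fun k _ => ?_
    congr 1
    simp only [S]
    refine (Finset.sum_bij (fun (i : Fin n) _ => (i : ℕ)) ?_ ?_ ?_ ?_).symm
    · intro i hi
      have : i ≤ k := Finset.mem_Iic.mp hi
      exact Finset.mem_range.mpr (Nat.lt_succ_of_le this)
    · intro a _ b _ hab
      exact Fin.ext hab
    · intro b hb
      have hb' : b < (k : ℕ) + 1 := Finset.mem_range.mp hb
      have hbn : b < n := lt_of_le_of_lt (Nat.le_of_lt_succ hb') k.2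
      exact ⟨⟨b, hbn⟩, Finset.mem_Iic.mpr (Nat.le_of_lt_succ hb'), rfl⟩
    · intro i _
      exact (hwF i).symm
  let e : ℕ → ℕ := fun j => j * n / K
  have htotal : ∑ r ∈ Finset.range n, ∑ j ∈ Finset.range K, c (r + e j) ≤ K * C := by
    rw [Finset.sum_comm]
    calc ∑ j ∈ Finset.range K, ∑ r ∈ Finset.range n, c (r + e j)
        = ∑ j ∈ Finset.range K, W 1 := Finset.sum_congr rfl fun j _ => hWconst (e j)
      _ = K * W 1 := by simp
      _ ≤ K * C := by gcongr
  obtain ⟨r, hr, hrle⟩ : ∃ r ∈ Finset.range n,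
      ∑ j ∈ Finset.range K, c (r + e j) ≤ (K * C / n : ℝ) := by
    apply Finset.exists_le_of_sum_le (Finset.nonempty_range_iff.mpr hn.ne')
    rw [Finset.sum_const, Finset.card_range, nsmul_eq_mul]
    calc _ ≤ (K * C : ℝ) := htotal
      _ = _ := by field_simp
  have hrn : r < n := Finset.mem_range.mp hr
  have hcnn : ∀ t, 0 ≤ c t := fun t => hG0 _
  have hsingle : ∀ j ∈ Finset.range K, c (r + e j) ≤ K * C / n := fun j hj =>
    (Finset.single_le_sum (f := fun j => c (r + e j)) (fun j _ => hcnn _) hj).trans hrle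
  have he0 : e 0 = 0 := by simp [e]
  have heK : e K = n := by
    simp only [e]
    exact Nat.mul_div_cancel_left n (by omega)
  have hcr : c r ≤ K * C / n := by
    have := hsingle 0 (Finset.mem_range.mpr (by omega))
    rwa [he0, add_zero] at this
  have hall : ∀ s ≤ K, c (r + e s) ≤ K * C / n := by
    intro s hs
    rcases Nat.lt_or_ge s K with h | h
    · exact hsingle s (Finset.mem_range.mpr h)
    · have hsK : s = K := le_antisymm hs h
      rw [hsK, heK, add_comm]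
      rw [hcper]
      exact hcr
  -- the rotation
  let f : Fin n → Fin n := fun i => ⟨(r + i) % n, Nat.mod_lt _ hn⟩
  have hfinj : Function.Injective f := by
    intro i j hij
    have h1 : (r + i) % n = (r + j) % n := congrArg Fin.val hij
    have h2 : (i : ℕ) ≡ j [MOD n] := Nat.ModEq.add_left_cancel' r h1
    exact Fin.ext (Nat.ModEq.eq_of_lt_of_lt h2 i.2 j.2)
  let ρ : Equiv.Perm (Fin n) := Equiv.ofBijective f (Finite.injective_iff_bijective.mp hfinj)
  have hρ : ∀ i, ρ i = f i := fun i => rfl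
  refine ⟨ρ, S r, hcr, fun s hs => ?_⟩
  have hes : e s ≤ n := by
    simp only [e]
    exact Nat.div_le_of_le_mul (Nat.mul_le_mul_right n hs)
  have hsum : S r + ∑ i ∈ Finset.univ.filter (fun i : Fin n => i.val < s * n / K), v (ρ i)
      = S (r + e s) := by
    simp only [S]
    rw [Finset.sum_range_add]
    congr 1
    rw [Finset.sum_filter]
    have h1 : ∑ i : Fin n, (if i.val < s * n / K then v (ρ i) else 0)
        = ∑ i ∈ Finset.range n, (if i < e s then w (r + i) else 0) := by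
      rw [Finset.sum_range]
      refine Finset.sum_congr rfl fun i _ => ?_
      rfl
    rw [h1, ← Finset.sum_filter]
    apply Finset.sum_congr
    · ext i
      simp only [Finset.mem_filter, Finset.mem_range]
      omega
    · intro i _
      rfl
  rw [hsum]
  exact hall s hs

end rotate

/-- **Rough split**: an exact `K`-way split, with cut sizes `⌊s n / K⌋`, all cuts being good for
all tests, with overhead `2 K`. -/
theorem rough_split {V 𝒯 : Type} [DecidableEq V] [Fintype 𝒯] (B : Finset V)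
    (l : V → I → ℝ) (hl : ∀ v ∈ B, ∑ i, l v i ^ 2 ≤ 1) (K : ℕ) (hK : 1 ≤ K)
    (t : 𝒯 → QT I) (π : 𝒯 → ℝ) (hπ : ∀ τ, 0 < π τ) (hπ1 : ∑ τ, π τ ≤ 1) :
    ∃ sub : V → ℕ, (∀ v, sub v < K) ∧
      (∀ s ≤ K, (B.filter fun v => sub v < s).card = s * B.card / K) ∧
      ∀ s ≤ K, ∀ τ, ∀ σ : ℝ, (σ = 1 ∨ σ = -1) →
        (t τ).val (fun i => σ * (∑ v ∈ B.filter (fun v => sub v < s), l v i
            - (((s * B.card / K : ℕ) : ℝ) / (B.card : ℝ)) * ∑ v ∈ B, l v i))
          ≤ (t τ).Psi + Real.log (2 * K / π τ) := by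
  classical
  have hπle : ∀ τ, π τ ≤ 1 := fun τ =>
    (Finset.single_le_sum (f := π) (fun τ _ => (hπ τ).le) (Finset.mem_univ τ)).trans hπ1
  have hKR : (1 : ℝ) ≤ K := by exact_mod_cast hK
  rcases Nat.eq_zero_or_pos B.card with hn0 | hn
  · -- the empty case
    have hB : B = ∅ := Finset.card_eq_zero.mp hn0
    subst hB
    refine ⟨fun _ => 0, fun _ => (by omega : 0 < K), fun s _ => by simp, fun s _ τ σ _ => ?_⟩
    have hlog : 0 ≤ Real.log (2 * K / π τ) := by
      apply Real.log_nonneg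
      rw [le_div_iff₀ (hπ τ)]
      have := hπle τ
      nlinarith
    have hval : (t τ).val (fun i => σ * (∑ v ∈ (∅ : Finset V).filter (fun v => (0 : ℕ) < s), l v i
        - (((s * (∅ : Finset V).card / K : ℕ) : ℝ) / ((∅ : Finset V).card : ℝ))
          * ∑ v ∈ (∅ : Finset V), l v i)) ≤ (t τ).Psi := by
      unfold QT.val QT.Psi
      refine Finset.sum_le_sum fun i _ => ?_
      simp only [Finset.filter_empty, Finset.sum_empty, mul_zero, sub_zero, add_zero]
      have h0 := (t τ).hμ0 i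
      have hc := sq_nonneg ((t τ).c i)
      have : 0 ≤ (t τ).μ i * (4 * (1600 / 9) * (t τ).μ i) * (t τ).c i ^ 2 := by positivity
      nlinarith
    linarith
  -- the main case
  set n := B.card with hndef
  have hnR : (0 : ℝ) < n := by exact_mod_cast hn
  let L : V → EuclideanSpace ℝ I := fun v => WithLp.toLp 2 (l v)
  have hL : ∀ v ∈ B, ‖L v‖ ≤ 1 := by
    intro v hv
    rw [EuclideanSpace.norm_eq]
    apply Real.sqrt_le_one.mpr
    simpa [L] using hl v hv
  let mean : EuclideanSpace ℝ I := (1 / (n : ℝ)) • ∑ v ∈ B, L v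
  have hmean : ‖mean‖ ≤ 1 := by
    simp only [mean]
    rw [norm_smul, Real.norm_eq_abs, abs_of_pos (by positivity)]
    have h1 : ‖∑ v ∈ B, L v‖ ≤ n := by
      calc ‖∑ v ∈ B, L v‖ ≤ ∑ v ∈ B, ‖L v‖ := norm_sum_le _ _
        _ ≤ ∑ _v ∈ B, (1 : ℝ) := Finset.sum_le_sum hL
        _ = n := by simp [hndef]
    rw [one_div, inv_mul_le_iff₀ hnR, mul_one]
    exact h1
  let eB : Fin n ≃ B := B.equivFin.symm
  let u : Fin n → EuclideanSpace ℝ I := fun i => (3 / 20 : ℝ) • (L (eB i) - mean)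
  have hu : ∀ i, ‖u i‖ ≤ 3 / 10 := by
    intro i
    simp only [u]
    rw [norm_smul, Real.norm_eq_abs, abs_of_pos (by norm_num)]
    have h1 : ‖L (eB i) - mean‖ ≤ 2 := by
      calc _ ≤ ‖L (eB i)‖ + ‖mean‖ := norm_sub_le _ _
        _ ≤ 1 + 1 := add_le_add (hL _ (eB i).2) hmean
        _ = 2 := by norm_num
    nlinarith
  have hsumB : ∀ (M : Type) [AddCommMonoid M] (F : V → M), ∑ i, F (eB i) = ∑ v ∈ B, F v := by
    intro M _ F
    rw [← Finset.sum_coe_sort B, Equiv.sum_comp eB (fun x : B => F x)]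
  have hu0 : ∑ i, u i = 0 := by
    simp only [u]
    rw [← Finset.smul_sum, Finset.sum_sub_distrib, hsumB, Finset.sum_const, Finset.card_univ,
      Fintype.card_fin]
    simp only [mean]
    rw [← Nat.cast_smul_eq_nsmul ℝ, smul_smul]
    have : (n : ℝ) * (1 / (n : ℝ)) = 1 := by field_simp
    rw [this, one_smul, sub_self, smul_zero]
  let W : 𝒯 → ℝ := fun τ => π τ * Real.exp (-(t τ).Psi)
  have hW : ∀ τ, 0 ≤ W τ := fun τ => (mul_pos (hπ τ) (Real.exp_pos _)).le
  let G : EuclideanSpace ℝ I → ℝ := fun x =>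
    (∑ τ, W τ * VF (t τ).μ (t τ).c 0 (0 + (40 / 3 : ℝ) • x))
      + ∑ τ, W τ * VF (t τ).μ (t τ).c 0 (0 + (-(40 / 3) : ℝ) • x)
  have hs1 : (0 : ℝ) + (40 / 3 : ℝ) ^ 2 ≤ 1600 / 9 := by norm_num
  have hs2 : (0 : ℝ) + (-(40 / 3) : ℝ) ^ 2 ≤ 1600 / 9 := by norm_num
  have hGadm : Vale.Agent.P262.FB.Adm G :=
    (fam_props t W hW 0 _ 0 le_rfl hs1).1.add (fam_props t W hW 0 _ 0 le_rfl hs2).1
  have hGint : ∫ z, G z ∂(ProbabilityTheory.stdGaussian (EuclideanSpace ℝ I)) ≤ 2 := by
    have h1 := (fam_props t W hW 0 _ 0 le_rfl hs1)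
    have h2 := (fam_props t W hW 0 _ 0 le_rfl hs2)
    have hi : ∫ z, G z ∂(ProbabilityTheory.stdGaussian (EuclideanSpace ℝ I))
        = ∑ τ, W τ * VF (t τ).μ (t τ).c (0 + (40 / 3 : ℝ) ^ 2) 0
          + ∑ τ, W τ * VF (t τ).μ (t τ).c (0 + (-(40 / 3) : ℝ) ^ 2) 0 := by
      simp only [G]
      rw [MeasureTheory.integral_add h1.1.integrable h2.1.integrable, h1.2, h2.2]
    rw [hi]
    have h3 := fam_origin t π hπ hπ1 (0 + (40 / 3 : ℝ) ^ 2) (by positivity) hs1
    have h4 := fam_origin t π hπ hπ1 (0 + (-(40 / 3) : ℝ) ^ 2) (by positivity) hs2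
    simp only [W]
    linarith
  have hGnn : ∀ x, 0 ≤ G x := hGadm.nonneg
  have hGmid : ∀ a b, G ((1 / 2 : ℝ) • (a + b)) ≤ 1 / 2 * G a + 1 / 2 * G b := by
    intro a b
    have := hGadm.convex.2 (Set.mem_univ a) (Set.mem_univ b) (by norm_num : (0:ℝ) ≤ 1 / 2)
      (by norm_num : (0:ℝ) ≤ 1 / 2) (by norm_num)
    simpa [smul_add] using this
  have hGev : ∀ x, G (-x) = G x := by
    intro x
    simp only [G]
    rw [add_comm]
    congr 1
    · refine Finset.sum_congr rfl fun τ _ => ?_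
      rw [smul_neg, neg_smul, neg_neg]
    · refine Finset.sum_congr rfl fun τ _ => ?_
      rw [smul_neg, neg_smul]
  obtain ⟨π0, hπ0⟩ := Vale.Agent.P262.FB.order_of_sign G hGmid hGev (Metric.closedBall 0 (3 / 10))
    (by simp; norm_num) (n * 2) (n := n)
    (by
      intro w hw
      have hw' : ∀ i, ‖w i‖ ≤ 3 / 10 := fun i => by simpa using hw i
      obtain ⟨ε, hε, hsum⟩ := Vale.Agent.P262.FB.fb_main w (fun _ => G) hw' (fun _ => hGadm) n
      refine ⟨ε, hε, hsum.trans ?_⟩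
      rw [Finset.sum_const, Finset.card_range, nsmul_eq_mul]
      exact mul_le_mul_of_nonneg_left hGint (by positivity))
    u (fun i => by simpa using hu i) hu0
  obtain ⟨ρ, A, hA, hcut⟩ := rotate_cuts G hGnn n hn (fun i => u (π0 i))
    (by rw [Equiv.sum_comp π0 u]; exact hu0) (n * 2) hπ0 K hK
  have hT : (K : ℝ) * (n * 2) / n = 2 * K := by field_simp
  rw [hT] at hA
  simp only [hT] at hcut
  let φ : Equiv.Perm (Fin n) := ρ.trans π0
  have hφ : ∀ i, φ i = π0 (ρ i) := fun i => rfl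
  let pos : V → ℕ := fun x => if h : x ∈ B then ((φ.symm (eB.symm ⟨x, h⟩) : Fin n) : ℕ) else 0
  have hposlt : ∀ x ∈ B, pos x < n := by
    intro x h
    simp only [pos, h, dif_pos]
    exact Fin.is_lt _
  have hposφ : ∀ i : Fin n, pos (eB (φ i)) = i := by
    intro i
    have h : ((eB (φ i)) : V) ∈ B := (eB (φ i)).2
    simp only [pos, h, dif_pos]
    simp
  let sub : V → ℕ := fun x => if x ∈ B then ((pos x + 1) * K - 1) / n else 0
  have hsubiff : ∀ x ∈ B, ∀ s : ℕ, sub x < s ↔ pos x < s * n / K := by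
    intro x hx s
    simp only [sub, hx, if_true]
    rw [Nat.div_lt_iff_lt_mul hn]
    have h1 : pos x < s * n / K ↔ pos x + 1 ≤ s * n / K := Nat.lt_iff_add_one_le
    rw [h1, Nat.le_div_iff_mul_le (by omega)]
    have h2 : 1 ≤ (pos x + 1) * K := Nat.mul_pos (by omega) (by omega)
    omega
  have hKne : K ≠ 0 := by omega
  have hsumF : ∀ (M : Type) [AddCommMonoid M] (F : V → M) (s : ℕ),
      ∑ v ∈ B.filter (fun v => sub v < s), F v
        = ∑ i ∈ Finset.univ.filter (fun i : Fin n => i.val < s * n / K), F (eB (φ i)) := by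
    intro M _ F s
    rw [Finset.sum_filter, Finset.sum_filter]
    rw [← Finset.sum_coe_sort B, ← Equiv.sum_comp (φ.trans eB)]
    refine Finset.sum_congr rfl fun i _ => ?_
    simp only [Equiv.trans_apply]
    have h : ((eB (φ i)) : V) ∈ B := (eB (φ i)).2
    have hiff := hsubiff _ h s
    rw [hposφ] at hiff
    by_cases hc : i.val < s * n / K
    · rw [if_pos hc]; exact if_pos (hiff.mpr hc)
    · rw [if_neg hc]; exact if_neg (fun h' => hc (hiff.mp h'))
  refine ⟨sub, ?_, ?_, ?_⟩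
  · intro v
    by_cases hv : v ∈ B
    · have := (hsubiff v hv K).mpr (by
        rw [Nat.mul_div_cancel_left n (by omega)]
        exact hposlt v hv)
      exact this
    · simp only [sub, hv, if_false]; omega
  · intro s hs
    have hes : s * n / K ≤ n := Nat.div_le_of_le_mul (Nat.mul_le_mul_right n hs)
    have h1 := hsumF ℕ (fun _ => 1) s
    simp only [Finset.sum_const, smul_eq_mul, mul_one] at h1
    rw [h1, Fin.card_filter_val_lt]
    exact min_eq_right hes
  · intro s hs τ σ hσ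
    -- the key vector
    set e : ℕ := s * n / K with he
    have hes : e ≤ n := Nat.div_le_of_le_mul (Nat.mul_le_mul_right n hs)
    have hcarde : (Finset.univ.filter (fun i : Fin n => i.val < e)).card = e := by
      rw [Fin.card_filter_val_lt]
      exact min_eq_right hes
    set P : EuclideanSpace ℝ I := ∑ i ∈ Finset.univ.filter (fun i : Fin n => i.val < e), u (π0 (ρ i))
      with hP
    set X : EuclideanSpace ℝ I := (∑ v ∈ B.filter (fun v => sub v < s), L v)
      - ((e : ℝ) / (n : ℝ)) • ∑ v ∈ B, L v with hX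
    have hPX : (20 / 3 : ℝ) • P = X := by
      rw [hP]
      simp only [u, ← hφ]
      rw [← Finset.smul_sum, smul_smul, Finset.sum_sub_distrib, ← hsumF _ L s, Finset.sum_const,
        hcarde]
      norm_num
      rw [hX]
      simp only [mean]
      rw [← Nat.cast_smul_eq_nsmul ℝ, smul_smul]
      congr 2
      ring
    have hmid : G ((1 / 2 : ℝ) • P) ≤ 2 * K := by
      have h1 := hGmid (A + P) (-A)
      have h2 : (1 / 2 : ℝ) • (A + P + -A) = (1 / 2 : ℝ) • P := by
        congr 1; abel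
      rw [h2, hGev] at h1
      have h3 := hcut s hs
      linarith
    have hPpos : (0 : EuclideanSpace ℝ I) + (40 / 3 : ℝ) • (1 / 2 : ℝ) • P = X := by
      rw [zero_add, smul_smul, ← hPX]
      norm_num
    have hPneg : (0 : EuclideanSpace ℝ I) + (-(40 / 3) : ℝ) • (1 / 2 : ℝ) • P = -X := by
      rw [zero_add, smul_smul, ← hPX, ← neg_smul]
      norm_num
    have hGval : G ((1 / 2 : ℝ) • P) = (∑ τ, W τ * VF (t τ).μ (t τ).c 0 X)
        + ∑ τ, W τ * VF (t τ).μ (t τ).c 0 (-X) := by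
      simp only [G]
      rw [hPpos, hPneg]
    have hfun : (fun i => σ * (∑ v ∈ B.filter (fun v => sub v < s), l v i
          - (((s * B.card / K : ℕ) : ℝ) / (B.card : ℝ)) * ∑ v ∈ B, l v i))
        = fun i => (σ • X) i := by
      funext i
      rw [hX]
      simp [L, e, he, hndef]
    rw [hfun]
    apply fam_extract t π hπ τ _ (2 * K) (by positivity)
    have hv : Real.exp ((t τ).val fun i => (σ • X) i) = VF (t τ).μ (t τ).c 0 (σ • X) := by
      rw [VF_zero]; rfl
    rw [hv]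
    change W τ * VF (t τ).μ (t τ).c 0 (σ • X) ≤ 2 * K
    have hterm1 : W τ * VF (t τ).μ (t τ).c 0 X ≤ G ((1 / 2 : ℝ) • P) := by
      rw [hGval]
      have h1 := Finset.single_le_sum (f := fun τ => W τ * VF (t τ).μ (t τ).c 0 X)
        (fun τ _ => mul_nonneg (hW τ) (VF_nonneg _ _ _ _)) (Finset.mem_univ τ)
      have h2 : 0 ≤ ∑ τ, W τ * VF (t τ).μ (t τ).c 0 (-X) :=
        Finset.sum_nonneg fun τ _ => mul_nonneg (hW τ) (VF_nonneg _ _ _ _)
      linarith
    have hterm2 : W τ * VF (t τ).μ (t τ).c 0 (-X) ≤ G ((1 / 2 : ℝ) • P) := by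
      rw [hGval]
      have h1 := Finset.single_le_sum (f := fun τ => W τ * VF (t τ).μ (t τ).c 0 (-X))
        (fun τ _ => mul_nonneg (hW τ) (VF_nonneg _ _ _ _)) (Finset.mem_univ τ)
      have h2 : 0 ≤ ∑ τ, W τ * VF (t τ).μ (t τ).c 0 X :=
        Finset.sum_nonneg fun τ _ => mul_nonneg (hW τ) (VF_nonneg _ _ _ _)
      linarith
    rcases hσ with h | h
    · rw [h, one_smul]
      exact hterm1.trans hmid
    · rw [h, neg_one_smul]
      exact hterm2.trans hmid

end Vale.Agent.P262S
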