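import Vale.Agent.P262S.Defs

/-! # Combinatorics of cuts and position functions for the level step of notes/P262_sqrtd.md. -/

open Finset

namespace Vale.Agent.P262S.LC

open Vale.Agent.P262S

variable {d : ℕ} {V : Type} [Fintype V] [DecidableEq V] {α : V → Fin d → ℝ}

lemma sm_union {A B : Finset V} (h : Disjoint A B) (i : Fin d) :
    sm α (A ∪ B) i = sm α A i + sm α B i := by
  unfold sm; exact Finset.sum_union h

lemma cut_eq_sm (pos : V → ℕ) (t : ℕ) (i : Fin d) :
    cut α pos t i = sm α (univ.filter fun v => pos v < t) i := by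
  unfold cut sm; rw [Finset.sum_filter]

lemma filter_lt_succ (pos : V → ℕ) (t : ℕ) :
    (univ.filter fun v => pos v < t + 1) = (univ.filter fun v => pos v < t) ∪ blk pos t := by
  ext v; simp [blk]; omega

lemma cut_succ (pos : V → ℕ) (t : ℕ) (i : Fin d) :
    cut α pos (t + 1) i = cut α pos t i + sm α (blk pos t) i := by
  rw [cut_eq_sm, cut_eq_sm, filter_lt_succ, sm_union]
  rw [Finset.disjoint_left]; intro v h1 h2; simp [blk] at h1 h2; omega

lemma cut_pred (pos : V → ℕ) {t : ℕ} (ht : 0 < t) (i : Fin d) :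
    cut α pos t i = cut α pos (t - 1) i + sm α (blk pos (t - 1)) i := by
  have := cut_succ (α := α) pos (t - 1) i
  rwa [Nat.sub_add_cancel ht] at this

lemma cut_zero (pos : V → ℕ) : cut α pos 0 = fun _ => 0 := by
  funext i; simp [cut]

lemma cut_top_eq {pos : V → ℕ} {F : ℕ} (hpos : ∀ v, pos v < F) {t : ℕ} (ht : F ≤ t) (i : Fin d) :
    cut α pos t i = ∑ v, α v i := by
  unfold cut
  exact Finset.sum_congr rfl fun v _ => by rw [if_pos ((hpos v).trans_le ht)]

lemma cut_top {pos : V → ℕ} {F : ℕ} (hpos : ∀ v, pos v < F) (h0 : ∀ i, ∑ v, α v i = 0) {t : ℕ}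
    (ht : F ≤ t) : cut α pos t = fun _ => 0 := by
  funext i
  rw [cut_top_eq hpos ht i, h0 i]

lemma blk_disjoint (pos : V → ℕ) {s t : ℕ} (h : s ≠ t) : Disjoint (blk pos s) (blk pos t) := by
  rw [Finset.disjoint_left]; intro v h1 h2; simp [blk] at h1 h2; omega

/-! ## Gluing the rough splits -/

/-- The position after rough splits: the piece `sub (pos v) v` of the block `pos v`. -/
def gluePos (pos : V → ℕ) (K : ℕ) (sub : ℕ → V → ℕ) (v : V) : ℕ := pos v * K + sub (pos v) v

lemma gluePos_lt_iff {pos : V → ℕ} {K : ℕ} {sub : ℕ → V → ℕ} (hsub : ∀ v, sub (pos v) v < K)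
    {t s : ℕ} (hs : s ≤ K) (v : V) :
    gluePos pos K sub v < t * K + s ↔ pos v < t ∨ (pos v = t ∧ sub t v < s) := by
  unfold gluePos
  rcases lt_trichotomy (pos v) t with h | h | h
  · have h1 : (pos v + 1) * K ≤ t * K := Nat.mul_le_mul_right K h
    have h2 : (pos v + 1) * K = pos v * K + K := by ring
    have h3 := hsub v
    constructor
    · intro _; exact Or.inl h
    · intro _; omega
  · subst h
    constructor
    · intro h'; exact Or.inr ⟨rfl, by omega⟩
    · rintro (h' | h')
      · omega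
      · omega
  · have h1 : (t + 1) * K ≤ pos v * K := Nat.mul_le_mul_right K h
    have h2 : (t + 1) * K = t * K + K := by ring
    constructor
    · intro h'; omega
    · rintro (h' | h')
      · omega
      · omega

lemma gluePos_lt {pos : V → ℕ} {K F : ℕ} {sub : ℕ → V → ℕ} (hsub : ∀ v, sub (pos v) v < K)
    (hpos : ∀ v, pos v < F) (v : V) : gluePos pos K sub v < F * K := by
  have := (gluePos_lt_iff hsub (t := F) (s := 0) (Nat.zero_le K) v).2 (Or.inl (hpos v))
  simpa using this

lemma blk_gluePos {pos : V → ℕ} {K : ℕ} {sub : ℕ → V → ℕ} (hsub : ∀ v, sub (pos v) v < K)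
    {t s : ℕ} (hs : s < K) :
    blk (gluePos pos K sub) (t * K + s) = (blk pos t).filter fun v => sub t v = s := by
  ext v
  have h1 := gluePos_lt_iff hsub (t := t) (s := s) hs.le v
  have h2 := gluePos_lt_iff hsub (t := t) (s := s + 1) hs v
  simp only [blk, mem_filter, mem_univ, true_and]
  rw [← add_assoc] at h2
  by_cases h : gluePos pos K sub v = t * K + s
  · have h3 : gluePos pos K sub v < t * K + s + 1 := by omega
    have h4 : ¬ gluePos pos K sub v < t * K + s := by omega
    have h5 := h2.1 h3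
    have h6 : ¬ (pos v < t ∨ (pos v = t ∧ sub t v < s)) := fun h' => h4 (h1.2 h')
    simp only [h, true_iff]
    omega
  · simp only [h, false_iff]
    rintro ⟨h3, h4⟩
    have h5 : gluePos pos K sub v < t * K + s + 1 := h2.2 (Or.inr ⟨h3, by omega⟩)
    have h6 : ¬ gluePos pos K sub v < t * K + s := by
      intro h'
      rcases h1.1 h' with h'' | h'' <;> omega
    omega

lemma filter_gluePos {pos : V → ℕ} {K : ℕ} {sub : ℕ → V → ℕ} (hsub : ∀ v, sub (pos v) v < K)
    {t s : ℕ} (hs : s ≤ K) :
    (univ.filter fun v => gluePos pos K sub v < t * K + s)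
      = (univ.filter fun v => pos v < t) ∪ ((blk pos t).filter fun v => sub t v < s) := by
  ext v
  have h1 := gluePos_lt_iff hsub (t := t) (s := s) hs v
  simp only [blk, mem_filter, mem_univ, true_and, mem_union]
  exact h1

lemma cut_gluePos {pos : V → ℕ} {K : ℕ} {sub : ℕ → V → ℕ} (hsub : ∀ v, sub (pos v) v < K)
    {t s : ℕ} (hs : s ≤ K) :
    cut α (gluePos pos K sub) (t * K + s)
      = fun i => cut α pos t i + sm α ((blk pos t).filter fun v => sub t v < s) i := by
  funext i
  rw [cut_eq_sm, filter_gluePos hsub hs, sm_union, ← cut_eq_sm]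
  rw [Finset.disjoint_left]; intro v h1 h2; simp [blk] at h1 h2; omega

lemma card_piece_le {B : Finset V} {K s : ℕ} {sub : V → ℕ} (hK : 0 < K)
    (hcard : ∀ s ≤ K, (B.filter fun v => sub v < s).card = s * B.card / K) (hs : s < K) :
    (((B.filter fun v => sub v = s).card : ℕ) : ℝ) ≤ (B.card : ℝ) / (K : ℝ) + 1 := by
  have h1 : (B.filter fun v => sub v < s + 1)
      = (B.filter fun v => sub v < s) ∪ (B.filter fun v => sub v = s) := by
    ext v; simp only [mem_filter, mem_union]
    constructor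
    · rintro ⟨h, h'⟩
      rcases Nat.lt_succ_iff_lt_or_eq.1 h' with h'' | h''
      · exact Or.inl ⟨h, h''⟩
      · exact Or.inr ⟨h, h''⟩
    · rintro (⟨h, h'⟩ | ⟨h, h'⟩)
      · exact ⟨h, by omega⟩
      · exact ⟨h, by omega⟩
  have h2 : Disjoint (B.filter fun v => sub v < s) (B.filter fun v => sub v = s) := by
    rw [Finset.disjoint_left]; intro v h1 h2; simp at h1 h2; omega
  have h3 := Finset.card_union_of_disjoint h2
  rw [← h1, hcard (s + 1) hs, hcard s hs.le] at h3
  set n := B.card
  set c := (B.filter fun v => sub v = s).card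
  have hK' : (0 : ℝ) < K := by exact_mod_cast hK
  have h4 : K * ((s + 1) * n / K) ≤ (s + 1) * n := Nat.mul_div_le _ _
  have h5 : s * n < K * (s * n / K + 1) := Nat.lt_mul_div_succ _ hK
  have h6 : (K : ℝ) * (((s + 1) * n / K : ℕ) : ℝ) ≤ ((s : ℝ) + 1) * n := by exact_mod_cast h4
  have h7 : (s : ℝ) * n < K * (((s * n / K : ℕ) : ℝ) + 1) := by exact_mod_cast h5
  have h8 : (((s + 1) * n / K : ℕ) : ℝ) = ((s * n / K : ℕ) : ℝ) + c := by exact_mod_cast h3
  rw [h8] at h6
  rw [div_add_one hK'.ne', le_div_iff₀ hK']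
  nlinarith

/-! ## Gluing the re-splits -/

/-- The position after the re-splits: `L t` is the new block `t - 1` for the centres `t`. -/
noncomputable def rpos (F par : ℕ) (pos : V → ℕ) (L : ℕ → Finset V) (v : V) : ℕ :=
  if 0 < pos v ∧ pos v < F ∧ pos v % 2 = par then (if v ∈ L (pos v) then pos v - 1 else pos v)
  else if pos v + 1 < F ∧ (pos v + 1) % 2 = par then (if v ∈ L (pos v + 1) then pos v else pos v + 1)
  else pos v

section Rpos

variable {F par : ℕ} {pos : V → ℕ} {L R : ℕ → Finset V}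

/-- The facts on the new blocks at the centres. -/
def IsRe (F par : ℕ) (pos : V → ℕ) (L R : ℕ → Finset V) : Prop :=
  ∀ t, 0 < t → t < F → t % 2 = par →
    L t ∪ R t = blk pos (t - 1) ∪ blk pos t ∧ Disjoint (L t) (R t)

lemma IsRe.mem_L (h : IsRe F par pos L R) {t : ℕ} (h1 : 0 < t) (h2 : t < F) (h3 : t % 2 = par)
    {v : V} (hv : v ∈ L t) : pos v = t - 1 ∨ pos v = t := by
  have := (h t h1 h2 h3).1
  have hv' : v ∈ L t ∪ R t := mem_union_left _ hv
  rw [this] at hv'
  simpa [blk] using hv'

lemma IsRe.mem_R (h : IsRe F par pos L R) {t : ℕ} (h1 : 0 < t) (h2 : t < F) (h3 : t % 2 = par)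
    {v : V} (hv : v ∈ R t) : pos v = t - 1 ∨ pos v = t := by
  have := (h t h1 h2 h3).1
  have hv' : v ∈ L t ∪ R t := mem_union_right _ hv
  rw [this] at hv'
  simpa [blk] using hv'

lemma IsRe.mem_R_of (h : IsRe F par pos L R) {t : ℕ} (h1 : 0 < t) (h2 : t < F) (h3 : t % 2 = par)
    {v : V} (hv : pos v = t - 1 ∨ pos v = t) (hL : v ∉ L t) : v ∈ R t := by
  have := (h t h1 h2 h3).1
  have hv' : v ∈ blk pos (t - 1) ∪ blk pos t := by simpa [blk] using hv
  rw [← this] at hv'
  rcases mem_union.1 hv' with h' | h'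
  · exact absurd h' hL
  · exact h'

lemma IsRe.not_mem_R (h : IsRe F par pos L R) {t : ℕ} (h1 : 0 < t) (h2 : t < F) (h3 : t % 2 = par)
    {v : V} (hL : v ∈ L t) : v ∉ R t :=
  Finset.disjoint_left.1 (h t h1 h2 h3).2 hL

lemma rpos_of_ctr {v : V} (h1 : 0 < pos v) (h2 : pos v < F) (h3 : pos v % 2 = par) :
    rpos F par pos L v = if v ∈ L (pos v) then pos v - 1 else pos v := by
  unfold rpos; rw [if_pos ⟨h1, h2, h3⟩]

lemma rpos_of_left {v : V} (h2 : pos v + 1 < F) (h3 : (pos v + 1) % 2 = par) :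
    rpos F par pos L v = if v ∈ L (pos v + 1) then pos v else pos v + 1 := by
  unfold rpos
  rw [if_neg (by omega), if_pos ⟨h2, h3⟩]

lemma rpos_of_none {v : V} (h1 : ¬ (0 < pos v ∧ pos v < F ∧ pos v % 2 = par))
    (h2 : ¬ (pos v + 1 < F ∧ (pos v + 1) % 2 = par)) :
    rpos F par pos L v = pos v := by
  unfold rpos
  rw [if_neg h1, if_neg h2]

lemma rpos_lt_F (hpos : ∀ v, pos v < F) (v : V) : rpos F par pos L v < F := by
  have := hpos v
  unfold rpos
  split_ifs <;> omega

/-- The cuts with the other parity do not move. -/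
lemma rpos_lt_iff {t : ℕ} (ht : t % 2 ≠ par) (v : V) : rpos F par pos L v < t ↔ pos v < t := by
  unfold rpos
  split_ifs <;> omega

lemma rpos_left (h : IsRe F par pos L R) {t : ℕ} (h1 : 0 < t) (h2 : t < F) (h3 : t % 2 = par) (v : V) :
    rpos F par pos L v = t - 1 ↔ v ∈ L t := by
  by_cases e : pos v = t
  · rw [rpos_of_ctr (by omega) (by omega) (by omega), e]
    split_ifs with hL
    · simp [hL]
    · simp only [hL, iff_false]; omega
  · by_cases e' : pos v = t - 1
    · have e'' : pos v + 1 = t := by omega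
      rw [rpos_of_left (by omega) (by omega), e'']
      split_ifs with hL
      · simp [hL, e']
      · simp only [hL, iff_false]; omega
    · have hL : v ∉ L t := fun hL => by
        rcases h.mem_L h1 h2 h3 hL with h' | h' <;> omega
      simp only [hL, iff_false]
      unfold rpos
      split_ifs <;> omega

lemma rpos_right (h : IsRe F par pos L R) {t : ℕ} (h1 : 0 < t) (h2 : t < F) (h3 : t % 2 = par) (v : V) :
    rpos F par pos L v = t ↔ v ∈ R t := by
  by_cases e : pos v = t
  · rw [rpos_of_ctr (by omega) (by omega) (by omega), e]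
    split_ifs with hL
    · simp only [h.not_mem_R h1 h2 h3 hL, iff_false]; omega
    · simp only [h.mem_R_of h1 h2 h3 (Or.inr e) hL, iff_true]
  · by_cases e' : pos v = t - 1
    · have e'' : pos v + 1 = t := by omega
      rw [rpos_of_left (by omega) (by omega), e'']
      split_ifs with hL
      · simp only [h.not_mem_R h1 h2 h3 hL, iff_false]; omega
      · simp only [h.mem_R_of h1 h2 h3 (Or.inl e') hL, iff_true]
    · have hR : v ∉ R t := fun hL => by
        rcases h.mem_R h1 h2 h3 hL with h' | h' <;> omega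
      simp only [hR, iff_false]
      unfold rpos
      split_ifs <;> omega

lemma blk_rpos_L (h : IsRe F par pos L R) {t : ℕ} (h1 : 0 < t) (h2 : t < F) (h3 : t % 2 = par) :
    blk (rpos F par pos L) (t - 1) = L t := by
  ext v; simp only [blk, mem_filter, mem_univ, true_and]; exact rpos_left h h1 h2 h3 v

lemma blk_rpos_R (h : IsRe F par pos L R) {t : ℕ} (h1 : 0 < t) (h2 : t < F) (h3 : t % 2 = par) :
    blk (rpos F par pos L) t = R t := by
  ext v; simp only [blk, mem_filter, mem_univ, true_and]; exact rpos_right h h1 h2 h3 v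

/-- Blocks which are not in a pair do not change. -/
lemma blk_rpos_unp {u : ℕ} (h1 : ¬ (0 < u ∧ u < F ∧ u % 2 = par))
    (h2 : ¬ (u + 1 < F ∧ (u + 1) % 2 = par)) :
    blk (rpos F par pos L) u = blk pos u := by
  ext v; simp only [blk, mem_filter, mem_univ, true_and]
  unfold rpos
  split_ifs <;> omega

lemma cut_rpos_of_ne {t : ℕ} (ht : t % 2 ≠ par) :
    cut α (rpos F par pos L) t = cut α pos t := by
  funext i
  rw [cut_eq_sm, cut_eq_sm]
  congr 1
  ext v
  simp only [mem_filter, mem_univ, true_and]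
  exact rpos_lt_iff ht v

/-- All cuts which are not centres do not move. -/
lemma cut_rpos_of_not_ctr (hpos : ∀ v, pos v < F) {t : ℕ} (ht : ¬ (0 < t ∧ t < F ∧ t % 2 = par)) :
    cut α (rpos F par pos L) t = cut α pos t := by
  by_cases h0 : t = 0
  · subst h0; rw [cut_zero, cut_zero]
  · by_cases h1 : F ≤ t
    · funext i
      rw [cut_top_eq (rpos_lt_F hpos) h1, cut_top_eq hpos h1]
    · exact cut_rpos_of_ne (by omega)

lemma cut_rpos_ctr (h : IsRe F par pos L R) {t : ℕ} (h1 : 0 < t) (h2 : t < F) (h3 : t % 2 = par) :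
    cut α (rpos F par pos L) t = fun i => cut α pos (t - 1) i + sm α (L t) i := by
  funext i
  rw [cut_pred (rpos F par pos L) h1 i, blk_rpos_L h h1 h2 h3,
    cut_rpos_of_ne (show (t - 1) % 2 ≠ par by omega)]

end Rpos

end Vale.Agent.P262S.LC
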