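import Vale.Agent.P262S.CoreP1
import Vale.Agent.P262S.CoreP2
import Vale.Agent.P262S.CoreP3
import Vale.Agent.P262S.CoreP4
import Vale.Agent.P262S.CoreP5
import Vale.Agent.P262S.CoreP6

/-! # The re-split at one cut (notes/P262_sqrtd.md, section 4). Level `ℓ = m + 1`. -/

open Finset

namespace Vale.Agent.P262S

variable {d : ℕ} (S : Sched d)
set_option linter.unusedSectionVars false

variable {V : Type} [Fintype V] [DecidableEq V] {α : V → Fin d → ℝ}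

/-- A block is its heavy part and its light part. -/
lemma sm_split (m : ℕ) (B : Finset V) (i : Fin d) :
    sm α B i = sm α (S.Sv α m B) i + sm α (S.Lv α m B) i := by
  classical
  unfold sm Sched.Sv Sched.Lv
  exact (Finset.sum_filter_add_sum_filter_not B (S.Hv α m) _).symm

/-- The heavy subsets: shares. -/
lemma powerset_share (T : Finset V) :
    ∑ _G : {G // G ∈ T.powerset}, ((1 / 2 : ℝ) ^ T.card / 8) = 1 / 8 := by
  classical
  rw [Finset.sum_const, Finset.card_univ, Fintype.card_coe, Finset.card_powerset, nsmul_eq_mul]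
  push_cast
  have : (2 : ℝ) ^ T.card * (1 / 2) ^ T.card = 1 := by
    rw [← mul_pow]; norm_num
  calc (2 : ℝ) ^ T.card * ((1 / 2) ^ T.card / 8) = ((2 : ℝ) ^ T.card * (1 / 2) ^ T.card) / 8 := by ring
    _ = 1 / 8 := by rw [this]

lemma log_share (T : Finset V) {h : ℝ} (hT : (T.card : ℝ) ≤ h) :
    Real.log (1 / ((1 / 2 : ℝ) ^ T.card / 8)) ≤ 3 + h := by
  have e : (1 : ℝ) / ((1 / 2 : ℝ) ^ T.card / 8) = 2 ^ (T.card + 3) := by
    have h2 : (1 / 2 : ℝ) ^ T.card = 1 / 2 ^ T.card := by rw [one_div_pow]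
    rw [h2, pow_add]
    field_simp
    norm_num
  rw [e, Real.log_pow]
  have hl : Real.log 2 ≤ 1 := by
    have := Real.log_two_lt_d9
    linarith
  have hl0 : 0 ≤ Real.log 2 := Real.log_nonneg (by norm_num)
  push_cast
  have hc : (0 : ℝ) ≤ (T.card : ℝ) + 3 := by positivity
  nlinarith

/-- **The re-split at one cut**: `B₁`, `B₂` adjacent blocks at level `m + 1`, with ends `p, z, q`. The light
elements of the union are rounded, the heavy ones stay in their block. The new cut has exact noise values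
on `H (m + 1)`. -/
theorem resplit_block (hα : ∀ v, ∑ i, α v i ^ 2 ≤ 1) {m k : ℕ} (hk : k + 2 ≤ 6)
    (hH : (S.H (m + 1)).Nonempty)
    {B₁ B₂ : Finset V} (hdis : Disjoint B₁ B₂) {p z q : Fin d → ℝ} {xb xp Ne M1 M2 LF Bud : ℝ}
    (hz : ∀ i, z i = p i + sm α B₁ i) (hq : ∀ i, q i = z i + sm α B₂ i)
    (hxb : xb ≤ 1 / 200) (hxb0 : 0 ≤ xb) (hxp : xp ≤ 1 / 1000) (hxp0 : 0 ≤ xp)
    (hNe : 1000 * Ne ≤ S.b (m + 1)) (hM2 : 10 ^ 4 * M2 ≤ S.b (m + 1) ^ 2)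
    (hM1 : 0 ≤ M1) (hM20 : 0 ≤ M2) (hLF0 : 0 ≤ LF)
    (hB₁ : S.BlockInv α (m + 1) B₁ xb xp (S.NbR (m + 1)) Ne M1 M2)
    (hB₂ : S.BlockInv α (m + 1) B₂ xb xp (S.NbR (m + 1)) Ne M1 M2)
    (hLF₁ : S.LFf (m + 1) (sm α (S.Lv α (m + 1) B₁)) ≤ LF)
    (hLF₂ : S.LFf (m + 1) (sm α (S.Lv α (m + 1) B₂)) ≤ LF)
    (hTp : S.Tf (m + 1) p ≤ 1 / 100) (hTq : S.Tf (m + 1) q ≤ 1 / 100)
    (hJR : S.JR α (m + 1) (m + 1) (S.Wk (m + 1) (k + 2)) Bud B₁ z)
    (hJL : S.JL α (m + 1) (m + 1) (S.Wk (m + 1) (k + 2)) Bud B₂ z) :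
    ∃ L R : Finset V, L ∪ R = B₁ ∪ B₂ ∧ Disjoint L R ∧
      S.Sv α (m + 1) L = S.Sv α (m + 1) B₁ ∧ S.Sv α (m + 1) R = S.Sv α (m + 1) B₂ ∧
      S.Tf (m + 1) (fun i => p i + sm α L i) ≤ 1 / 1000 ∧
      S.Tf (m + 2) (fun i => p i + sm α L i) ≤ 1 / 1000 ∧
      (∑ i ∈ S.C (m + 2), (p i + sm α L i) ^ 2 ≤ S.Q2b (m + 1)) ∧
      S.BlockInv α (m + 1) L (xb + 1 / 10 ^ 4) (xp + 1 / 10 ^ 4) (S.NbR (m + 1)) (Ne + 151)
        (1.001 * M1 + S.NbR (m + 1) / 2 + 151) (1.001 * M2 + S.NbR (m + 1) / 2 + 151) ∧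
      S.BlockInv α (m + 1) R (xb + 1 / 10 ^ 4) (xp + 1 / 10 ^ 4) (S.NbR (m + 1)) (Ne + 151)
        (1.001 * M1 + S.NbR (m + 1) / 2 + 151) (1.001 * M2 + S.NbR (m + 1) / 2 + 151) ∧
      S.LFf (m + 1) (sm α (S.Lv α (m + 1) L)) ≤ S.LFs LF (m + 1) ∧
      S.LFf (m + 1) (sm α (S.Lv α (m + 1) R)) ≤ S.LFs LF (m + 1) ∧
      S.JR α (m + 1) (m + 1) (S.Wk (m + 1) k) (Bud + S.RC (m + 1) (S.NbR (m + 1)) LF) L
        (fun i => p i + sm α L i) ∧
      S.JL α (m + 1) (m + 1) (S.Wk (m + 1) k) (Bud + S.RC (m + 1) (S.NbR (m + 1)) LF) R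
        (fun i => p i + sm α L i) := by
  classical
  -- numbers
  have hNh : 1000 * S.NbR (m + 1) ≤ S.b (m + 1) := by
    have h1 := S.Nb_small m
    have h2 := S.NbR_le m
    nlinarith
  -- the tilt
  obtain ⟨a, ha0, hsol, hsh2, hsh, ha6⟩ := S.tilt_exists α hα hdis hxb hxb0 hNh hB₁ hB₂ hTp hTq
  set S₁ := S.Sv α (m + 1) B₁ with hS₁
  set S₂ := S.Sv α (m + 1) B₂ with hS₂
  -- centres
  let sft : Fin d → ℝ := S.shift α m B₁ B₂ a
  let 𝒢 : Type := {G // G ∈ S₂.powerset} ⊕ {G // G ∈ S₁.powerset}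
  let cen : 𝒢 → Fin d → ℝ := fun g => match g with
    | Sum.inl G => fun i => z i + sm α G.1 i + sft i
    | Sum.inr G => fun i => z i - sm α G.1 i + sft i
  let π₀ : 𝒢 → ℝ := fun g => match g with
    | Sum.inl _ => (1 / 2 : ℝ) ^ S₂.card / 8
    | Sum.inr _ => (1 / 2 : ℝ) ^ S₁.card / 8
  have hπ : ∀ g, 0 < π₀ g := by
    rintro (G | G) <;> simp only [π₀] <;> positivity
  have hπ1 : ∑ g, π₀ g ≤ 1 / 4 := by
    rw [Fintype.sum_sum_type]
    simp only [π₀]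
    rw [powerset_share S₂, powerset_share S₁]
    norm_num
  -- the rounding
  obtain ⟨Y, hY, hTn, hTn', hXn, hXpn, hR, hR1, hR2, hQ2, hLFn, hQ⟩ :=
    S.round_outcome α hα hk hH (B₁ := B₁) (B₂ := B₂) hsh cen π₀ hπ hπ1
  -- the spill on corrected coordinates
  have hspl : ∀ k' ∈ S.H (m + 1), S.spl α m B₁ B₂ a k' = - cc α p q S₁ S₂ k' := by
    intro k' hk'
    rw [← hsol k' hk']
    unfold Sched.spl Sched.shf MB
    simp only [Finset.sum_mul, Finset.mul_sum]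
    rw [Finset.sum_comm]
    refine Finset.sum_congr rfl fun l _ => Finset.sum_congr rfl fun v _ => ?_
    ring
  -- the formula for the new cut
  have hsumL : ∀ i, sm α (S.Lnew α m B₁ B₂ Y) i = sm α S₁ i
      + (1 / 2) * (sm α (S.Lv α (m + 1) B₁) i + sm α (S.Lv α (m + 1) B₂) i)
      + S.spl α m B₁ B₂ a i + S.nz α m B₁ B₂ a Y (fun v => α v i) := by
    intro i
    have h := S.split_sum_L α (m := m) (a := a) hdis hY (fun v => α v i)
    have h' := S.Lam_sum α (m := m) hdis (fun v => α v i)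
    unfold sm at *
    rw [h, h']
    rfl
  have hz' : ∀ i, p i + sm α (S.Lnew α m B₁ B₂ Y) i
      = z i + sft i + S.nz α m B₁ B₂ a Y (fun v => α v i) := by
    intro i
    have h1 := sm_split S (m + 1) B₁ i (α := α)
    rw [hsumL i, hz i, h1]
    simp only [sft, Sched.shift]
    ring
  have hzH : ∀ i ∈ S.H (m + 1), p i + sm α (S.Lnew α m B₁ B₂ Y) i
      = S.nz α m B₁ B₂ a Y (fun v => α v i) := by
    intro i hi
    have h1 := sm_split S (m + 1) B₁ i (α := α)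
    have h2 := sm_split S (m + 1) B₂ i (α := α)
    rw [hsumL i, hspl i hi]
    unfold cc
    rw [hq i, hz i, h1, h2]
    ring
  have hLF_sp := S.spill_bound α hα hdis hxb hxb0 hxp hxp0 hNe hM2 hM20 hNh hB₁ hB₂ ha0 hsh2 ha6
  have hΘ : 0 ≤ S.Θ (m + 1) := (S.Θ_pos _).le
  -- the position form
  have hJ1 : ∀ G ⊆ S₁, S.Qf (m + 1) (S.Wk (m + 1) k)
      (fun i => p i + sm α (S.Lnew α m B₁ B₂ Y) i - sm α G i)
      ≤ Bud + S.RC (m + 1) (S.NbR (m + 1)) LF := by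
    intro G hG
    have hq1 := hQ (Sum.inr ⟨G, Finset.mem_powerset.mpr hG⟩)
    have e : (fun i => p i + sm α (S.Lnew α m B₁ B₂ Y) i - sm α G i)
        = fun i => cen (Sum.inr ⟨G, Finset.mem_powerset.mpr hG⟩) i
            + S.nz α m B₁ B₂ a Y (fun v => α v i) := by
      funext i
      rw [hz' i]
      simp only [cen]
      ring
    rw [e]
    refine hq1.trans ?_
    have h2 := S.center_step α (m := m) hk (a := a) (x := fun i => z i - sm α G i) hLF₁ hLF₂ hLF_sp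
    have h3 := hJR G hG
    have h4 : Real.log (1 / π₀ (Sum.inr ⟨G, Finset.mem_powerset.mpr hG⟩)) ≤ 3 + S.NbR (m + 1) :=
      log_share S₁ hB₁.hNh
    have h5 := mul_le_mul_of_nonneg_right h4 (by positivity : (0:ℝ) ≤ 960000 * S.Θ (m + 1))
    have h6 : ∑ i ∈ S.U (m + 1), S.Wk (m + 1) (k + 1) i
          * cen (Sum.inr ⟨G, Finset.mem_powerset.mpr hG⟩) i ^ 2
        ≤ S.Qf (m + 1) (S.Wk (m + 1) (k + 2)) (fun i => z i - sm α G i) + 200 * LF
          + 200 * S.SPb (m + 1) := h2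
    unfold Sched.RC
    nlinarith
  have hJ2 : ∀ G ⊆ S₂, S.Qf (m + 1) (S.Wk (m + 1) k)
      (fun i => p i + sm α (S.Lnew α m B₁ B₂ Y) i + sm α G i)
      ≤ Bud + S.RC (m + 1) (S.NbR (m + 1)) LF := by
    intro G hG
    have hq1 := hQ (Sum.inl ⟨G, Finset.mem_powerset.mpr hG⟩)
    have e : (fun i => p i + sm α (S.Lnew α m B₁ B₂ Y) i + sm α G i)
        = fun i => cen (Sum.inl ⟨G, Finset.mem_powerset.mpr hG⟩) i
            + S.nz α m B₁ B₂ a Y (fun v => α v i) := by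
      funext i
      rw [hz' i]
      simp only [cen]
      ring
    rw [e]
    refine hq1.trans ?_
    have h2 := S.center_step α (m := m) hk (a := a) (x := fun i => z i + sm α G i) hLF₁ hLF₂ hLF_sp
    have h3 := hJL G hG
    have h4 : Real.log (1 / π₀ (Sum.inl ⟨G, Finset.mem_powerset.mpr hG⟩)) ≤ 3 + S.NbR (m + 1) :=
      log_share S₂ hB₂.hNh
    have h5 := mul_le_mul_of_nonneg_right h4 (by positivity : (0:ℝ) ≤ 960000 * S.Θ (m + 1))
    have h6 : ∑ i ∈ S.U (m + 1), S.Wk (m + 1) (k + 1) i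
          * cen (Sum.inl ⟨G, Finset.mem_powerset.mpr hG⟩) i ^ 2
        ≤ S.Qf (m + 1) (S.Wk (m + 1) (k + 2)) (fun i => z i + sm α G i) + 200 * LF
          + 200 * S.SPb (m + 1) := h2
    unfold Sched.RC
    nlinarith
  refine ⟨S.Lnew α m B₁ B₂ Y, S.Rnew α m B₁ B₂ Y, S.new_union α hdis hY, S.new_disjoint α hdis hY,
    S.Sv_Lnew α hdis, S.Sv_Rnew α hdis, ?_, ?_, ?_,
    S.block_closure_L α hα hdis hY hxb hxb0 hxp hxp0 hNe hM1 hM20 hNh hB₁ hB₂ hsh2 hXn hXpn hR hR1 hR2,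
    S.block_closure_R α hα hdis hY hxb hxb0 hxp hxp0 hNe hM1 hM20 hNh hB₁ hB₂ hsh2 hXn hXpn hR hR1 hR2,
    S.LF_closure_L α hdis hY hLF0 hLF₁ hLF₂ hLF_sp hLFn, S.LF_closure_R α hdis hY hLF0 hLF₁ hLF₂ hLF_sp hLFn,
    ?_, ?_⟩
  · refine le_trans (le_of_eq ?_) hTn
    unfold Sched.Tf
    refine Finset.sum_congr rfl fun i hi => ?_
    beta_reduce
    rw [hzH i hi]
  · refine le_trans (le_of_eq ?_) hTn'
    unfold Sched.Tf
    refine Finset.sum_congr rfl fun i hi => ?_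
    beta_reduce
    rw [hzH i (S.H_succ_subset (m + 1) hi)]
  · refine le_trans (le_of_eq ?_) hQ2
    refine Finset.sum_congr rfl fun i hi => ?_
    have : i ∈ S.H (m + 1) := by
      rw [S.mem_H]
      rw [S.mem_C] at hi
      omega
    rw [hzH i this]
  · intro G hG
    rw [S.Sv_Lnew α hdis] at hG
    exact hJ1 G hG
  · intro G hG
    rw [S.Sv_Rnew α hdis] at hG
    exact hJ2 G hG

end Vale.Agent.P262S
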