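import Vale.Agent.P262S.RoughBlock
import Vale.Agent.P262S.ResplitBlock
import Vale.Agent.P262S.Budget
import Vale.Agent.P262S.LevelCore

/-! # From level `m` to level `m + 1` (notes/P262_sqrtd.md, sections 2, 4). -/

open Finset

namespace Vale.Agent.P262S

open LC

variable {d : ℕ} (S : Sched d)
variable {V : Type} [Fintype V] [DecidableEq V] {α : V → Fin d → ℝ}

/-- Invariant of a state inside level `m + 1`: after the rough split (`k = 4`, `xb=1/1000`, `xp=1/10^4`,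
`Ne = NbR`, `M1 = M1R`, `M2 = M2R`, `LF = LFr`), after round one (`k = 2`), after round two (`k = 0`). -/
structure Sched.MidInv (m k F : ℕ) (pos : V → ℕ) (xb xp Ne M1 M2 LF Bud : ℝ) : Prop where
  hpos : ∀ v, pos v < F
  hT : ∀ t ≤ F, S.Tf (m + 1) (cut α pos t) ≤ 1 / 100
  hB : ∀ t < F, S.BlockInv α (m + 1) (blk pos t) xb xp (S.NbR (m + 1)) Ne M1 M2
  hLF : ∀ t < F, (S.H (m + 1)).Nonempty → S.LFf (m + 1) (sm α (S.Lv α (m + 1) (blk pos t))) ≤ LF
  hJL : ∀ t < F, S.JL α (m + 1) (m + 1) (S.Wk (m + 1) k) Bud (blk pos t) (cut α pos t)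
  hJR : ∀ t < F, S.JR α (m + 1) (m + 1) (S.Wk (m + 1) k) Bud (blk pos t) (cut α pos (t + 1))

/-! ## Monotonicity -/

lemma Sched.BlockInv.mono' {S : Sched d} {m : ℕ} {B : Finset V}
    {xb xp Nh Ne M1 M2 xb' xp' Nh' Ne' M1' M2' : ℝ}
    (h : S.BlockInv α m B xb xp Nh Ne M1 M2) (hxb0 : 0 ≤ xb) (hxb : xb ≤ xb') (hxp0 : 0 ≤ xp)
    (hxp : xp ≤ xp') (hNh : Nh ≤ Nh') (hNe : Ne ≤ Ne') (hM1 : M1 ≤ M1') (hM2 : M2 ≤ M2') :
    S.BlockInv α m B xb' xp' Nh' Ne' M1' M2' := by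
  refine ⟨h.hX.trans ?_, h.hXp.trans ?_, h.hNh.trans hNh, h.hNe.trans hNe, h.hM1.trans hM1,
    fun c hc => (h.hM2 c hc).trans hM2⟩
  · nlinarith
  · have : xp ^ 2 ≤ xp' ^ 2 := by nlinarith
    exact mul_le_mul_of_nonneg_right this (Nat.cast_nonneg _)

lemma Sched.Qf_mono {S : Sched d} {u : ℕ} {w w' x : Fin d → ℝ} (h : ∀ i, S.e i ≤ u → w' i ≤ w i) :
    S.Qf u w' x ≤ S.Qf u w x := by
  unfold Sched.Qf
  refine Finset.sum_le_sum fun i hi => ?_
  exact mul_le_mul_of_nonneg_right (h i (S.mem_U.1 hi)) (sq_nonneg _)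

lemma Sched.JL.mono' {S : Sched d} {m u : ℕ} {w w' : Fin d → ℝ} {Bud Bud' : ℝ} {B B' : Finset V}
    {x : Fin d → ℝ} (h : S.JL α m u w Bud B x) (hw : ∀ i, S.e i ≤ u → w' i ≤ w i) (hB : Bud ≤ Bud')
    (hS : S.Sv α m B' = S.Sv α m B) : S.JL α m u w' Bud' B' x := by
  intro G hG
  rw [hS] at hG
  exact (Sched.Qf_mono hw).trans ((h G hG).trans hB)

lemma Sched.JR.mono' {S : Sched d} {m u : ℕ} {w w' : Fin d → ℝ} {Bud Bud' : ℝ} {B B' : Finset V}
    {x : Fin d → ℝ} (h : S.JR α m u w Bud B x) (hw : ∀ i, S.e i ≤ u → w' i ≤ w i) (hB : Bud ≤ Bud')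
    (hS : S.Sv α m B' = S.Sv α m B) : S.JR α m u w' Bud' B' x := by
  intro G hG
  rw [hS] at hG
  exact (Sched.Qf_mono hw).trans ((h G hG).trans hB)

/-! ## Nonnegativity -/

lemma Sched.Vx_nonneg (m : ℕ) : 0 ≤ S.Vx m := by
  unfold Sched.Vx
  refine Finset.sum_nonneg fun i _ => ?_
  exact div_nonneg (le_trans zero_le_one (S.one_le_ph m i)) (S.om_pos m i).le

lemma Sched.Vw_nonneg (m : ℕ) : 0 ≤ S.Vw m := by
  unfold Sched.Vw
  refine Finset.sum_nonneg fun i _ => ?_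
  exact div_nonneg (le_trans zero_le_one (S.one_le_ph (m + 1) i)) (S.om_pos m i).le

lemma Sched.SPb_nonneg (m : ℕ) : 0 ≤ S.SPb m := by
  unfold Sched.SPb
  have := S.Θ_pos m
  have h : (0 : ℝ) ≤ (if m ≠ 0 ∧ (S.C (m - 1)).Nonempty then 1 / 10 ^ 4 else 0) := by
    split_ifs <;> norm_num
  positivity

lemma Sched.LNr_nonneg (m : ℕ) : 0 ≤ S.LNr m := by
  unfold Sched.LNr
  have := S.Θ_pos m
  have := S.Vx_nonneg m
  positivity

lemma Sched.LNw_nonneg (m : ℕ) : 0 ≤ S.LNw m := by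
  unfold Sched.LNw
  have := S.Θ_pos m
  have := S.Vw_nonneg m
  positivity

lemma Sched.NbR_nonneg (m : ℕ) : 0 ≤ S.NbR m := by
  cases m with
  | zero => simp [Sched.NbR]
  | succ m => simp only [Sched.NbR]; positivity

lemma Sched.LFr_nonneg {LF : ℝ} (hLF : 0 ≤ LF) (m : ℕ) : 0 ≤ S.LFr LF m := by
  unfold Sched.LFr
  have := S.Θ_pos m
  have := S.LNw_nonneg m
  positivity

lemma Sched.le_LFs {LF : ℝ} (hLF : 0 ≤ LF) (m : ℕ) : LF ≤ S.LFs LF m := by
  unfold Sched.LFs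
  have := S.SPb_nonneg m
  have := S.LNr_nonneg m
  linarith

lemma Sched.RC_nonneg {h LF : ℝ} (hh : 0 ≤ h) (hLF : 0 ≤ LF) (m : ℕ) : 0 ≤ S.RC m h LF := by
  unfold Sched.RC
  have := S.Θ_pos m
  have := S.Vx_nonneg m
  have := S.SPb_nonneg m
  positivity

lemma Sched.Q2b_nonneg (m : ℕ) : 0 ≤ S.Q2b m := by
  unfold Sched.Q2b
  split_ifs
  · positivity
  · exact le_rfl

lemma Sched.M1R_nonneg (m : ℕ) : 0 ≤ S.M1R m := by
  unfold Sched.M1R
  have : 0 ≤ ∑ i ∈ S.C (m + 1), S.q i (m + 1) ^ 4 :=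
    Finset.sum_nonneg fun i _ => pow_nonneg (S.hq0 i (m + 1)) 4
  positivity

lemma Sched.M2R_nonneg (m : ℕ) : 0 ≤ S.M2R m := by
  unfold Sched.M2R
  have := S.Mb1_nonneg m
  positivity

lemma Sched.K_natpos (m : ℕ) : 0 < S.K m := by
  unfold Sched.K; positivity

/-- The smallness of the second class mass, for the re-splits. -/
lemma Sched.Mb2_small4 (m : ℕ) :
    10 ^ 4 * (1.02 * S.M2R m + S.NbR (m + 1) + 303) ≤ S.b (m + 1) ^ 2 := by
  have h1 : S.NbR (m + 1) = 340 * √(S.j m : ℝ) := rfl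
  have h2 : S.M2R m = S.Mb1 m / (S.K m : ℝ) + 1 + 330 * √(S.j m : ℝ) := rfl
  rw [h1, h2]
  obtain ⟨hA, hjA, hA2, -⟩ := S.A_facts m
  have hb := S.b_succ_ge m
  have hX := S.Mb1_div m
  obtain ⟨A, hAd⟩ : ∃ A, A = (S.j m : ℝ) ^ 4 * (((S.C m).card : ℝ) + 1) := ⟨_, rfl⟩
  rw [← hAd] at hA hjA hA2 hb
  have hs : √(S.j m : ℝ) ≤ (S.j m : ℝ) := Real_sqrt_le_self' (S.j_ge m)
  have hb2 : (A * 1024) ^ 2 ≤ S.b (m + 1) ^ 2 := pow_le_pow_left₀ (by positivity) hb 2
  have h2' : 1048576 * A ≤ A ^ 2 := by nlinarith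
  have h3 : 0 ≤ A ^ 2 := sq_nonneg A
  have e : (A * 1024) ^ 2 = 1048576 * A ^ 2 := by ring
  rw [e] at hb2
  nlinarith

/-- All rough splits: every block goes to `K m` pieces, `F' = F * K m`. -/
theorem rough_all (hα : ∀ v, ∑ i, α v i ^ 2 ≤ 1) (h0 : ∀ i, ∑ v, α v i = 0) {m F : ℕ} {pos : V → ℕ}
    (hI : S.LevelInv α m F pos) :
    ∃ pos' : V → ℕ, S.MidInv (α := α) m 4 (F * S.K m) pos' (1 / 1000) (1 / 10 ^ 4) (S.NbR (m + 1))
        (S.M1R m) (S.M2R m) (S.LFr (S.LFb m) m) (S.Bud m + S.RCr m) ∧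
      ∀ t, ((blk pos' t).card : ℝ) ≤ ((blk pos (t / S.K m)).card : ℝ) / (S.K m : ℝ) + 1 := by
  classical
  have hK : 0 < S.K m := S.K_natpos m
  have key : ∀ t, t < F → ∃ sub : V → ℕ, (∀ v, sub v < S.K m) ∧
      (∀ s ≤ S.K m, ((blk pos t).filter fun v => sub v < s).card = s * (blk pos t).card / S.K m) ∧
      ∀ s < S.K m,
        S.Tf (m + 1) (fun i => cut α pos t i + sm α ((blk pos t).filter fun v => sub v < s) i) ≤ 1 / 100 ∧
        S.BlockInv α (m + 1) ((blk pos t).filter fun v => sub v = s) (1 / 1000) (1 / 10 ^ 4)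
          (S.NbR (m + 1)) (S.NbR (m + 1)) (S.M1R m) (S.M2R m) ∧
        ((S.H (m + 1)).Nonempty →
          S.LFf (m + 1) (sm α (S.Lv α (m + 1) ((blk pos t).filter fun v => sub v = s)))
            ≤ S.LFr (S.LFb m) m) ∧
        S.JL α (m + 1) (m + 1) (S.Wk (m + 1) 4) (S.Bud m + S.RCr m)
          ((blk pos t).filter fun v => sub v = s)
          (fun i => cut α pos t i + sm α ((blk pos t).filter fun v => sub v < s) i) ∧
        S.JR α (m + 1) (m + 1) (S.Wk (m + 1) 4) (S.Bud m + S.RCr m)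
          ((blk pos t).filter fun v => sub v = s)
          (fun i => cut α pos t i + sm α ((blk pos t).filter fun v => sub v < s + 1) i) := by
    intro t ht
    exact rough_block S hα (fun i => cut_succ pos t i) (hI.hB t ht)
      (fun hH => hI.hLF t ht (hH.mono (S.H_succ_subset m))) (LFb_nonneg S m)
      (hI.hT t ht.le).2 (hI.hT (t + 1) ht).2 (hI.hJL t ht) (hI.hJR t ht)
  choose! sub hsub hcard hprop using key
  have hsub' : ∀ v, sub (pos v) v < S.K m := fun v => hsub _ (hI.hpos v) v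
  refine ⟨gluePos pos (S.K m) sub, ?_, ?_⟩
  · have hdec : ∀ t' < F * S.K m, ∃ t s, t < F ∧ s < S.K m ∧ t' = t * S.K m + s := by
      intro t' ht'
      exact ⟨t' / S.K m, t' % S.K m, Nat.div_lt_of_lt_mul (by rwa [Nat.mul_comm]), Nat.mod_lt _ hK,
        (Nat.div_add_mod' _ _).symm⟩
    refine ⟨gluePos_lt hsub' hI.hpos, ?_, ?_, ?_, ?_, ?_⟩
    · intro t' ht'
      rcases ht'.lt_or_eq with h | h
      · obtain ⟨t, s, ht, hs, rfl⟩ := hdec t' h
        rw [cut_gluePos hsub' hs.le]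
        exact (hprop t ht s hs).1
      · subst h
        have h1 := cut_gluePos (α := α) hsub' (t := F) (s := 0) (Nat.zero_le _)
        simp only [add_zero] at h1
        rw [h1]
        have e : (fun i => cut α pos F i
            + sm α ((blk pos F).filter fun v => sub F v < 0) i) = cut α pos F := by
          funext i; simp [sm]
        rw [e]
        exact (hI.hT F le_rfl).2.trans (by norm_num)
    · intro t' ht'
      obtain ⟨t, s, ht, hs, rfl⟩ := hdec t' ht'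
      rw [blk_gluePos hsub' hs]
      exact (hprop t ht s hs).2.1
    · intro t' ht' hH
      obtain ⟨t, s, ht, hs, rfl⟩ := hdec t' ht'
      rw [blk_gluePos hsub' hs]
      exact (hprop t ht s hs).2.2.1 hH
    · intro t' ht'
      obtain ⟨t, s, ht, hs, rfl⟩ := hdec t' ht'
      rw [blk_gluePos hsub' hs, cut_gluePos hsub' hs.le]
      exact (hprop t ht s hs).2.2.2.1
    · intro t' ht'
      obtain ⟨t, s, ht, hs, rfl⟩ := hdec t' ht'
      rw [blk_gluePos hsub' hs, add_assoc, cut_gluePos hsub' hs]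
      exact (hprop t ht s hs).2.2.2.2
  · intro t'
    by_cases h : t' / S.K m < F
    · have e : blk (gluePos pos (S.K m) sub) t'
          = (blk pos (t' / S.K m)).filter fun v => sub (t' / S.K m) v = t' % S.K m := by
        have e' := blk_gluePos hsub' (t := t' / S.K m) (Nat.mod_lt t' hK)
        rwa [Nat.div_add_mod'] at e'
      rw [e]
      exact card_piece_le hK (hcard _ h) (Nat.mod_lt _ hK)
    · have h1 : F * S.K m ≤ t' := (Nat.le_div_iff_mul_le hK).1 (not_lt.1 h)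
      have e : blk (gluePos pos (S.K m) sub) t' = ∅ := by
        ext v
        have := gluePos_lt (K := S.K m) (sub := sub) hsub' hI.hpos v
        simp only [blk, mem_filter, mem_univ, true_and, notMem_empty, iff_false]
        omega
      rw [e]
      simp only [card_empty, Nat.cast_zero]
      positivity

/-- One round: all cuts `t`, `0 < t < F`, `t % 2 = par`, are re-split; the others do not move. -/
theorem round_all (hα : ∀ v, ∑ i, α v i ^ 2 ≤ 1) (h0 : ∀ i, ∑ v, α v i = 0) {m k F par : ℕ} (hk : k + 2 ≤ 6)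
    (hH : (S.H (m + 1)).Nonempty) {pos : V → ℕ} {xb xp Ne M1 M2 LF Bud : ℝ}
    (hxb : xb ≤ 1 / 200) (hxb0 : 0 ≤ xb) (hxp : xp ≤ 1 / 1000) (hxp0 : 0 ≤ xp)
    (hNe : 1000 * Ne ≤ S.b (m + 1)) (hM2 : 10 ^ 4 * M2 ≤ S.b (m + 1) ^ 2)
    (hNe0 : 0 ≤ Ne) (hM1 : 0 ≤ M1) (hM20 : 0 ≤ M2) (hLF0 : 0 ≤ LF)
    (hI : S.MidInv (α := α) m (k + 2) F pos xb xp Ne M1 M2 LF Bud) :
    ∃ pos' : V → ℕ,
      S.MidInv (α := α) m k F pos' (xb + 1 / 10 ^ 4) (xp + 1 / 10 ^ 4) (Ne + 151)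
        (1.001 * M1 + S.NbR (m + 1) / 2 + 151) (1.001 * M2 + S.NbR (m + 1) / 2 + 151)
        (S.LFs LF (m + 1)) (Bud + S.RC (m + 1) (S.NbR (m + 1)) LF) ∧
      (∀ t, t % 2 ≠ par → cut α pos' t = cut α pos t) ∧
      (∀ t, 0 < t → t < F → t % 2 = par →
        S.Tf (m + 1) (cut α pos' t) ≤ 1 / 1000 ∧ S.Tf (m + 2) (cut α pos' t) ≤ 1 / 1000 ∧
        ∑ i ∈ S.C (m + 2), cut α pos' t i ^ 2 ≤ S.Q2b (m + 1)) := by
  classical
  have hres : ∀ t, 0 < t → t < F → t % 2 = par → ∃ L R : Finset V,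
      L ∪ R = blk pos (t - 1) ∪ blk pos t ∧ Disjoint L R ∧
      S.Sv α (m + 1) L = S.Sv α (m + 1) (blk pos (t - 1)) ∧ S.Sv α (m + 1) R = S.Sv α (m + 1) (blk pos t) ∧
      S.Tf (m + 1) (fun i => cut α pos (t - 1) i + sm α L i) ≤ 1 / 1000 ∧
      S.Tf (m + 2) (fun i => cut α pos (t - 1) i + sm α L i) ≤ 1 / 1000 ∧
      (∑ i ∈ S.C (m + 2), (cut α pos (t - 1) i + sm α L i) ^ 2 ≤ S.Q2b (m + 1)) ∧
      S.BlockInv α (m + 1) L (xb + 1 / 10 ^ 4) (xp + 1 / 10 ^ 4) (S.NbR (m + 1)) (Ne + 151)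
        (1.001 * M1 + S.NbR (m + 1) / 2 + 151) (1.001 * M2 + S.NbR (m + 1) / 2 + 151) ∧
      S.BlockInv α (m + 1) R (xb + 1 / 10 ^ 4) (xp + 1 / 10 ^ 4) (S.NbR (m + 1)) (Ne + 151)
        (1.001 * M1 + S.NbR (m + 1) / 2 + 151) (1.001 * M2 + S.NbR (m + 1) / 2 + 151) ∧
      S.LFf (m + 1) (sm α (S.Lv α (m + 1) L)) ≤ S.LFs LF (m + 1) ∧
      S.LFf (m + 1) (sm α (S.Lv α (m + 1) R)) ≤ S.LFs LF (m + 1) ∧
      S.JR α (m + 1) (m + 1) (S.Wk (m + 1) k) (Bud + S.RC (m + 1) (S.NbR (m + 1)) LF) L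
        (fun i => cut α pos (t - 1) i + sm α L i) ∧
      S.JL α (m + 1) (m + 1) (S.Wk (m + 1) k) (Bud + S.RC (m + 1) (S.NbR (m + 1)) LF) R
        (fun i => cut α pos (t - 1) i + sm α L i) := by
    intro t h1 h2 h3
    have hJR' := hI.hJR (t - 1) (by omega)
    rw [Nat.sub_add_cancel h1] at hJR'
    exact resplit_block S hα hk hH (blk_disjoint pos (by omega)) (fun i => cut_pred pos h1 i)
      (fun i => cut_succ pos t i) hxb hxb0 hxp hxp0 hNe hM2 hM1 hM20 hLF0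
      (hI.hB (t - 1) (by omega)) (hI.hB t h2) (hI.hLF (t - 1) (by omega) hH) (hI.hLF t h2 hH)
      (hI.hT (t - 1) (by omega)) (hI.hT (t + 1) (by omega)) hJR' (hI.hJL t h2)
  choose! L R hUn hDis hSL hSR hT1 hT2 hQ hBL hBR hLFL hLFR hJRn hJLn using hres
  have hRe : IsRe F par pos L R := fun t h1 h2 h3 => ⟨hUn t h1 h2 h3, hDis t h1 h2 h3⟩
  have hpos := hI.hpos
  have hRC : 0 ≤ S.RC (m + 1) (S.NbR (m + 1)) LF := S.RC_nonneg (S.NbR_nonneg _) hLF0 _
  have hww : ∀ i, S.e i ≤ m + 1 → S.Wk (m + 1) k i ≤ S.Wk (m + 1) (k + 2) i :=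
    fun i _ => S.Wk_mono (by omega) i
  have hBud : Bud ≤ Bud + S.RC (m + 1) (S.NbR (m + 1)) LF := by linarith
  -- the left block of a pair
  have hblkL : ∀ u, u + 1 < F → (u + 1) % 2 = par → blk (rpos F par pos L) u = L (u + 1) := by
    intro u h2 h3
    have := blk_rpos_L hRe (t := u + 1) (by omega) h2 h3
    rwa [Nat.add_sub_cancel] at this
  refine ⟨rpos F par pos L, ⟨rpos_lt_F hpos, ?_, ?_, ?_, ?_, ?_⟩, fun t ht => cut_rpos_of_ne ht, ?_⟩
  · intro t ht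
    by_cases hc : 0 < t ∧ t < F ∧ t % 2 = par
    · rw [cut_rpos_ctr hRe hc.1 hc.2.1 hc.2.2]
      exact (hT1 t hc.1 hc.2.1 hc.2.2).trans (by norm_num)
    · rw [cut_rpos_of_not_ctr hpos hc]
      exact hI.hT t ht
  · intro u hu
    by_cases hc : 0 < u ∧ u < F ∧ u % 2 = par
    · rw [blk_rpos_R hRe hc.1 hc.2.1 hc.2.2]
      exact hBR u hc.1 hc.2.1 hc.2.2
    · by_cases hc' : u + 1 < F ∧ (u + 1) % 2 = par
      · rw [hblkL u hc'.1 hc'.2]
        exact hBL (u + 1) (by omega) hc'.1 hc'.2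
      · rw [blk_rpos_unp hc hc']
        refine (hI.hB u hu).mono' hxb0 ?_ hxp0 ?_ le_rfl ?_ ?_ ?_
        · norm_num
        · norm_num
        · linarith
        · have := S.NbR_nonneg (m + 1); linarith
        · have := S.NbR_nonneg (m + 1); linarith
  · intro u hu _
    by_cases hc : 0 < u ∧ u < F ∧ u % 2 = par
    · rw [blk_rpos_R hRe hc.1 hc.2.1 hc.2.2]
      exact hLFR u hc.1 hc.2.1 hc.2.2
    · by_cases hc' : u + 1 < F ∧ (u + 1) % 2 = par
      · rw [hblkL u hc'.1 hc'.2]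
        exact hLFL (u + 1) (by omega) hc'.1 hc'.2
      · rw [blk_rpos_unp hc hc']
        exact (hI.hLF u hu hH).trans (S.le_LFs hLF0 _)
  · intro u hu
    by_cases hc : 0 < u ∧ u < F ∧ u % 2 = par
    · rw [blk_rpos_R hRe hc.1 hc.2.1 hc.2.2, cut_rpos_ctr hRe hc.1 hc.2.1 hc.2.2]
      exact hJLn u hc.1 hc.2.1 hc.2.2
    · by_cases hc' : u + 1 < F ∧ (u + 1) % 2 = par
      · rw [hblkL u hc'.1 hc'.2, cut_rpos_of_not_ctr hpos hc]
        have hS := hSL (u + 1) (by omega) hc'.1 hc'.2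
        rw [Nat.add_sub_cancel] at hS
        exact (hI.hJL u hu).mono' hww hBud hS
      · rw [blk_rpos_unp hc hc', cut_rpos_of_not_ctr hpos hc]
        exact (hI.hJL u hu).mono' hww hBud rfl
  · intro u hu
    by_cases hc : 0 < u ∧ u < F ∧ u % 2 = par
    · rw [blk_rpos_R hRe hc.1 hc.2.1 hc.2.2,
        cut_rpos_of_not_ctr hpos (t := u + 1) (by omega)]
      exact (hI.hJR u hu).mono' hww hBud (hSR u hc.1 hc.2.1 hc.2.2)
    · by_cases hc' : u + 1 < F ∧ (u + 1) % 2 = par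
      · rw [hblkL u hc'.1 hc'.2, cut_rpos_ctr hRe (by omega) hc'.1 hc'.2]
        exact hJRn (u + 1) (by omega) hc'.1 hc'.2
      · rw [blk_rpos_unp hc hc', cut_rpos_of_not_ctr hpos (t := u + 1) (by omega)]
        exact (hI.hJR u hu).mono' hww hBud rfl
  · intro t h1 h2 h3
    rw [cut_rpos_ctr hRe h1 h2 h3]
    exact ⟨hT1 t h1 h2 h3, hT2 t h1 h2 h3, hQ t h1 h2 h3⟩

/-! ## The end of a level -/

lemma Sched.U_succ (m : ℕ) : S.U (m + 2) = S.U (m + 1) ∪ S.C (m + 2) := by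
  ext i; simp only [Sched.mem_U, Sched.mem_C, mem_union]; omega

lemma Sched.U_C_disjoint (m : ℕ) : Disjoint (S.U (m + 1)) (S.C (m + 2)) := by
  rw [Finset.disjoint_left]; intro i h1 h2
  rw [Sched.mem_U] at h1; rw [Sched.mem_C] at h2; omega

lemma Sched.C_subset_H (m : ℕ) : S.C (m + 2) ⊆ S.H (m + 1) := by
  intro i hi
  rw [Sched.mem_C] at hi; rw [Sched.mem_H]; omega

/-- The square of a sum of few unit elements, on a class. -/
lemma sum_sm_sq_le (hα : ∀ v, ∑ i, α v i ^ 2 ≤ 1) (C G : Finset _) :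
    ∑ c ∈ C, (sm α G c) ^ 2 ≤ (G.card : ℝ) ^ 2 := by
  have h1 : ∀ c ∈ C, (sm α G c) ^ 2 ≤ (G.card : ℝ) * ∑ v ∈ G, α v c ^ 2 := by
    intro c _
    exact sq_sum_le_card_mul_sum_sq
  have h2 : ∑ c ∈ C, ∑ v ∈ G, α v c ^ 2 ≤ (G.card : ℝ) := by
    rw [Finset.sum_comm]
    calc ∑ v ∈ G, ∑ c ∈ C, α v c ^ 2 ≤ ∑ v ∈ G, (1 : ℝ) := by
          refine Finset.sum_le_sum fun v _ => ?_
          exact (Finset.sum_le_univ_sum_of_nonneg (fun i => sq_nonneg _)).trans (hα v)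
      _ = (G.card : ℝ) := by simp
  calc ∑ c ∈ C, (sm α G c) ^ 2 ≤ ∑ c ∈ C, (G.card : ℝ) * ∑ v ∈ G, α v c ^ 2 := Finset.sum_le_sum h1
    _ = (G.card : ℝ) * ∑ c ∈ C, ∑ v ∈ G, α v c ^ 2 := by rw [Finset.mul_sum]
    _ ≤ (G.card : ℝ) * (G.card : ℝ) := mul_le_mul_of_nonneg_left h2 (Nat.cast_nonneg _)
    _ = (G.card : ℝ) ^ 2 := by ring

/-- A new class enters the position form. -/
lemma Sched.end_Q {m : ℕ} {y x g : Fin d → ℝ} {Q N A : ℝ}
    (hy : ∀ i, y i = x i + g i) (hx : ∑ i ∈ S.C (m + 2), x i ^ 2 ≤ Q)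
    (hg : ∑ i ∈ S.C (m + 2), g i ^ 2 ≤ N ^ 2)
    (hA : S.Qf (m + 1) (S.Wk (m + 1) 0) y ≤ A) :
    S.Qf (m + 2) (S.W (m + 2)) y ≤ A + (if (S.C (m + 2)).Nonempty then 2 * Q + 2 * N ^ 2 else 0) := by
  unfold Sched.Qf at hA ⊢
  rw [S.U_succ, Finset.sum_union (S.U_C_disjoint m)]
  have h1 : ∑ i ∈ S.U (m + 1), S.W (m + 2) i * y i ^ 2
      = ∑ i ∈ S.U (m + 1), S.Wk (m + 1) 0 i * y i ^ 2 := by
    refine Finset.sum_congr rfl fun i _ => ?_
    rw [S.Wk_zero]
  rw [h1]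
  refine add_le_add hA ?_
  split_ifs with hne
  · calc ∑ i ∈ S.C (m + 2), S.W (m + 2) i * y i ^ 2
        ≤ ∑ i ∈ S.C (m + 2), (2 * x i ^ 2 + 2 * g i ^ 2) := by
          refine Finset.sum_le_sum fun i _ => ?_
          have h2 := S.W_le_one (m + 2) i
          have h3 := S.W_half_le (m + 2) i
          rw [hy i]
          have h4 : (x i + g i) ^ 2 ≤ 2 * x i ^ 2 + 2 * g i ^ 2 := by nlinarith [sq_nonneg (x i - g i)]
          have h5 : S.W (m + 2) i * (x i + g i) ^ 2 ≤ 1 * (x i + g i) ^ 2 :=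
            mul_le_mul_of_nonneg_right h2 (sq_nonneg _)
          linarith
      _ = 2 * ∑ i ∈ S.C (m + 2), x i ^ 2 + 2 * ∑ i ∈ S.C (m + 2), g i ^ 2 := by
          rw [Finset.sum_add_distrib, Finset.mul_sum, Finset.mul_sum]
      _ ≤ 2 * Q + 2 * N ^ 2 := by linarith
  · rw [Finset.not_nonempty_iff_eq_empty] at hne
    rw [hne]; simp

/-- The same for the light sum form. -/
lemma Sched.end_LF {m : ℕ} {y : Fin d → ℝ} {Q A : ℝ}
    (hA : S.LFf (m + 1) y ≤ A) (hx : ∑ i ∈ S.C (m + 2), y i ^ 2 ≤ Q) :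
    S.LFf (m + 2) y ≤ 4 / 3 * A + (if (S.C (m + 2)).Nonempty then Q else 0) := by
  unfold Sched.LFf at hA ⊢
  rw [S.U_succ, Finset.sum_union (S.U_C_disjoint m)]
  have h1 : ∑ i ∈ S.U (m + 1), S.ph (m + 2) i * y i ^ 2
      = 4 / 3 * ∑ i ∈ S.U (m + 1), S.ph (m + 1) i * y i ^ 2 := by
    rw [Finset.mul_sum]
    refine Finset.sum_congr rfl fun i hi => ?_
    have h := S.mem_U.1 hi
    have e : m + 2 - S.e i = (m + 1 - S.e i) + 1 := by omega
    unfold Sched.ph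
    rw [e, pow_succ]
    ring
  rw [h1]
  refine add_le_add (by linarith) ?_
  split_ifs with hne
  · refine le_trans (le_of_eq ?_) hx
    refine Finset.sum_congr rfl fun i hi => ?_
    have h := S.mem_C.1 hi
    have e : m + 2 - S.e i = 0 := by omega
    unfold Sched.ph
    rw [e]; simp
  · rw [Finset.not_nonempty_iff_eq_empty] at hne
    rw [hne]; simp

/-- The light sum is a difference of two cuts and a sum of few elements. -/
lemma Sched.light_eq (m : ℕ) (pos : V → ℕ) (t : ℕ) (i : Fin d) :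
    sm α (S.Lv α m (blk pos t)) i
      = cut α pos (t + 1) i + (- cut α pos t i + - sm α (S.Sv α m (blk pos t)) i) := by
  classical
  have h1 : sm α (blk pos t) i = sm α (S.Sv α m (blk pos t)) i + sm α (S.Lv α m (blk pos t)) i := by
    unfold sm Sched.Sv Sched.Lv
    rw [Finset.sum_filter_add_sum_filter_not]
  rw [cut_succ pos t i, h1]
  ring

lemma Sched.Sv_card_le_of {S : Sched d} {m : ℕ} {B : Finset V} {xb xp Nh Ne M1 M2 : ℝ}
    (h : S.BlockInv α m B xb xp Nh Ne M1 M2) {G : Finset V} (hG : G ⊆ S.Sv α m B) :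
    (G.card : ℝ) ≤ Nh :=
  le_trans (by exact_mod_cast Finset.card_le_card hG) h.hNh

/-- **One level.** The second statement controls the sizes once nothing is corrected any more. -/
theorem level_step (hα : ∀ v, ∑ i, α v i ^ 2 ≤ 1) (h0 : ∀ i, ∑ v, α v i = 0) {m F : ℕ} {pos : V → ℕ}
    (hI : S.LevelInv α m F pos) :
    ∃ (F' : ℕ) (pos' : V → ℕ), S.LevelInv α (m + 1) F' pos' ∧
      (S.H (m + 1) = ∅ → ∀ Z : ℝ, (∀ t, ((blk pos t).card : ℝ) ≤ Z) →
        ∀ t, ((blk pos' t).card : ℝ) ≤ Z / 16 + 1) := by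
  classical
  obtain ⟨pos1, hM1, hsize⟩ := rough_all S hα h0 hI
  have hNbR := S.NbR_nonneg (m + 1)
  have hNbRle := S.NbR_le m
  have hNbs := S.Nb_small m
  have hM2s := S.Mb2_small4 m
  have hM1R := S.M1R_nonneg m
  have hM2R := S.M2R_nonneg m
  have hM1c := S.M1R_chain m
  have hM2c := S.M2R_chain m
  have hLFr := S.LFr_nonneg (LFb_nonneg S m) m
  by_cases hH : (S.H (m + 1)).Nonempty
  · -- two rounds of re-splits
    have hLFs := le_trans hLFr (S.le_LFs hLFr (m + 1))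
    obtain ⟨pos2, hM2', hcut2, hbd2⟩ := round_all S (k := 2) (par := 1) hα h0 (by norm_num) hH
      (by norm_num) (by norm_num) (by norm_num) (by norm_num) (by linarith) (by nlinarith) hNbR
      hM1R hM2R hLFr hM1
    have hM1R' : 0 ≤ 1.001 * S.M1R m + S.NbR (m + 1) / 2 + 151 := by linarith
    have hM2R' : 0 ≤ 1.001 * S.M2R m + S.NbR (m + 1) / 2 + 151 := by linarith
    obtain ⟨pos3, hM3, hcut3, hbd3⟩ := round_all S (k := 0) (par := 0) hα h0 (by norm_num) hH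
      (by norm_num) (by norm_num) (by norm_num) (by norm_num) (by linarith) (by nlinarith) (by linarith)
      hM1R' hM2R' hLFs hM2'
    have hposF1 := hM3.hpos
    have hpos2 := hM2'.hpos
    -- all bounds at all cuts
    have hcuts : ∀ t ≤ F * S.K m, S.Tf (m + 1) (cut α pos3 t) ≤ 1 / 1000 ∧
        S.Tf (m + 2) (cut α pos3 t) ≤ 1 / 1000 ∧
        ∑ i ∈ S.C (m + 2), cut α pos3 t i ^ 2 ≤ S.Q2b (m + 1) := by
      intro t ht
      have hzero : cut α pos3 t = (fun _ => 0) → S.Tf (m + 1) (cut α pos3 t) ≤ 1 / 1000 ∧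
          S.Tf (m + 2) (cut α pos3 t) ≤ 1 / 1000 ∧
          ∑ i ∈ S.C (m + 2), cut α pos3 t i ^ 2 ≤ S.Q2b (m + 1) := by
        intro e
        rw [e]
        have hz : ∀ u, S.Tf u (fun _ => 0) = 0 := by intro u; simp [Sched.Tf]
        refine ⟨by rw [hz]; norm_num, by rw [hz]; norm_num, ?_⟩
        simpa using S.Q2b_nonneg (m + 1)
      by_cases h1 : t = 0
      · subst h1; exact hzero (cut_zero pos3)
      · by_cases h2 : t = F * S.K m
        · exact hzero (cut_top hposF1 h0 h2.ge)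
        · have h3 : t < F * S.K m := by omega
          rcases Nat.mod_two_eq_zero_or_one t with hp | hp
          · exact hbd3 t (by omega) h3 hp
          · rw [hcut3 t (by omega)]
            exact hbd2 t (by omega) h3 hp
    refine ⟨F * S.K m, pos3, ⟨hposF1, fun t ht => ⟨(hcuts t ht).1, (hcuts t ht).2.1⟩, ?_, ?_, ?_, ?_⟩, ?_⟩
    · intro t ht
      refine (hM3.hB t ht).mono' (by norm_num) (by norm_num) (by norm_num) (by norm_num) (by linarith)
        (by linarith) hM1c hM2c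
    · intro t ht _
      have hBt := hM3.hB t ht
      have hq := hcuts t ht.le
      have hq' := hcuts (t + 1) ht
      have hA := hM3.hLF t ht hH
      have hle := S.end_LF (m := m) (y := sm α (S.Lv α (m + 1) (blk pos3 t)))
        (Q := 3 * (2 * S.Q2b (m + 1) + S.NbR (m + 1) ^ 2)) hA ?_
      · refine hle.trans (le_of_eq ?_)
        simp only [Sched.LFb]
      · have hs := sum_sm_sq_le hα (S.C (m + 2)) (S.Sv α (m + 1) (blk pos3 t))
        have hcard := Sched.Sv_card_le_of hBt (G := S.Sv α (m + 1) (blk pos3 t)) (Finset.Subset.refl _)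
        have hcard2 : ((S.Sv α (m + 1) (blk pos3 t)).card : ℝ) ^ 2 ≤ S.NbR (m + 1) ^ 2 :=
          pow_le_pow_left₀ (Nat.cast_nonneg _) hcard 2
        calc ∑ i ∈ S.C (m + 2), sm α (S.Lv α (m + 1) (blk pos3 t)) i ^ 2
            ≤ ∑ i ∈ S.C (m + 2), (3 * cut α pos3 (t + 1) i ^ 2 + 3 * cut α pos3 t i ^ 2
                + 3 * sm α (S.Sv α (m + 1) (blk pos3 t)) i ^ 2) := by
              refine Finset.sum_le_sum fun i _ => ?_
              rw [S.light_eq (m + 1) pos3 t i]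
              nlinarith [sq_nonneg (cut α pos3 (t + 1) i + cut α pos3 t i),
                sq_nonneg (cut α pos3 (t + 1) i + sm α (S.Sv α (m + 1) (blk pos3 t)) i),
                sq_nonneg (cut α pos3 t i - sm α (S.Sv α (m + 1) (blk pos3 t)) i)]
          _ = 3 * ∑ i ∈ S.C (m + 2), cut α pos3 (t + 1) i ^ 2
                + 3 * ∑ i ∈ S.C (m + 2), cut α pos3 t i ^ 2
                + 3 * ∑ i ∈ S.C (m + 2), sm α (S.Sv α (m + 1) (blk pos3 t)) i ^ 2 := by
              rw [Finset.sum_add_distrib, Finset.sum_add_distrib, Finset.mul_sum, Finset.mul_sum,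
                Finset.mul_sum]
          _ ≤ 3 * (2 * S.Q2b (m + 1) + S.NbR (m + 1) ^ 2) := by
              have := hq.2.2; have := hq'.2.2
              linarith
    · intro t ht G hG
      have hBt := hM3.hB t ht
      have hcard := Sched.Sv_card_le_of hBt hG
      have hcard2 : (G.card : ℝ) ^ 2 ≤ S.NbR (m + 1) ^ 2 := pow_le_pow_left₀ (Nat.cast_nonneg _) hcard 2
      have hle := S.end_Q (m := m) (y := fun i => cut α pos3 t i + sm α G i) (x := cut α pos3 t)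
        (g := sm α G) (Q := S.Q2b (m + 1)) (N := S.NbR (m + 1)) (fun i => rfl)
        (hcuts t ht.le).2.2 ((sum_sm_sq_le hα _ G).trans hcard2) (hM3.hJL t ht G hG)
      refine hle.trans (le_of_eq ?_)
      simp only [Sched.Bud, Sched.Inc, if_pos hH]
      ring
    · intro t ht G hG
      have hBt := hM3.hB t ht
      have hcard := Sched.Sv_card_le_of hBt hG
      have hcard2 : (G.card : ℝ) ^ 2 ≤ S.NbR (m + 1) ^ 2 := pow_le_pow_left₀ (Nat.cast_nonneg _) hcard 2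
      have hle := S.end_Q (m := m) (y := fun i => cut α pos3 (t + 1) i - sm α G i)
        (x := cut α pos3 (t + 1)) (g := fun i => - sm α G i) (Q := S.Q2b (m + 1)) (N := S.NbR (m + 1))
        (fun i => sub_eq_add_neg _ _) (hcuts (t + 1) ht).2.2
        (by
          simp only [neg_sq]
          exact (sum_sm_sq_le hα _ G).trans hcard2) (hM3.hJR t ht G hG)
      refine hle.trans (le_of_eq ?_)
      simp only [Sched.Bud, Sched.Inc, if_pos hH]
      ring
    · intro hE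
      rw [hE] at hH
      simp at hH
  · -- nothing is corrected any more
    have hE : S.H (m + 1) = ∅ := Finset.not_nonempty_iff_eq_empty.1 hH
    have hCE : S.C (m + 2) = ∅ := Finset.subset_empty.1 (hE ▸ S.C_subset_H m)
    have hH2 : S.H (m + 2) = ∅ := Finset.subset_empty.1 (hE ▸ S.H_succ_subset (m + 1))
    have hQ0 : ∀ x : Fin d → ℝ, ∑ i ∈ S.C (m + 2), x i ^ 2 ≤ 0 := by intro x; rw [hCE]; simp
    refine ⟨F * S.K m, pos1, ⟨hM1.hpos, ?_, ?_, ?_, ?_, ?_⟩, ?_⟩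
    · intro t _
      simp [Sched.Tf, hE, hH2]
    · intro t ht
      refine (hM1.hB t ht).mono' (by norm_num) (by norm_num) (by norm_num) (by norm_num) (by linarith)
        (by linarith) (by linarith) (by linarith)
    · intro t _ hne
      exact absurd hne hH
    · intro t ht G hG
      have hle := S.end_Q (m := m) (y := fun i => cut α pos1 t i + sm α G i) (x := cut α pos1 t)
        (g := sm α G) (Q := 0) (N := 0) (fun i => rfl) (hQ0 _) (by simpa using hQ0 (sm α G))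
        (A := S.Bud m + S.RCr m)
        ((Sched.Qf_mono (fun i _ => S.Wk_mono (by norm_num) i)).trans (hM1.hJL t ht G hG))
      refine hle.trans (le_of_eq ?_)
      simp [Sched.Bud, Sched.Inc, hH, hCE]
    · intro t ht G hG
      have hle := S.end_Q (m := m) (y := fun i => cut α pos1 (t + 1) i - sm α G i)
        (x := cut α pos1 (t + 1)) (g := fun i => - sm α G i) (Q := 0) (N := 0)
        (fun i => sub_eq_add_neg _ _) (hQ0 _) (by simpa using hQ0 (sm α G))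
        (A := S.Bud m + S.RCr m)
        ((Sched.Qf_mono (fun i _ => S.Wk_mono (by norm_num) i)).trans (hM1.hJR t ht G hG))
      refine hle.trans (le_of_eq ?_)
      simp [Sched.Bud, Sched.Inc, hH, hCE]
    · intro _ Z hZ t
      have hZ0 : 0 ≤ Z := le_trans (Nat.cast_nonneg _) (hZ 0)
      have hK16 : (16 : ℝ) ≤ (S.K m : ℝ) := by
        unfold Sched.K
        have h32 : 1 ≤ S.j m := by have := S.hj m; omega
        have : 16 ^ 1 ≤ 16 ^ S.j m := Nat.pow_le_pow_right (by norm_num) h32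
        exact_mod_cast this
      have h1 := hsize t
      have h2 := hZ (t / S.K m)
      have h3 : ((blk pos (t / S.K m)).card : ℝ) / (S.K m : ℝ) ≤ Z / 16 := by
        exact div_le_div₀ hZ0 h2 (by norm_num) hK16
      linarith

end Vale.Agent.P262S
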