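import Vale.Agent.P262S.Iface

/-!
# Formula (*): the two rounding theorems in the units of the rows (notes/P262_sqrtd.md, section 0).

Rows `r v I`, weights `β I > 0`, the lifted vector is `l v I = (β I / 3) r v I`, so the effective
variance is `s² I = 1600 / β I ²`. A form test has a form `f`, centres `c`, an exponent `τ`.
-/

open Finset

namespace Vale.Agent.P262S

variable {I : Type} [Fintype I]

/-- The effective variance of a row of weight `β`. -/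
noncomputable def sv (β : I → ℝ) (i : I) : ℝ := 1600 / β i ^ 2

/-- A form test: the form `∑ f i (c i + x i)²`, scale `τ`. -/
structure FT (β : I → ℝ) where
  f : I → ℝ
  c : I → ℝ
  τ : ℝ
  hf : ∀ i, 0 ≤ f i
  hτ : 0 < τ
  hs : ∀ i, τ * f i * sv β i ≤ 1 / 4

/-- The value of the form. -/
noncomputable def FT.val {β : I → ℝ} (t : FT β) (x : I → ℝ) : ℝ := ∑ i, t.f i * (t.c i + x i) ^ 2

/-- The deterministic part of the bound in formula (*). -/
noncomputable def FT.bd {β : I → ℝ} (t : FT β) : ℝ :=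
  ∑ i, (2 * sv β i * t.f i + t.f i * (1 + 4 * t.τ * t.f i * sv β i) * t.c i ^ 2)

/-- The form test as a test in the lifted coordinates. -/
noncomputable def FT.qt {β : I → ℝ} (hβ : ∀ i, 0 < β i) (t : FT β) : QT I where
  μ i := t.τ * t.f i * (3 / β i) ^ 2
  c i := (β i / 3) * t.c i
  hμ0 i := by
    have := t.hτ
    have := t.hf i
    positivity
  hμ1 i := by
    have h := t.hs i
    have hb := hβ i
    have e : t.τ * t.f i * (3 / β i) ^ 2 * (1600 / 9) = t.τ * t.f i * sv β i := by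
      unfold sv
      field_simp
      ring
    rw [e]
    exact h

lemma FT.qt_val {β : I → ℝ} (hβ : ∀ i, 0 < β i) (t : FT β) (x : I → ℝ) :
    (t.qt hβ).val (fun i => (β i / 3) * x i) = t.τ * t.val x := by
  unfold QT.val FT.val
  rw [Finset.mul_sum]
  refine Finset.sum_congr rfl fun i _ => ?_
  have hb := (hβ i).ne'
  simp only [FT.qt]
  field_simp

lemma FT.qt_Psi {β : I → ℝ} (hβ : ∀ i, 0 < β i) (t : FT β) :
    (t.qt hβ).Psi = t.τ * t.bd := by
  unfold QT.Psi FT.bd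
  rw [Finset.mul_sum]
  refine Finset.sum_congr rfl fun i _ => ?_
  have hb := (hβ i).ne'
  simp only [FT.qt, sv]
  field_simp
  ring

/-- **Formula (*) for the fractional rounding.** -/
theorem star_round {V 𝒯 : Type} [Fintype 𝒯] (B : Finset V) (β : I → ℝ) (hβ : ∀ i, 0 < β i)
    (r : V → I → ℝ) (hr : ∀ v ∈ B, ∑ i, (β i / 3 * r v i) ^ 2 ≤ 1)
    (y : V → ℝ) (hy : ∀ v ∈ B, 0 ≤ y v ∧ y v ≤ 1)
    (t : 𝒯 → FT β) (π : 𝒯 → ℝ) (hπ : ∀ τ, 0 < π τ) (hπ1 : ∑ τ, π τ ≤ 1) :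
    ∃ Y : V → ℝ, (∀ v, Y v = 0 ∨ Y v = 1) ∧
      ∀ τ, (t τ).val (fun i => ∑ v ∈ B, (Y v - y v) * r v i)
        ≤ (t τ).bd + Real.log (1 / π τ) / (t τ).τ := by
  obtain ⟨Y, hY, h⟩ := round_frac B (fun v i => β i / 3 * r v i) hr y hy
    (fun τ => (t τ).qt hβ) π hπ hπ1
  refine ⟨Y, hY, fun τ => ?_⟩
  have h1 := h τ
  have e : (fun i => ∑ v ∈ B, (Y v - y v) * (β i / 3 * r v i))
      = fun i => β i / 3 * ∑ v ∈ B, (Y v - y v) * r v i := by
    funext i
    rw [Finset.mul_sum]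
    refine Finset.sum_congr rfl fun v _ => ?_
    ring
  rw [e, FT.qt_val, FT.qt_Psi] at h1
  have hτ := (t τ).hτ
  rw [← sub_nonneg] at h1 ⊢
  have e2 : (t τ).bd + Real.log (1 / π τ) / (t τ).τ - (t τ).val (fun i => ∑ v ∈ B, (Y v - y v) * r v i)
      = ((t τ).τ * (t τ).bd + Real.log (1 / π τ)
          - (t τ).τ * (t τ).val (fun i => ∑ v ∈ B, (Y v - y v) * r v i)) / (t τ).τ := by
    field_simp
  rw [e2]
  exact div_nonneg h1 hτ.le

/-- **Formula (*) for the rough split**: all cuts, both signs. -/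
theorem star_rough {V 𝒯 : Type} [DecidableEq V] [Fintype 𝒯] (B : Finset V) (β : I → ℝ)
    (hβ : ∀ i, 0 < β i) (r : V → I → ℝ) (hr : ∀ v ∈ B, ∑ i, (β i / 3 * r v i) ^ 2 ≤ 1)
    (K : ℕ) (hK : 1 ≤ K) (t : 𝒯 → FT β) (π : 𝒯 → ℝ) (hπ : ∀ τ, 0 < π τ) (hπ1 : ∑ τ, π τ ≤ 1) :
    ∃ sub : V → ℕ, (∀ v, sub v < K) ∧
      (∀ s ≤ K, (B.filter fun v => sub v < s).card = s * B.card / K) ∧
      ∀ s ≤ K, ∀ τ, ∀ σ : ℝ, (σ = 1 ∨ σ = -1) →
        (t τ).val (fun i => σ * (∑ v ∈ B.filter (fun v => sub v < s), r v i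
            - (((s * B.card / K : ℕ) : ℝ) / (B.card : ℝ)) * ∑ v ∈ B, r v i))
          ≤ (t τ).bd + Real.log (2 * K / π τ) / (t τ).τ := by
  obtain ⟨sub, h1, h2, h⟩ := rough_split B (fun v i => β i / 3 * r v i) hr K hK
    (fun τ => (t τ).qt hβ) π hπ hπ1
  refine ⟨sub, h1, h2, fun s hs τ σ hσ => ?_⟩
  have h3 := h s hs τ σ hσ
  have e : (fun i => σ * (∑ v ∈ B.filter (fun v => sub v < s), β i / 3 * r v i
        - (((s * B.card / K : ℕ) : ℝ) / (B.card : ℝ)) * ∑ v ∈ B, β i / 3 * r v i))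
      = fun i => β i / 3 * (σ * (∑ v ∈ B.filter (fun v => sub v < s), r v i
            - (((s * B.card / K : ℕ) : ℝ) / (B.card : ℝ)) * ∑ v ∈ B, r v i)) := by
    funext i
    rw [← Finset.mul_sum, ← Finset.mul_sum]
    ring
  rw [e, FT.qt_val, FT.qt_Psi] at h3
  have hτ := (t τ).hτ
  rw [← sub_nonneg] at h3 ⊢
  obtain ⟨X, hX⟩ : ∃ X, X = (t τ).val (fun i => σ * (∑ v ∈ B.filter (fun v => sub v < s), r v i
            - (((s * B.card / K : ℕ) : ℝ) / (B.card : ℝ)) * ∑ v ∈ B, r v i)) := ⟨_, rfl⟩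
  rw [← hX] at h3 ⊢
  have e2 : (t τ).bd + Real.log (2 * K / π τ) / (t τ).τ - X
      = ((t τ).τ * (t τ).bd + Real.log (2 * K / π τ) - (t τ).τ * X) / (t τ).τ := by
    field_simp
  rw [e2]
  exact div_nonneg h3 hτ.le

end Vale.Agent.P262S
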