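import Vale.Agent.P262S.Solve
import Vale.Agent.P262S.Star

/-! # The re-split at one cut: the pieces (notes/P262_sqrtd.md, section 4). Level `m + 1`. -/

open Finset

namespace Vale.Agent.P262S

variable {d : ℕ} (S : Sched d)
variable {V : Type} [Fintype V] [DecidableEq V] (α : V → Fin d → ℝ)

/-- The tilt. -/
noncomputable def Sched.shf (m : ℕ) (a : Fin d → ℝ) (v : V) : ℝ := ∑ k ∈ S.H (m + 1), a k * α v k

/-- The light elements of the two blocks. -/
noncomputable def Sched.Lam (m : ℕ) (B₁ B₂ : Finset V) : Finset V := S.Lv α (m + 1) (B₁ ∪ B₂)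

/-- The new left block. -/
noncomputable def Sched.Lnew (m : ℕ) (B₁ B₂ : Finset V) (Y : V → ℝ) : Finset V :=
  S.Sv α (m + 1) B₁ ∪ (S.Lam α m B₁ B₂).filter fun v => Y v = 1

/-- The new right block. -/
noncomputable def Sched.Rnew (m : ℕ) (B₁ B₂ : Finset V) (Y : V → ℝ) : Finset V :=
  S.Sv α (m + 1) B₂ ∪ (S.Lam α m B₁ B₂).filter fun v => Y v = 0

/-- The noise of a row. -/
noncomputable def Sched.nz (m : ℕ) (B₁ B₂ : Finset V) (a : Fin d → ℝ) (Y : V → ℝ) (r : V → ℝ) : ℝ :=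
  ∑ v ∈ S.Lam α m B₁ B₂, (Y v - (1 / 2 + S.shf α m a v)) * r v

/-- The spill of the tilt on a coordinate. -/
noncomputable def Sched.spl (m : ℕ) (B₁ B₂ : Finset V) (a : Fin d → ℝ) (i : Fin d) : ℝ :=
  ∑ v ∈ S.Lam α m B₁ B₂, S.shf α m a v * α v i

/-- The centre of the corrected coordinates. -/
noncomputable def cc (p q : Fin d → ℝ) (S₁ S₂ : Finset V) (k : Fin d) : ℝ :=
  (p k + q k) / 2 + (sm α S₁ k - sm α S₂ k) / 2

end Vale.Agent.P262S
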