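import Vale.Agent.P262S.ResplitCore

/-! # Re-split: shared helper estimates for the tilt, the spill and the block bounds. -/

open Finset

namespace Vale.Agent.P262S

variable {d : ℕ} (S : Sched d)
variable {V : Type} [Fintype V] [DecidableEq V] {α : V → Fin d → ℝ}

/-- The mass of a row on a sub-collection of coordinates is at most `1`. -/
lemma row_le_one (hα : ∀ v, ∑ i, α v i ^ 2 ≤ 1) (J : Finset (Fin d)) (v : V) : ∑ i ∈ J, α v i ^ 2 ≤ 1 :=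
  (Finset.sum_le_sum_of_subset_of_nonneg (Finset.subset_univ J) fun _ _ _ => sq_nonneg _).trans (hα v)

lemma entry_sq_le_one (hα : ∀ v, ∑ i, α v i ^ 2 ≤ 1) (v : V) (i : Fin d) : α v i ^ 2 ≤ 1 :=
  (Finset.single_le_sum (f := fun i => α v i ^ 2) (fun _ _ => sq_nonneg _) (Finset.mem_univ i)).trans (hα v)

/-- Splitting a block into its heavy and light parts. -/
lemma Sched.MB_split (ℓ : ℕ) (B : Finset V) (k l : Fin d) :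
    MB α B k l = MB α (S.Sv α ℓ B) k l + MB α (S.Lv α ℓ B) k l := by
  classical
  unfold MB Sched.Sv Sched.Lv
  exact (Finset.sum_filter_add_sum_filter_not B (S.Hv α ℓ) _).symm

lemma Sched.Lv_union (ℓ : ℕ) (B₁ B₂ : Finset V) :
    S.Lv α ℓ (B₁ ∪ B₂) = S.Lv α ℓ B₁ ∪ S.Lv α ℓ B₂ := by
  classical
  unfold Sched.Lv
  exact Finset.filter_union _ _ _

lemma Sched.Lv_subset (ℓ : ℕ) (B : Finset V) : S.Lv α ℓ B ⊆ B := by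
  classical
  unfold Sched.Lv
  exact Finset.filter_subset _ _

lemma Sched.Sv_subset (ℓ : ℕ) (B : Finset V) : S.Sv α ℓ B ⊆ B := by
  classical
  unfold Sched.Sv
  exact Finset.filter_subset _ _

lemma Sched.Lv_disjoint (ℓ : ℕ) {B₁ B₂ : Finset V} (h : Disjoint B₁ B₂) :
    Disjoint (S.Lv α ℓ B₁) (S.Lv α ℓ B₂) :=
  Finset.disjoint_of_subset_left (S.Lv_subset ℓ B₁) (Finset.disjoint_of_subset_right (S.Lv_subset ℓ B₂) h)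

/-- The sum over the rounded elements splits over the two blocks. -/
lemma Sched.Lam_sum' {m : ℕ} {B₁ B₂ : Finset V} (hdis : Disjoint B₁ B₂) (r : V → ℝ) :
    ∑ v ∈ S.Lam α m B₁ B₂, r v = ∑ v ∈ S.Lv α (m + 1) B₁, r v + ∑ v ∈ S.Lv α (m + 1) B₂, r v := by
  unfold Sched.Lam
  rw [S.Lv_union]
  exact Finset.sum_union (S.Lv_disjoint _ hdis)

/-- The moment matrix of the rounded elements. -/
lemma Sched.MB_Lam {m : ℕ} {B₁ B₂ : Finset V} (hdis : Disjoint B₁ B₂) (k l : Fin d) :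
    MB α (S.Lam α m B₁ B₂) k l = MB α B₁ k l + MB α B₂ k l
      - MB α (S.Sv α (m + 1) B₁) k l - MB α (S.Sv α (m + 1) B₂) k l := by
  have h1 := S.MB_split (α := α) (m + 1) B₁ k l
  have h2 := S.MB_split (α := α) (m + 1) B₂ k l
  have h3 : MB α (S.Lam α m B₁ B₂) k l = MB α (S.Lv α (m + 1) B₁) k l + MB α (S.Lv α (m + 1) B₂) k l :=
    S.Lam_sum' hdis _
  linarith

/-- The deviation of the rounded elements from the doubled diagonal. -/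
lemma Sched.E_Lam {m : ℕ} {B₁ B₂ : Finset V} (hdis : Disjoint B₁ B₂) (k l : Fin d) :
    (MB α (S.Lam α m B₁ B₂) k l - if k = l then 2 * S.q k (m + 1) ^ 4 else 0)
      = S.Err α (m + 1) B₁ k l + S.Err α (m + 1) B₂ k l
        - MB α (S.Sv α (m + 1) B₁) k l - MB α (S.Sv α (m + 1) B₂) k l := by
  rw [S.MB_Lam hdis]
  unfold Sched.Err
  split_ifs <;> ring

/-- A Frobenius bound for the moment matrix of a small set. -/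
lemma sum_MB_sq_le (hα : ∀ v, ∑ i, α v i ^ 2 ≤ 1) (J₁ J₂ : Finset (Fin d)) (f : Fin d → Fin d → ℝ) {W : ℝ}
    (hf0 : ∀ k ∈ J₁, ∀ l ∈ J₂, 0 ≤ f k l) (hfW : ∀ k ∈ J₁, ∀ l ∈ J₂, f k l ≤ W) (hW : 0 ≤ W) (G : Finset V) :
    ∑ k ∈ J₁, ∑ l ∈ J₂, f k l * MB α G k l ^ 2 ≤ W * (G.card : ℝ) ^ 2 := by
  have h1 : ∀ k ∈ J₁, ∀ l ∈ J₂, f k l * MB α G k l ^ 2 ≤ W * ((G.card : ℝ) * ∑ v ∈ G, (α v k * α v l) ^ 2) := by
    intro k hk l hl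
    have h2 : MB α G k l ^ 2 ≤ (G.card : ℝ) * ∑ v ∈ G, (α v k * α v l) ^ 2 := by
      unfold MB
      exact sq_sum_le_card_mul_sum_sq
    exact mul_le_mul (hfW k hk l hl) h2 (sq_nonneg _) hW
  have h3 : ∑ k ∈ J₁, ∑ l ∈ J₂, ∑ v ∈ G, (α v k * α v l) ^ 2 ≤ (G.card : ℝ) := by
    have e : ∑ k ∈ J₁, ∑ l ∈ J₂, ∑ v ∈ G, (α v k * α v l) ^ 2
        = ∑ v ∈ G, (∑ k ∈ J₁, α v k ^ 2) * ∑ l ∈ J₂, α v l ^ 2 := by
      simp_rw [Finset.sum_mul_sum, mul_pow]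
      calc ∑ k ∈ J₁, ∑ l ∈ J₂, ∑ v ∈ G, α v k ^ 2 * α v l ^ 2
          = ∑ k ∈ J₁, ∑ v ∈ G, ∑ l ∈ J₂, α v k ^ 2 * α v l ^ 2 :=
            Finset.sum_congr rfl fun k _ => Finset.sum_comm
        _ = _ := Finset.sum_comm
    rw [e]
    have h4 : ∀ v ∈ G, (∑ k ∈ J₁, α v k ^ 2) * ∑ l ∈ J₂, α v l ^ 2 ≤ 1 := by
      intro v _
      exact mul_le_one₀ (row_le_one hα J₁ v) (Finset.sum_nonneg fun _ _ => sq_nonneg _) (row_le_one hα J₂ v)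
    have := Finset.sum_le_card_nsmul _ _ _ h4
    simpa using this
  have hc : (0 : ℝ) ≤ (G.card : ℝ) := by positivity
  calc ∑ k ∈ J₁, ∑ l ∈ J₂, f k l * MB α G k l ^ 2
      ≤ ∑ k ∈ J₁, ∑ l ∈ J₂, W * ((G.card : ℝ) * ∑ v ∈ G, (α v k * α v l) ^ 2) :=
        Finset.sum_le_sum fun k hk => Finset.sum_le_sum fun l hl => h1 k hk l hl
    _ = W * ((G.card : ℝ) * ∑ k ∈ J₁, ∑ l ∈ J₂, ∑ v ∈ G, (α v k * α v l) ^ 2) := by
        simp_rw [Finset.mul_sum]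
    _ ≤ W * ((G.card : ℝ) * (G.card : ℝ)) :=
        mul_le_mul_of_nonneg_left (mul_le_mul_of_nonneg_left h3 hc) hW
    _ = W * (G.card : ℝ) ^ 2 := by ring

/-- The weight of `Xf`. -/
lemma Sched.Xf_term (ℓ : ℕ) {k l : Fin d} (hk : k ∈ S.H ℓ) (hl : l ∈ S.H ℓ) :
    0 < S.q k ℓ ^ 2 * S.q l ℓ ^ 2 * min (S.q k ℓ) (S.q l ℓ) ^ 2 ∧
      S.b ℓ ^ 6 ≤ S.q k ℓ ^ 2 * S.q l ℓ ^ 2 * min (S.q k ℓ) (S.q l ℓ) ^ 2 := by
  have hb : 0 < S.b ℓ := lt_of_lt_of_le (by norm_num) (S.b_ge ℓ)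
  have h1 := S.b_le_q hk
  have h2 := S.b_le_q hl
  have h3 : S.b ℓ ≤ min (S.q k ℓ) (S.q l ℓ) := le_min h1 h2
  have hk0 := S.q_pos hk
  have hl0 := S.q_pos hl
  have hm0 : 0 < min (S.q k ℓ) (S.q l ℓ) := lt_min hk0 hl0
  refine ⟨by positivity, ?_⟩
  calc S.b ℓ ^ 6 = S.b ℓ ^ 2 * S.b ℓ ^ 2 * S.b ℓ ^ 2 := by ring
    _ ≤ S.q k ℓ ^ 2 * S.q l ℓ ^ 2 * min (S.q k ℓ) (S.q l ℓ) ^ 2 := by
        gcongr

/-- `Xf` of the moment matrix of a small set. -/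
lemma Sched.Xf_MB_le (hα : ∀ v, ∑ i, α v i ^ 2 ≤ 1) (ℓ : ℕ) (G : Finset V) :
    S.Xf ℓ (MB α G) ≤ (G.card : ℝ) ^ 2 / S.b ℓ ^ 6 := by
  have hb : 0 < S.b ℓ := lt_of_lt_of_le (by norm_num) (S.b_ge ℓ)
  have h := sum_MB_sq_le hα (G := G) (S.H ℓ) (S.H ℓ)
    (fun k l => 1 / (S.q k ℓ ^ 2 * S.q l ℓ ^ 2 * min (S.q k ℓ) (S.q l ℓ) ^ 2)) (W := 1 / S.b ℓ ^ 6)
    (fun k hk l hl => (one_div_pos.2 (S.Xf_term ℓ hk hl).1).le)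
    (fun k hk l hl => one_div_le_one_div_of_le (by positivity) (S.Xf_term ℓ hk hl).2)
    (by positivity)
  unfold Sched.Xf
  calc _ = ∑ k ∈ S.H ℓ, ∑ l ∈ S.H ℓ,
        (1 / (S.q k ℓ ^ 2 * S.q l ℓ ^ 2 * min (S.q k ℓ) (S.q l ℓ) ^ 2)) * MB α G k l ^ 2 :=
        Finset.sum_congr rfl fun k _ => Finset.sum_congr rfl fun l _ => by ring
    _ ≤ _ := h
    _ = _ := by ring

/-- `Xf` of the moment matrix of a set of size at most `b / 1000`. -/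
lemma Sched.Xf_MB_small (hα : ∀ v, ∑ i, α v i ^ 2 ≤ 1) (ℓ : ℕ) {G : Finset V}
    (hG : 1000 * (G.card : ℝ) ≤ S.b ℓ) : S.Xf ℓ (MB α G) ≤ 1 / 10 ^ 6 := by
  have hb : (2 : ℝ) ^ 42 ≤ S.b ℓ := S.b_ge ℓ
  have hb1 : (1 : ℝ) ≤ S.b ℓ := by linarith [show (1 : ℝ) ≤ 2 ^ 42 by norm_num]
  refine (S.Xf_MB_le hα ℓ G).trans ?_
  rw [div_le_div_iff₀ (by positivity) (by norm_num)]
  have h1 : (1000 * (G.card : ℝ)) ^ 2 ≤ S.b ℓ ^ 2 := pow_le_pow_left₀ (by positivity) hG 2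
  have h2 : S.b ℓ ^ 2 ≤ S.b ℓ ^ 6 := pow_le_pow_right₀ hb1 (by norm_num)
  nlinarith

/-- Four term subadditivity of `Xf`. -/
lemma Sched.Xf_four (ℓ : ℕ) {E E₁ E₂ E₃ E₄ : Fin d → Fin d → ℝ}
    (h : ∀ k l, E k l = E₁ k l + E₂ k l - E₃ k l - E₄ k l) :
    S.Xf ℓ E ≤ 4 * (S.Xf ℓ E₁ + S.Xf ℓ E₂ + S.Xf ℓ E₃ + S.Xf ℓ E₄) := by
  unfold Sched.Xf
  simp only [← Finset.sum_add_distrib, Finset.mul_sum]
  refine Finset.sum_le_sum fun k hk => Finset.sum_le_sum fun l hl => ?_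
  have h0 := (S.Xf_term ℓ hk hl).1
  rw [h k l, ← add_div, ← add_div, ← add_div, ← mul_div_assoc]
  refine div_le_div_of_nonneg_right ?_ h0.le
  nlinarith [sq_nonneg (E₁ k l - E₂ k l), sq_nonneg (E₁ k l + E₃ k l), sq_nonneg (E₁ k l + E₄ k l),
    sq_nonneg (E₂ k l + E₃ k l), sq_nonneg (E₂ k l + E₄ k l), sq_nonneg (E₃ k l - E₄ k l)]

/-- `Tf` of the sum of a small set. -/
lemma Sched.Tf_sm_le (hα : ∀ v, ∑ i, α v i ^ 2 ≤ 1) (ℓ : ℕ) (G : Finset V) :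
    S.Tf ℓ (sm α G) ≤ (G.card : ℝ) ^ 2 / S.b ℓ ^ 2 := by
  have hb : 0 < S.b ℓ := lt_of_lt_of_le (by norm_num) (S.b_ge ℓ)
  have hc : (0 : ℝ) ≤ (G.card : ℝ) := by positivity
  have h1 : ∀ k ∈ S.H ℓ, sm α G k ^ 2 / S.q k ℓ ^ 2
      ≤ (1 / S.b ℓ ^ 2) * ((G.card : ℝ) * ∑ v ∈ G, α v k ^ 2) := by
    intro k hk
    have hq := S.q_pos hk
    have h2 : sm α G k ^ 2 ≤ (G.card : ℝ) * ∑ v ∈ G, α v k ^ 2 := sq_sum_le_card_mul_sum_sq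
    have h3 : S.b ℓ ^ 2 ≤ S.q k ℓ ^ 2 := pow_le_pow_left₀ hb.le (S.b_le_q hk) 2
    rw [div_le_iff₀ (by positivity)]
    have h4 : 1 ≤ (1 / S.b ℓ ^ 2) * S.q k ℓ ^ 2 := by
      rw [div_mul_eq_mul_div, one_mul, one_le_div (by positivity)]
      exact h3
    have h5 : 0 ≤ (G.card : ℝ) * ∑ v ∈ G, α v k ^ 2 :=
      mul_nonneg hc (Finset.sum_nonneg fun _ _ => sq_nonneg _)
    nlinarith
  unfold Sched.Tf
  refine (Finset.sum_le_sum h1).trans ?_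
  rw [← Finset.mul_sum, ← Finset.mul_sum, Finset.sum_comm]
  have h6 : ∑ v ∈ G, ∑ k ∈ S.H ℓ, α v k ^ 2 ≤ (G.card : ℝ) := by
    have := Finset.sum_le_card_nsmul G (fun v => ∑ k ∈ S.H ℓ, α v k ^ 2) 1 (fun v _ => row_le_one hα _ v)
    simpa using this
  calc (1 / S.b ℓ ^ 2) * ((G.card : ℝ) * ∑ v ∈ G, ∑ k ∈ S.H ℓ, α v k ^ 2)
      ≤ (1 / S.b ℓ ^ 2) * ((G.card : ℝ) * (G.card : ℝ)) := by gcongr
    _ = _ := by ring

lemma Sched.Tf_sm_small (hα : ∀ v, ∑ i, α v i ^ 2 ≤ 1) (ℓ : ℕ) {G : Finset V}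
    (hG : 1000 * (G.card : ℝ) ≤ S.b ℓ) : S.Tf ℓ (sm α G) ≤ 1 / 10 ^ 6 := by
  have hb : (2 : ℝ) ^ 42 ≤ S.b ℓ := S.b_ge ℓ
  have hb0 : 0 < S.b ℓ := lt_of_lt_of_le (by norm_num) hb
  refine (S.Tf_sm_le hα ℓ G).trans ?_
  rw [div_le_div_iff₀ (by positivity) (by norm_num)]
  have h1 : (1000 * (G.card : ℝ)) ^ 2 ≤ S.b ℓ ^ 2 := pow_le_pow_left₀ (by positivity) hG 2
  nlinarith

/-- `Tf` of the centre. -/
lemma Sched.Tf_cc (ℓ : ℕ) (p q : Fin d → ℝ) (S₁ S₂ : Finset V) :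
    S.Tf ℓ (cc α p q S₁ S₂) ≤ S.Tf ℓ p + S.Tf ℓ q + S.Tf ℓ (sm α S₁) + S.Tf ℓ (sm α S₂) := by
  unfold Sched.Tf
  simp only [← Finset.sum_add_distrib]
  refine Finset.sum_le_sum fun k hk => ?_
  have hq := S.q_pos hk
  rw [← add_div, ← add_div, ← add_div]
  refine div_le_div_of_nonneg_right ?_ (by positivity)
  unfold cc
  nlinarith [sq_nonneg (p k - q k), sq_nonneg (sm α S₁ k + sm α S₂ k), sq_nonneg (p k + q k - sm α S₁ k + sm α S₂ k)]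

end Vale.Agent.P262S
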