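import Vale.Agent.P262S.RoughDet4

/-! # Deterministic consequences of the tests: the end invariants of the children. -/

open Finset

namespace Vale.Agent.P262S

variable {d : ℕ} (S : Sched d)
variable {V : Type} [Fintype V] [DecidableEq V] {α : V → Fin d → ℝ}

/-- Heavy and light parts of a sum. -/
lemma Sched.sm_split (m : ℕ) (A : Finset V) (i : Fin d) :
    sm α A i = sm α (S.Lv α m A) i + sm α (S.Sv α m A) i := by
  unfold sm Sched.Lv Sched.Sv
  rw [add_comm, Finset.sum_filter_add_sum_filter_not]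

/-- A cut on the coordinates of the position form. -/
lemma Sched.sm_first_U {m s : ℕ} {B : Finset V} {sub : V → ℕ} {i : Fin d} (hi : i ∈ S.U (m + 1)) :
    sm α (B.filter fun v => sub v < s) i
      = ttt B (S.K m) s * sm α (S.Lv α m B) i + S.Nn α m B sub s (Sum.inl i)
        + sm α (S.Sv α m (B.filter fun v => sub v < s)) i := by
  have hni := mem_U_not_H S hi
  have h1 := S.sum_first α m B sub s (Sum.inl i)
  rw [S.sum_rr_U hni, S.sum_rr_U hni] at h1
  rw [S.sm_split m, h1]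

/-- The numbers in the cost of a rough split. -/
lemma Sched.cost_le {m : ℕ} {B : Finset V} {E : ℝ}
    (hh : ((S.Sv α m B).card : ℝ) ≤ S.Nb m) (hE0 : 0 ≤ E) (hE : E ≤ S.NbR (m + 1)) :
    3200 * S.Vw m + 960000 * S.Θ m * (3 + ((S.Sv α m B).card : ℝ) + 4 * (S.j m : ℝ))
        + 51 * (E ^ 2 * (5 * S.Θ m)) ≤ S.RCr m := by
  have hΘ := S.Θ_pos m
  unfold Sched.RCr
  have h1 : 960000 * S.Θ m * (3 + ((S.Sv α m B).card : ℝ) + 4 * (S.j m : ℝ))
      ≤ 960000 * S.Θ m * (3 + S.Nb m + 4 * (S.j m : ℝ)) := by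
    gcongr
  have h2 : E ^ 2 ≤ S.NbR (m + 1) ^ 2 := by gcongr
  have h3 : 51 * (E ^ 2 * (5 * S.Θ m)) ≤ 500 * S.NbR (m + 1) ^ 2 * S.Θ m := by
    have h4 : 0 ≤ S.NbR (m + 1) ^ 2 * S.Θ m := by positivity
    have h5 : E ^ 2 * S.Θ m ≤ S.NbR (m + 1) ^ 2 * S.Θ m := by gcongr
    nlinarith
  linarith

/-- The left end invariant of a child. -/
theorem Sched.rough_JL (hα : ∀ v, ∑ i, α v i ^ 2 ≤ 1) {m s : ℕ} {B : Finset V} {sub : V → ℕ}
    {p q : Fin d → ℝ} {Bud : ℝ}
    (hB : S.BlockInv α m B (1 / 100) (1 / 1000) (S.Nb m) (S.Nb m) (S.Mb1 m) (S.Mb2 m))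
    (hsz : (B.filter fun v => sub v < s).card = s * B.card / S.K m)
    (hq : ∀ i, q i = p i + sm α B i)
    (hJL : S.JL α m (m + 1) (S.W (m + 1)) Bud B p)
    (hJR : S.JR α m (m + 1) (S.W (m + 1)) Bud B q)
    (hN0 : S.RN α m B p q sub s) (hN1 : S.RN α m B p q sub (s + 1)) :
    S.JL α (m + 1) (m + 1) (S.Wk (m + 1) 4) (Bud + S.RCr m) (B.filter fun v => sub v = s)
      (fun i => p i + sm α (B.filter fun v => sub v < s) i) := by
  classical
  intro G hG
  set G1 := G.filter (fun v => S.Hv α m v) with hG1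
  set E := G.filter (fun v => ¬ S.Hv α m v) with hE
  have hsmG : ∀ i, sm α G i = sm α G1 i + sm α E i := by
    intro i
    unfold sm
    rw [hG1, hE, Finset.sum_filter_add_sum_filter_not]
  have hGch : ∀ v ∈ G, v ∈ B.filter (fun v => sub v = s) := fun v hv =>
    (Finset.mem_filter.mp (hG hv)).1
  have hEl : ∀ v ∈ E, S.uu α m v ≤ 1 := fun v hv => not_lt.mp (Finset.mem_filter.mp hv).2
  have hEc : (E.card : ℝ) ≤ S.NbR (m + 1) := by
    refine le_trans ?_ (S.child_Nh hB hN0 hN1)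
    have : E.card ≤ (S.Sv α (m + 1) (B.filter fun v => sub v = s)).card :=
      Finset.card_le_card ((Finset.filter_subset _ _).trans hG)
    exact_mod_cast this
  set G2 := S.Sv α m (B.filter fun v => sub v < s) ∪ G1 with hG2
  have hdisj : Disjoint (S.Sv α m (B.filter fun v => sub v < s)) G1 := by
    rw [Finset.disjoint_left]
    intro v hv hv'
    have h1 := (Finset.mem_filter.mp (Finset.mem_filter.mp hv).1).2
    have h2 := (Finset.mem_filter.mp (hGch v (Finset.mem_filter.mp hv').1)).2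
    omega
  have hG2s : G2 ⊆ S.Sv α m B := by
    intro v hv
    rcases Finset.mem_union.mp hv with h | h
    · have h1 := Finset.mem_filter.mp h
      exact Finset.mem_filter.mpr ⟨(Finset.mem_filter.mp h1.1).1, h1.2⟩
    · have h1 := Finset.mem_filter.mp h
      exact Finset.mem_filter.mpr ⟨(Finset.mem_filter.mp (hGch v h1.1)).1, h1.2⟩
  have h1 := S.chord_Q hsz hq hJL hJR hN0 hG2s
  have h2 := S.Q_add_heavy hα hEl (fun i => p i + ttt B (S.K m) s * sm α (S.Lv α m B) i + sm α G2 i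
            + S.Nn α m B sub s (Sum.inl i)) 1 (by norm_num)
  have e : S.Qf (m + 1) (S.Wk (m + 1) 4)
        (fun i => (fun i => p i + sm α (B.filter fun v => sub v < s) i) i + sm α G i)
      = ∑ i ∈ S.U (m + 1), S.Wk (m + 1) 4 i
        * (p i + ttt B (S.K m) s * sm α (S.Lv α m B) i + sm α G2 i
            + S.Nn α m B sub s (Sum.inl i) + 1 * sm α E i) ^ 2 := by
    unfold Sched.Qf
    refine Finset.sum_congr rfl fun i hi => ?_
    congr 2
    simp only
    rw [S.sm_first_U hi, hsmG i, hG2, sm_union hdisj]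
    ring
  rw [e]
  refine h2.trans ?_
  have h3 := S.cost_le (B := B) (E := (E.card : ℝ)) hB.hNh (Nat.cast_nonneg _) hEc
  linarith

/-- The right end invariant of a child. -/
theorem Sched.rough_JR (hα : ∀ v, ∑ i, α v i ^ 2 ≤ 1) {m s : ℕ} {B : Finset V} {sub : V → ℕ}
    {p q : Fin d → ℝ} {Bud : ℝ}
    (hB : S.BlockInv α m B (1 / 100) (1 / 1000) (S.Nb m) (S.Nb m) (S.Mb1 m) (S.Mb2 m))
    (hsz : (B.filter fun v => sub v < s + 1).card = (s + 1) * B.card / S.K m)
    (hq : ∀ i, q i = p i + sm α B i)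
    (hJL : S.JL α m (m + 1) (S.W (m + 1)) Bud B p)
    (hJR : S.JR α m (m + 1) (S.W (m + 1)) Bud B q)
    (hN0 : S.RN α m B p q sub s) (hN1 : S.RN α m B p q sub (s + 1)) :
    S.JR α (m + 1) (m + 1) (S.Wk (m + 1) 4) (Bud + S.RCr m) (B.filter fun v => sub v = s)
      (fun i => p i + sm α (B.filter fun v => sub v < s + 1) i) := by
  classical
  intro G hG
  set G1 := G.filter (fun v => S.Hv α m v) with hG1
  set E := G.filter (fun v => ¬ S.Hv α m v) with hE
  have hsmG : ∀ i, sm α G i = sm α G1 i + sm α E i := by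
    intro i
    unfold sm
    rw [hG1, hE, Finset.sum_filter_add_sum_filter_not]
  have hGch : ∀ v ∈ G, v ∈ B.filter (fun v => sub v = s) := fun v hv =>
    (Finset.mem_filter.mp (hG hv)).1
  have hEl : ∀ v ∈ E, S.uu α m v ≤ 1 := fun v hv => not_lt.mp (Finset.mem_filter.mp hv).2
  have hEc : (E.card : ℝ) ≤ S.NbR (m + 1) := by
    refine le_trans ?_ (S.child_Nh hB hN0 hN1)
    have : E.card ≤ (S.Sv α (m + 1) (B.filter fun v => sub v = s)).card :=
      Finset.card_le_card ((Finset.filter_subset _ _).trans hG)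
    exact_mod_cast this
  have hG1s : G1 ⊆ S.Sv α m (B.filter fun v => sub v < s + 1) := by
    intro v hv
    have h1 := Finset.mem_filter.mp hv
    have h2 := Finset.mem_filter.mp (hGch v h1.1)
    refine Finset.mem_filter.mpr ⟨Finset.mem_filter.mpr ⟨h2.1, ?_⟩, h1.2⟩
    omega
  set G2 := S.Sv α m (B.filter fun v => sub v < s + 1) \ G1 with hG2
  have hsmG2 : ∀ i, sm α G2 i = sm α (S.Sv α m (B.filter fun v => sub v < s + 1)) i - sm α G1 i := by
    intro i
    have h := sm_union (α := α) (A := G1) (A' := G2) Finset.disjoint_sdiff i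
    rw [hG2, Finset.union_sdiff_of_subset hG1s] at h
    rw [hG2, h]
    ring
  have hG2s : G2 ⊆ S.Sv α m B := by
    intro v hv
    have h1 := Finset.mem_filter.mp (Finset.mem_sdiff.mp hv).1
    exact Finset.mem_filter.mpr ⟨(Finset.mem_filter.mp h1.1).1, h1.2⟩
  have h1 := S.chord_Q hsz hq hJL hJR hN1 hG2s
  have h2 := S.Q_add_heavy hα hEl
    (fun i => p i + ttt B (S.K m) (s + 1) * sm α (S.Lv α m B) i + sm α G2 i
            + S.Nn α m B sub (s + 1) (Sum.inl i)) (-1) (by norm_num)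
  have e : S.Qf (m + 1) (S.Wk (m + 1) 4)
        (fun i => (fun i => p i + sm α (B.filter fun v => sub v < s + 1) i) i - sm α G i)
      = ∑ i ∈ S.U (m + 1), S.Wk (m + 1) 4 i
        * (p i + ttt B (S.K m) (s + 1) * sm α (S.Lv α m B) i + sm α G2 i
            + S.Nn α m B sub (s + 1) (Sum.inl i) + (-1) * sm α E i) ^ 2 := by
    unfold Sched.Qf
    refine Finset.sum_congr rfl fun i hi => ?_
    congr 2
    simp only
    rw [S.sm_first_U hi, hsmG i, hsmG2 i]
    ring
  rw [e]
  refine h2.trans ?_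
  have h3 := S.cost_le (B := B) (E := (E.card : ℝ)) hB.hNh (Nat.cast_nonneg _) hEc
  linarith

end Vale.Agent.P262S
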