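import Vale.Agent.P262S.Basic
import Vale.Agent.P262S.Forms
import Vale.Agent.P262S.RoughDet5

/-! # The rough split of one block (notes/P262_sqrtd.md, section 3). -/

open Finset

namespace Vale.Agent.P262S

variable {d : ℕ} (S : Sched d)
variable {V : Type} [Fintype V] [DecidableEq V] {α : V → Fin d → ℝ}

/-- **The rough split of one block.** -/
theorem rough_block (hα : ∀ v, ∑ i, α v i ^ 2 ≤ 1) {m : ℕ} {B : Finset V} {p q : Fin d → ℝ}
    {LF Bud : ℝ} (hq : ∀ i, q i = p i + sm α B i)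
    (hB : S.BlockInv α m B (1 / 100) (1 / 1000) (S.Nb m) (S.Nb m) (S.Mb1 m) (S.Mb2 m))
    (hLF : (S.H (m + 1)).Nonempty → S.LFf (m + 1) (sm α (S.Lv α m B)) ≤ LF)
    (hLF0 : 0 ≤ LF)
    (hTp : S.Tf (m + 1) p ≤ 1 / 1000) (hTq : S.Tf (m + 1) q ≤ 1 / 1000)
    (hJL : S.JL α m (m + 1) (S.W (m + 1)) Bud B p)
    (hJR : S.JR α m (m + 1) (S.W (m + 1)) Bud B q) :
    ∃ sub : V → ℕ, (∀ v, sub v < S.K m) ∧
      (∀ s ≤ S.K m, (B.filter fun v => sub v < s).card = s * B.card / S.K m) ∧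
      ∀ s < S.K m,
        S.Tf (m + 1) (fun i => p i + sm α (B.filter fun v => sub v < s) i) ≤ 1 / 100 ∧
        S.BlockInv α (m + 1) (B.filter fun v => sub v = s) (1 / 1000) (1 / 10 ^ 4)
          (S.NbR (m + 1)) (S.NbR (m + 1)) (S.M1R m) (S.M2R m) ∧
        ((S.H (m + 1)).Nonempty →
          S.LFf (m + 1) (sm α (S.Lv α (m + 1) (B.filter fun v => sub v = s))) ≤ S.LFr LF m) ∧
        S.JL α (m + 1) (m + 1) (S.Wk (m + 1) 4) (Bud + S.RCr m) (B.filter fun v => sub v = s)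
          (fun i => p i + sm α (B.filter fun v => sub v < s) i) ∧
        S.JR α (m + 1) (m + 1) (S.Wk (m + 1) 4) (Bud + S.RCr m) (B.filter fun v => sub v = s)
          (fun i => p i + sm α (B.filter fun v => sub v < s + 1) i) := by
  obtain ⟨sub, h1, h2, h3⟩ := S.exists_noise α hα m B p q
  refine ⟨sub, h1, h2, fun s hs => ?_⟩
  have hN0 := h3 s hs.le
  have hN1 := h3 (s + 1) hs
  refine ⟨S.rough_T hq (h2 s hs.le) hTp hTq hN0, ?_, fun hH => S.rough_LF hα hB hH (hLF hH) hN0 hN1,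
    S.rough_JL hα hB (h2 s hs.le) hq hJL hJR hN0 hN1,
    S.rough_JR hα hB (h2 (s + 1) hs) hq hJL hJR hN0 hN1⟩
  refine ⟨S.rough_X hα hB.hX hN0 hN1, S.rough_Xp hα hB.hX hN0 hN1, S.child_Nh hB hN0 hN1,
    S.child_Ne hB hN0 hN1, S.child_M1 hα hB hN0 hN1, ?_⟩
  intro c hc
  have : c = m := by omega
  subst this
  exact S.child_M2 hα hB hN0 hN1

end Vale.Agent.P262S
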