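import Vale.Agent.P262S.Basic
import Vale.Agent.P262S.Star

/-! # Rows and tests of the rough split (notes/P262_sqrtd.md, section 3). -/

open Finset

namespace Vale.Agent.P262S

/-- The lifted coordinates of a rough split. -/
abbrev RI (d : ℕ) := Fin d ⊕ (Fin d × Fin d) ⊕ Fin 3

variable {d : ℕ} (S : Sched d)
variable {V : Type} [Fintype V] [DecidableEq V] (α : V → Fin d → ℝ)

open Classical in
/-- The rows of a rough split at level `m`. -/
noncomputable def Sched.rr (m : ℕ) (v : V) : RI d → ℝ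
  | Sum.inl i => if i ∈ S.H (m + 1) then α v i else if S.Hv α m v then 0 else α v i
  | Sum.inr (Sum.inl x) => α v x.1 * α v x.2
  | Sum.inr (Sum.inr t) =>
      if t = 0 then min (S.uu α (m + 1) v) 1
      else if t = 1 then Row α (S.C (m + 1)) v else Row α (S.C m) v

/-- The weights of the rows. -/
noncomputable def Sched.rb (m : ℕ) : RI d → ℝ
  | Sum.inl i => √(S.om m i)
  | Sum.inr _ => 1

lemma Sched.rb_pos (m : ℕ) (I : RI d) : 0 < S.rb m I := by
  rcases I with i | x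
  · exact Real.sqrt_pos.mpr (S.om_pos m i)
  · exact one_pos

lemma Sched.sv_inl (m : ℕ) (i : Fin d) : sv (S.rb m) (Sum.inl i) = 1600 / S.om m i := by
  simp only [sv, Sched.rb]
  rw [Real.sq_sqrt (S.om_pos m i).le]

lemma Sched.sv_inr (m : ℕ) (x : (Fin d × Fin d) ⊕ Fin 3) : sv (S.rb m) (Sum.inr x) = 1600 := by
  simp [sv, Sched.rb]

lemma Row_nonneg (Cl : Finset (Fin d)) (v : V) : 0 ≤ Row α Cl v :=
  Finset.sum_nonneg fun _ _ => sq_nonneg _

lemma Row_le_one (hα : ∀ v, ∑ i, α v i ^ 2 ≤ 1) (Cl : Finset (Fin d)) (v : V) : Row α Cl v ≤ 1 := by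
  refine le_trans ?_ (hα v)
  exact Finset.sum_le_univ_sum_of_nonneg fun _ => sq_nonneg _

lemma Sched.om_eq_one {m : ℕ} {i : Fin d} (h : i ∈ S.H (m + 1)) : S.om m i = 1 := by
  have h1 := S.mem_H.mp h
  unfold Sched.om
  rw [if_neg (by omega)]

lemma Sched.sum_om_le (m : ℕ) (v : V) :
    ∑ i, S.om m i * α v i ^ 2 ≤ ∑ i, α v i ^ 2 + S.uu α m v := by
  unfold Sched.uu
  rw [Finset.sum_filter, ← Finset.sum_add_distrib]
  refine Finset.sum_le_sum fun i _ => ?_
  unfold Sched.om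
  split_ifs with h
  · have h1 := sq_nonneg (α v i)
    nlinarith
  · linarith

/-- The norm of the lifted vector. -/
lemma Sched.rr_norm (hα : ∀ v, ∑ i, α v i ^ 2 ≤ 1) (m : ℕ) (v : V) :
    ∑ I, (S.rb m I / 3 * S.rr α m v I) ^ 2 ≤ 1 := by
  classical
  rw [Fintype.sum_sum_type, Fintype.sum_sum_type]
  have h1 : ∑ i : Fin d, (S.rb m (Sum.inl i) / 3 * S.rr α m v (Sum.inl i)) ^ 2 ≤ 2 / 9 := by
    have e : ∀ i : Fin d, (S.rb m (Sum.inl i) / 3 * S.rr α m v (Sum.inl i)) ^ 2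
        = 1 / 9 * (S.om m i * S.rr α m v (Sum.inl i) ^ 2) := by
      intro i
      simp only [Sched.rb]
      rw [mul_pow, div_pow, Real.sq_sqrt (S.om_pos m i).le]
      ring
    simp_rw [e]
    rw [← Finset.mul_sum]
    have : ∑ i : Fin d, S.om m i * S.rr α m v (Sum.inl i) ^ 2 ≤ 2 := by
      by_cases hv : S.Hv α m v
      · have : ∀ i : Fin d, S.om m i * S.rr α m v (Sum.inl i) ^ 2 ≤ α v i ^ 2 := by
          intro i
          simp only [Sched.rr]
          by_cases hi : i ∈ S.H (m + 1)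
          · rw [if_pos hi, S.om_eq_one hi, one_mul]
          · rw [if_neg hi, if_pos hv]
            have := sq_nonneg (α v i)
            simpa using this
        have h2 := Finset.sum_le_sum (fun i (_ : i ∈ (univ : Finset (Fin d))) => this i)
        have h3 := hα v
        linarith
      · have : ∀ i : Fin d, S.om m i * S.rr α m v (Sum.inl i) ^ 2 = S.om m i * α v i ^ 2 := by
          intro i
          simp only [Sched.rr]
          by_cases hi : i ∈ S.H (m + 1)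
          · rw [if_pos hi]
          · rw [if_neg hi, if_neg hv]
        simp_rw [this]
        have h2 := S.sum_om_le α m v
        have h3 := hα v
        have h4 : S.uu α m v ≤ 1 := not_lt.mp hv
        linarith
    linarith
  have h2 : ∑ x : Fin d × Fin d, (S.rb m (Sum.inr (Sum.inl x)) / 3 * S.rr α m v (Sum.inr (Sum.inl x))) ^ 2
      ≤ 1 / 9 := by
    have e : ∀ x : Fin d × Fin d,
        (S.rb m (Sum.inr (Sum.inl x)) / 3 * S.rr α m v (Sum.inr (Sum.inl x))) ^ 2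
        = 1 / 9 * (α v x.1 ^ 2 * α v x.2 ^ 2) := by
      intro x
      simp only [Sched.rb, Sched.rr]
      ring
    simp_rw [e]
    rw [← Finset.mul_sum, Fintype.sum_prod_type]
    have : ∑ a : Fin d, ∑ b : Fin d, α v a ^ 2 * α v b ^ 2 = (∑ a, α v a ^ 2) * ∑ b, α v b ^ 2 := by
      rw [Finset.sum_mul_sum]
    simp only
    rw [this]
    have h3 := hα v
    have h4 : 0 ≤ ∑ a, α v a ^ 2 := Finset.sum_nonneg fun _ _ => sq_nonneg _
    nlinarith
  have h3 : ∑ t : Fin 3, (S.rb m (Sum.inr (Sum.inr t)) / 3 * S.rr α m v (Sum.inr (Sum.inr t))) ^ 2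
      ≤ 3 / 9 := by
    have hb : ∀ t : Fin 3, (S.rb m (Sum.inr (Sum.inr t)) / 3 * S.rr α m v (Sum.inr (Sum.inr t))) ^ 2
        ≤ 1 / 9 := by
      intro t
      have hr : 0 ≤ S.rr α m v (Sum.inr (Sum.inr t)) ∧ S.rr α m v (Sum.inr (Sum.inr t)) ≤ 1 := by
        simp only [Sched.rr]
        split_ifs
        · exact ⟨le_min (S.uu_nonneg α _ v) zero_le_one, min_le_right _ _⟩
        · exact ⟨Row_nonneg α _ v, Row_le_one α hα _ v⟩
        · exact ⟨Row_nonneg α _ v, Row_le_one α hα _ v⟩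
      simp only [Sched.rb]
      have := hr.1
      have := hr.2
      nlinarith
    calc _ ≤ ∑ _t : Fin 3, (1 / 9 : ℝ) := Finset.sum_le_sum fun t _ => hb t
      _ = 3 / 9 := by simp; norm_num
  linarith

/-! ### Form tests -/

/-- A form test on the coordinates. -/
noncomputable def Sched.ftc (m : ℕ) (w c : Fin d → ℝ) (τ : ℝ) (hw : ∀ i, 0 ≤ w i) (hτ : 0 < τ)
    (hs : ∀ i, τ * w i * (1600 / S.om m i) ≤ 1 / 4) : FT (S.rb m) where
  f := Sum.elim w (fun _ => 0)
  c := Sum.elim c (fun _ => 0)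
  τ := τ
  hf := by
    rintro (i | x)
    · exact hw i
    · exact le_refl 0
  hτ := hτ
  hs := by
    rintro (i | x)
    · simpa [S.sv_inl] using hs i
    · simp

/-- A form test on the pairs. -/
noncomputable def Sched.ftp (m : ℕ) (w : Fin d × Fin d → ℝ) (τ : ℝ) (hw : ∀ i, 0 ≤ w i) (hτ : 0 < τ)
    (hs : ∀ i, τ * w i * 1600 ≤ 1 / 4) : FT (S.rb m) where
  f := Sum.elim (fun _ => 0) (Sum.elim w (fun _ => 0))
  c := fun _ => 0
  τ := τ
  hf := by
    rintro (i | x | t)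
    · exact le_refl 0
    · exact hw x
    · exact le_refl 0
  hτ := hτ
  hs := by
    rintro (i | x | t)
    · simp
    · simpa [S.sv_inr] using hs x
    · simp

/-- A form test on one scalar row. -/
noncomputable def Sched.fts (m : ℕ) (t : Fin 3) : FT (S.rb m) where
  f := Sum.elim (fun _ => 0) (Sum.elim (fun _ => 0) (fun t' => if t' = t then 1 else 0))
  c := fun _ => 0
  τ := 1 / 6400
  hf := by
    rintro (i | x | t')
    · exact le_refl 0
    · exact le_refl 0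
    · simp only [Sum.elim_inr]
      split_ifs <;> norm_num
  hτ := by norm_num
  hs := by
    rintro (i | x | t')
    · simp
    · simp
    · simp only [Sum.elim_inr, S.sv_inr]
      split_ifs <;> norm_num

lemma Sched.ftc_val (m : ℕ) (w c : Fin d → ℝ) (τ : ℝ) (hw : ∀ i, 0 ≤ w i) (hτ : 0 < τ)
    (hs : ∀ i, τ * w i * (1600 / S.om m i) ≤ 1 / 4) (x : RI d → ℝ) :
    (S.ftc m w c τ hw hτ hs).val x = ∑ i, w i * (c i + x (Sum.inl i)) ^ 2 := by
  simp [FT.val, Sched.ftc, Fintype.sum_sum_type]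

lemma Sched.ftc_bd (m : ℕ) (w c : Fin d → ℝ) (τ : ℝ) (hw : ∀ i, 0 ≤ w i) (hτ : 0 < τ)
    (hs : ∀ i, τ * w i * (1600 / S.om m i) ≤ 1 / 4) :
    (S.ftc m w c τ hw hτ hs).bd
      = ∑ i, (2 * (1600 / S.om m i) * w i
          + w i * (1 + 4 * τ * w i * (1600 / S.om m i)) * c i ^ 2) := by
  simp [FT.bd, Sched.ftc, Fintype.sum_sum_type, S.sv_inl]

lemma Sched.ftp_val (m : ℕ) (w : Fin d × Fin d → ℝ) (τ : ℝ) (hw : ∀ i, 0 ≤ w i) (hτ : 0 < τ)
    (hs : ∀ i, τ * w i * 1600 ≤ 1 / 4) (x : RI d → ℝ) :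
    (S.ftp m w τ hw hτ hs).val x = ∑ y, w y * x (Sum.inr (Sum.inl y)) ^ 2 := by
  simp [FT.val, Sched.ftp, Fintype.sum_sum_type]

lemma Sched.ftp_bd (m : ℕ) (w : Fin d × Fin d → ℝ) (τ : ℝ) (hw : ∀ i, 0 ≤ w i) (hτ : 0 < τ)
    (hs : ∀ i, τ * w i * 1600 ≤ 1 / 4) :
    (S.ftp m w τ hw hτ hs).bd = ∑ y, 3200 * w y := by
  simp only [FT.bd, Sched.ftp, Fintype.sum_sum_type]
  simp only [Sum.elim_inl, Sum.elim_inr, S.sv_inr]
  simp
  refine Finset.sum_congr rfl fun i _ => ?_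
  ring

lemma Sched.fts_val (m : ℕ) (t : Fin 3) (x : RI d → ℝ) :
    (S.fts m t).val x = x (Sum.inr (Sum.inr t)) ^ 2 := by
  simp [FT.val, Sched.fts, Fintype.sum_sum_type]

lemma Sched.fts_bd (m : ℕ) (t : Fin 3) : (S.fts m t).bd = 3200 := by
  simp only [FT.bd, Sched.fts, Fintype.sum_sum_type]
  simp only [Sum.elim_inl, Sum.elim_inr, S.sv_inr]
  simp
  norm_num

lemma sum_ite_mul_mem {ι : Type} [Fintype ι] [DecidableEq ι] (A : Finset ι) (a y : ι → ℝ) :
    ∑ i, (if i ∈ A then a i else 0) * y i = ∑ i ∈ A, a i * y i := by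
  have : ∀ i, (if i ∈ A then a i else 0) * y i = if i ∈ A then a i * y i else 0 := by
    intro i
    split_ifs <;> simp
  simp_rw [this]
  rw [Finset.sum_ite_mem, Finset.univ_inter]

/-- The logarithmic overhead. -/
lemma Sched.log_K1 (m : ℕ) : Real.log (2 * (S.K m : ℝ) / (1 / 16)) ≤ 5 + 4 * (S.j m : ℝ) := by
  have e : 2 * (S.K m : ℝ) / (1 / 16) = 2 ^ (5 + 4 * S.j m) := by
    unfold Sched.K
    push_cast
    rw [pow_add, pow_mul]
    norm_num
    ring
  rw [e, Real.log_pow]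
  have h := Real.log_two_lt_d9
  have h0 : (0 : ℝ) ≤ ((5 + 4 * S.j m : ℕ) : ℝ) := Nat.cast_nonneg _
  push_cast at h0 ⊢
  nlinarith

lemma Sched.log_K2 (m n : ℕ) :
    Real.log (2 * (S.K m : ℝ) / (1 / 4 / 2 ^ n)) ≤ 3 + (n : ℝ) + 4 * (S.j m : ℝ) := by
  have e : 2 * (S.K m : ℝ) / (1 / 4 / 2 ^ n) = 2 ^ (3 + n + 4 * S.j m) := by
    unfold Sched.K
    push_cast
    rw [pow_add, pow_add, pow_mul]
    norm_num
    field_simp
    ring
  rw [e, Real.log_pow]
  have h := Real.log_two_lt_d9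
  have h0 : (0 : ℝ) ≤ ((3 + n + 4 * S.j m : ℕ) : ℝ) := Nat.cast_nonneg _
  push_cast at h0 ⊢
  nlinarith

end Vale.Agent.P262S
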