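import Vale.Agent.P262S.RoughExists

/-! # Deterministic consequences of the tests: cuts and children. -/

open Finset

namespace Vale.Agent.P262S

/-- The fraction of a cut. -/
noncomputable def ttt {V : Type} (B : Finset V) (K s : ℕ) : ℝ := ((s * B.card / K : ℕ) : ℝ) / (B.card : ℝ)

section gen
variable {V : Type} [DecidableEq V]

lemma first_succ (B : Finset V) (sub : V → ℕ) (s : ℕ) :
    B.filter (fun v => sub v < s + 1) = B.filter (fun v => sub v < s) ∪ B.filter (fun v => sub v = s) := by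
  ext v
  simp only [Finset.mem_filter, Finset.mem_union]
  constructor
  · rintro ⟨h1, h2⟩
    rcases Nat.lt_succ_iff_lt_or_eq.mp h2 with h | h
    · exact Or.inl ⟨h1, h⟩
    · exact Or.inr ⟨h1, h⟩
  · rintro (⟨h1, h2⟩ | ⟨h1, h2⟩)
    · exact ⟨h1, by omega⟩
    · exact ⟨h1, by omega⟩

lemma first_disj (B : Finset V) (sub : V → ℕ) (s : ℕ) :
    Disjoint (B.filter (fun v => sub v < s)) (B.filter (fun v => sub v = s)) := by
  rw [Finset.disjoint_left]
  intro v hv hv'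
  have h1 := (Finset.mem_filter.mp hv).2
  have h2 := (Finset.mem_filter.mp hv').2
  omega

lemma sum_child (B : Finset V) (sub : V → ℕ) (s : ℕ) (f : V → ℝ) :
    ∑ v ∈ B.filter (fun v => sub v = s), f v
      = ∑ v ∈ B.filter (fun v => sub v < s + 1), f v - ∑ v ∈ B.filter (fun v => sub v < s), f v := by
  rw [first_succ, Finset.sum_union (first_disj B sub s)]
  ring

lemma ttt_nonneg (B : Finset V) (K s : ℕ) : 0 ≤ ttt B K s := by
  unfold ttt
  positivity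

lemma ttt_le_one (B : Finset V) (K s : ℕ) (sub : V → ℕ)
    (h : (B.filter fun v => sub v < s).card = s * B.card / K) : ttt B K s ≤ 1 := by
  unfold ttt
  rw [← h]
  apply div_le_one_of_le₀
  · exact_mod_cast Finset.card_filter_le _ _
  · positivity

lemma nat_div_bounds (a K : ℕ) (hK : 1 ≤ K) :
    ((a / K : ℕ) : ℝ) ≤ (a : ℝ) / K ∧ (a : ℝ) / K < ((a / K : ℕ) : ℝ) + 1 := by
  have hK' : (0 : ℝ) < K := by exact_mod_cast hK
  constructor
  · exact Nat.cast_div_le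
  · rw [div_lt_iff₀ hK']
    have h1 := Nat.div_add_mod a K
    have h2 := Nat.mod_lt a (show 0 < K from hK)
    have h3 : a < (a / K + 1) * K := by nlinarith
    exact_mod_cast h3

/-- The bounds for the fraction of a child. -/
lemma theta_bounds (B : Finset V) (K s : ℕ) (hK : 1 ≤ K) (hB : 0 < B.card) :
    ttt B K (s + 1) - ttt B K s ≤ 1 / K + 1 / (B.card : ℝ)
      ∧ 1 / (K : ℝ) - 1 / (B.card : ℝ) ≤ ttt B K (s + 1) - ttt B K s := by
  have hK' : (0 : ℝ) < K := by exact_mod_cast hK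
  have hB' : (0 : ℝ) < B.card := by exact_mod_cast hB
  obtain ⟨h1, h2⟩ := nat_div_bounds (s * B.card) K hK
  obtain ⟨h3, h4⟩ := nat_div_bounds ((s + 1) * B.card) K hK
  unfold ttt
  have e : (((s + 1) * B.card : ℕ) : ℝ) / K = ((s * B.card : ℕ) : ℝ) / K + (B.card : ℝ) / K := by
    push_cast
    field_simp
  rw [e] at h3 h4
  have e2 : ((((s + 1) * B.card / K : ℕ) : ℝ) / (B.card : ℝ)) - (((s * B.card / K : ℕ) : ℝ) / (B.card : ℝ))
      = (((((s + 1) * B.card / K : ℕ) : ℝ)) - ((s * B.card / K : ℕ) : ℝ)) / (B.card : ℝ) := by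
    ring
  rw [e2]
  constructor
  · rw [div_le_iff₀ hB']
    have e3 : (1 / (K : ℝ) + 1 / (B.card : ℝ)) * (B.card : ℝ) = (B.card : ℝ) / K + 1 := by
      field_simp
    rw [e3]
    linarith
  · rw [le_div_iff₀ hB']
    have e3 : (1 / (K : ℝ) - 1 / (B.card : ℝ)) * (B.card : ℝ) = (B.card : ℝ) / K - 1 := by
      field_simp
    rw [e3]
    linarith

lemma theta_nonneg (B : Finset V) (K s : ℕ) : 0 ≤ ttt B K (s + 1) - ttt B K s := by
  unfold ttt
  rw [← sub_div]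
  apply div_nonneg _ (Nat.cast_nonneg _)
  rw [sub_nonneg]
  have : s * B.card / K ≤ (s + 1) * B.card / K := by
    apply Nat.div_le_div_right
    nlinarith
  exact_mod_cast this

/-- A row with values in `[0,1]`, on a child. -/
lemma theta_mul_le (B : Finset V) (K s : ℕ) (hK : 1 ≤ K) (r : V → ℝ)
    (h0 : ∀ v ∈ B, 0 ≤ r v) (h1 : ∀ v ∈ B, r v ≤ 1) :
    (ttt B K (s + 1) - ttt B K s) * ∑ v ∈ B, r v ≤ (∑ v ∈ B, r v) / K + 1 := by
  have hK' : (0 : ℝ) < K := by exact_mod_cast hK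
  have hS0 : 0 ≤ ∑ v ∈ B, r v := Finset.sum_nonneg h0
  by_cases hB : 0 < B.card
  · have hB' : (0 : ℝ) < B.card := by exact_mod_cast hB
    have hS1 : ∑ v ∈ B, r v ≤ B.card := by
      calc ∑ v ∈ B, r v ≤ ∑ _v ∈ B, (1 : ℝ) := Finset.sum_le_sum h1
        _ = B.card := by simp
    have h2 := (theta_bounds B K s hK hB).1
    calc _ ≤ (1 / K + 1 / (B.card : ℝ)) * ∑ v ∈ B, r v := by gcongr
      _ = (∑ v ∈ B, r v) / K + (∑ v ∈ B, r v) / (B.card : ℝ) := by ring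
      _ ≤ _ := by
        have : (∑ v ∈ B, r v) / (B.card : ℝ) ≤ 1 := by
          rw [div_le_one hB']
          exact hS1
        linarith
  · have hB0 : B = ∅ := Finset.card_eq_zero.mp (by omega)
    subst hB0
    simp

end gen

variable {d : ℕ} (S : Sched d)
variable {V : Type} [Fintype V] [DecidableEq V] (α : V → Fin d → ℝ)

lemma Sched.sum_first (m : ℕ) (B : Finset V) (sub : V → ℕ) (s : ℕ) (I : RI d) :
    ∑ v ∈ B.filter (fun v => sub v < s), S.rr α m v I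
      = ttt B (S.K m) s * ∑ v ∈ B, S.rr α m v I + S.Nn α m B sub s I := by
  unfold Sched.Nn ttt
  ring

lemma Sched.sum_ch (m : ℕ) (B : Finset V) (sub : V → ℕ) (s : ℕ) (I : RI d) :
    ∑ v ∈ B.filter (fun v => sub v = s), S.rr α m v I
      = (ttt B (S.K m) (s + 1) - ttt B (S.K m) s) * ∑ v ∈ B, S.rr α m v I
        + (S.Nn α m B sub (s + 1) I - S.Nn α m B sub s I) := by
  rw [sum_child, S.sum_first, S.sum_first]
  ring

lemma Sched.K_one_le (m : ℕ) : 1 ≤ S.K m := Nat.one_le_pow _ _ (by norm_num)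

/-- The cast of `K`. -/
lemma Sched.K_cast (m : ℕ) : (S.K m : ℝ) = 2 ^ (4 * S.j m) := by
  unfold Sched.K
  push_cast
  rw [pow_mul]
  norm_num

variable {α}

lemma single_term_le {ι : Type} {A : Finset ι} {g : ι → ι → ℝ} (h0 : ∀ k ∈ A, ∀ l ∈ A, 0 ≤ g k l)
    {k : ι} (hk : k ∈ A) : g k k ≤ ∑ k ∈ A, ∑ l ∈ A, g k l := by
  have h1 : g k k ≤ ∑ l ∈ A, g k l :=
    Finset.single_le_sum (f := fun l => g k l) (fun l hl => h0 k hk l hl) hk
  have h2 : ∑ l ∈ A, g k l ≤ ∑ k ∈ A, ∑ l ∈ A, g k l :=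
    Finset.single_le_sum (f := fun k => ∑ l ∈ A, g k l)
      (fun k hk => Finset.sum_nonneg fun l hl => h0 k hk l hl) hk
  exact h1.trans h2

/-- The diagonal of the error is small. -/
lemma Sched.err_diag {m : ℕ} {B : Finset V}
    (hX : S.Xf m (S.Err α m B) ≤ (1 / 100) ^ 2) {k : Fin d} (hk : k ∈ S.H m) :
    |S.Err α m B k k| ≤ S.q k m ^ 3 / 100 := by
  have hq := S.q_pos hk
  have h1 : S.Err α m B k k ^ 2 / (S.q k m ^ 2 * S.q k m ^ 2 * min (S.q k m) (S.q k m) ^ 2)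
      ≤ S.Xf m (S.Err α m B) := by
    unfold Sched.Xf
    exact single_term_le (g := fun k l => S.Err α m B k l ^ 2 / (S.q k m ^ 2 * S.q l m ^ 2 * min (S.q k m) (S.q l m) ^ 2))
      (fun k hk l hl => by
        have h1 := S.q_pos hk
        have h2 := S.q_pos hl
        have h3 : 0 < min (S.q k m) (S.q l m) := lt_min h1 h2
        positivity) hk
  rw [min_self] at h1
  have h2 := h1.trans hX
  rw [div_le_iff₀ (by positivity)] at h2
  apply abs_le_of_sq_le_sq _ (by positivity)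
  calc _ ≤ _ := h2
    _ = (S.q k m ^ 3 / 100) ^ 2 := by ring

lemma Sched.MB_diag (m : ℕ) (B : Finset V) (k : Fin d) :
    MB α B k k = S.q k m ^ 4 + S.Err α m B k k := by
  unfold Sched.Err
  simp

lemma sq_coord_le_one (hα : ∀ v, ∑ i, α v i ^ 2 ≤ 1) (v : V) (k : Fin d) : α v k ^ 2 ≤ 1 := by
  refine le_trans ?_ (hα v)
  exact Finset.single_le_sum (f := fun i => α v i ^ 2) (fun i _ => sq_nonneg _) (Finset.mem_univ k)

lemma MB_diag_le_card (hα : ∀ v, ∑ i, α v i ^ 2 ≤ 1) (B : Finset V) (k : Fin d) :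
    MB α B k k ≤ B.card := by
  unfold MB
  calc _ ≤ ∑ _v ∈ B, (1 : ℝ) := Finset.sum_le_sum fun v _ => by
        have := sq_coord_le_one hα v k
        nlinarith
    _ = B.card := by simp

lemma Sched.one_le_q {m : ℕ} {k : Fin d} (hk : k ∈ S.H m) : 1 ≤ S.q k m := by
  have h1 := S.b_le_q hk
  have h2 := S.b_ge m
  have h3 : (1 : ℝ) ≤ 2 ^ 42 := by norm_num
  linarith

/-- The size of a block with a corrected coordinate. -/
lemma Sched.q4_le_card (hα : ∀ v, ∑ i, α v i ^ 2 ≤ 1) {m : ℕ} {B : Finset V}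
    (hX : S.Xf m (S.Err α m B) ≤ (1 / 100) ^ 2) {k : Fin d} (hk : k ∈ S.H m) :
    S.q k m ^ 4 ≤ 2 * (B.card : ℝ) := by
  have h1 := S.err_diag hX hk
  have h2 := S.MB_diag (α := α) m B k
  have h3 := MB_diag_le_card hα B k
  have h4 := (abs_le.mp h1).1
  have h5 := S.one_le_q hk
  have h6 : S.q k m ^ 3 / 100 ≤ S.q k m ^ 4 / 2 := by
    have : S.q k m ^ 3 ≤ S.q k m ^ 4 := by
      calc S.q k m ^ 3 = S.q k m ^ 3 * 1 := by ring
        _ ≤ S.q k m ^ 3 * S.q k m := by gcongr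
        _ = S.q k m ^ 4 := by ring
    have h7 : 0 ≤ S.q k m ^ 3 := by positivity
    linarith
  linarith

lemma Sched.K_le_card (hα : ∀ v, ∑ i, α v i ^ 2 ≤ 1) {m : ℕ} {B : Finset V}
    (hX : S.Xf m (S.Err α m B) ≤ (1 / 100) ^ 2) {k : Fin d} (hk : k ∈ S.H m) :
    (S.K m : ℝ) ≤ B.card := by
  have h1 := S.q4_le_card hα hX hk
  have h2 := S.b_le_q hk
  have hb := S.b_pos m
  have h3 : S.b m ^ 4 ≤ S.q k m ^ 4 := by gcongr
  have h4 : S.b m ^ 4 = (S.K m : ℝ) * (S.j m : ℝ) ^ 8 := by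
    unfold Sched.b
    rw [S.K_cast, mul_pow, ← pow_mul, ← pow_mul, mul_comm (S.j m) 4]
  have h5 := S.j_ge m
  have h6 : (2 : ℝ) ≤ (S.j m : ℝ) ^ 8 := by
    have : (32 : ℝ) ^ 8 ≤ (S.j m : ℝ) ^ 8 := by gcongr
    norm_num at this
    linarith
  have h7 := S.K_pos m
  nlinarith

/-- The fraction of a child. -/
lemma Sched.theta_le (hα : ∀ v, ∑ i, α v i ^ 2 ≤ 1) {m : ℕ} {B : Finset V}
    (hX : S.Xf m (S.Err α m B) ≤ (1 / 100) ^ 2) {k : Fin d} (hk : k ∈ S.H m) (s : ℕ) :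
    ttt B (S.K m) (s + 1) - ttt B (S.K m) s ≤ 2 / (S.K m : ℝ) := by
  have h1 := S.K_le_card hα hX hk
  have h2 := S.K_pos m
  have h3 : 0 < B.card := by
    have : (0 : ℝ) < B.card := h2.trans_le h1
    exact_mod_cast this
  have h4 := (theta_bounds B (S.K m) s (S.K_one_le m) h3).1
  have h5 : 1 / (B.card : ℝ) ≤ 1 / (S.K m : ℝ) := by
    apply one_div_le_one_div_of_le h2 h1
  have e : 2 / (S.K m : ℝ) = 1 / (S.K m : ℝ) + 1 / (S.K m : ℝ) := by ring
  rw [e]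
  linarith

/-- The deviation of the diagonal. -/
lemma Sched.theta_diag (hα : ∀ v, ∑ i, α v i ^ 2 ≤ 1) {m : ℕ} {B : Finset V}
    (hX : S.Xf m (S.Err α m B) ≤ (1 / 100) ^ 2) {k : Fin d} (hk : k ∈ S.H m) (s : ℕ) :
    ((ttt B (S.K m) (s + 1) - ttt B (S.K m) s - 1 / (S.K m : ℝ)) * S.q k m ^ 4) ^ 2 ≤ 4 := by
  have h1 := S.q4_le_card hα hX hk
  have h0 : 0 ≤ S.q k m ^ 4 := by positivity
  have h2 := S.K_le_card hα hX hk
  have h3 : 0 < B.card := by
    have : (0 : ℝ) < B.card := (S.K_pos m).trans_le h2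
    exact_mod_cast this
  have h3' : (0 : ℝ) < B.card := by exact_mod_cast h3
  obtain ⟨h4, h5⟩ := theta_bounds B (S.K m) s (S.K_one_le m) h3
  have h6 : |ttt B (S.K m) (s + 1) - ttt B (S.K m) s - 1 / (S.K m : ℝ)| ≤ 1 / (B.card : ℝ) := by
    rw [abs_le]
    constructor <;> linarith
  have h7 : |(ttt B (S.K m) (s + 1) - ttt B (S.K m) s - 1 / (S.K m : ℝ)) * S.q k m ^ 4| ≤ 2 := by
    rw [abs_mul, abs_of_nonneg h0]
    calc _ ≤ 1 / (B.card : ℝ) * (2 * (B.card : ℝ)) := by gcongr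
      _ = 2 := by field_simp
  have h8 := abs_le.mp h7
  nlinarith [h8.1, h8.2]

end Vale.Agent.P262S
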