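import Vale.Agent.P262S.RoughDet1

/-! # Deterministic consequences of the tests: the near diagonality of the children. -/

open Finset

namespace Vale.Agent.P262S

variable {d : ℕ} (S : Sched d)
variable {V : Type} [Fintype V] [DecidableEq V] {α : V → Fin d → ℝ}

/-- The entries of the moment matrix of a child. -/
lemma Sched.MB_child (m : ℕ) (B : Finset V) (sub : V → ℕ) (s : ℕ) (k l : Fin d) :
    MB α (B.filter fun v => sub v = s) k l
      = (ttt B (S.K m) (s + 1) - ttt B (S.K m) s) * MB α B k l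
        + (S.Nn α m B sub (s + 1) (Sum.inr (Sum.inl (k, l)))
          - S.Nn α m B sub s (Sum.inr (Sum.inl (k, l)))) :=
  S.sum_ch α m B sub s (Sum.inr (Sum.inl (k, l)))

/-- The entries of the error matrix of a child. -/
lemma Sched.Err_child (m : ℕ) (B : Finset V) (sub : V → ℕ) (s : ℕ) (k l : Fin d) :
    S.Err α (m + 1) (B.filter fun v => sub v = s) k l
      = (ttt B (S.K m) (s + 1) - ttt B (S.K m) s) * S.Err α m B k l
        + (if k = l then (ttt B (S.K m) (s + 1) - ttt B (S.K m) s - 1 / (S.K m : ℝ)) * S.q k m ^ 4 else 0)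
        + (S.Nn α m B sub (s + 1) (Sum.inr (Sum.inl (k, l)))
          - S.Nn α m B sub s (Sum.inr (Sum.inl (k, l)))) := by
  unfold Sched.Err
  rw [S.MB_child m B sub s k l, S.q_succ_pow4]
  split_ifs
  · ring
  · ring

/-- The denominators at the next level. -/
lemma Sched.den_succ (m : ℕ) (k l : Fin d) :
    S.q k (m + 1) ^ 2 * S.q l (m + 1) ^ 2 * min (S.q k (m + 1)) (S.q l (m + 1)) ^ 2
      = S.q k m ^ 2 * S.q l m ^ 2 * min (S.q k m) (S.q l m) ^ 2 / ((2 : ℝ) ^ S.j m) ^ 6 := by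
  rw [S.hqs, S.hqs]
  have hc : (0 : ℝ) < 2 ^ S.j m := by positivity
  rw [min_div_div_right hc.le]
  field_simp

lemma sum_sum_subset_le {ι : Type} {A A' B B' : Finset ι} (hA : A ⊆ A') (hB : B ⊆ B') {g : ι → ι → ℝ}
    (h0 : ∀ k ∈ A', ∀ l ∈ B', 0 ≤ g k l) :
    ∑ k ∈ A, ∑ l ∈ B, g k l ≤ ∑ k ∈ A', ∑ l ∈ B', g k l := by
  calc ∑ k ∈ A, ∑ l ∈ B, g k l ≤ ∑ k ∈ A, ∑ l ∈ B', g k l := by
        refine Finset.sum_le_sum fun k hk => ?_
        exact Finset.sum_le_sum_of_subset_of_nonneg hB fun l hl _ => h0 k (hA hk) l hl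
    _ ≤ _ := by
        exact Finset.sum_le_sum_of_subset_of_nonneg hA fun k hk _ =>
          Finset.sum_nonneg fun l hl => h0 k hk l hl

lemma Sched.den_pos {m : ℕ} {k l : Fin d} (hk : k ∈ S.H m) (hl : l ∈ S.H m) :
    0 < S.q k m ^ 2 * S.q l m ^ 2 * min (S.q k m) (S.q l m) ^ 2 := by
  have h1 := S.q_pos hk
  have h2 := S.q_pos hl
  have h3 : 0 < min (S.q k m) (S.q l m) := lt_min h1 h2
  positivity

lemma Sched.inv6_le {m : ℕ} {k : Fin d} (hk : k ∈ S.H m) :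
    1 / S.q k m ^ 6 ≤ 1 / S.q k m ^ 2 * (1 / S.b m ^ 4) := by
  have h5 := S.q_pos hk
  have h6 := S.b_le_q hk
  have hb := S.b_pos m
  have e : (1 / S.q k m ^ 2) * (1 / S.b m ^ 4) = 1 / (S.q k m ^ 2 * S.b m ^ 4) := by
    field_simp
  rw [e]
  have e2 : S.q k m ^ 6 = S.q k m ^ 2 * S.q k m ^ 4 := by ring
  rw [e2]
  gcongr

lemma Sched.sum_inv6 (m : ℕ) : ∑ k ∈ S.H m, 1 / S.q k m ^ 6 ≤ 1 / S.b m ^ 5 := by
  have hb := S.b_pos m
  calc ∑ k ∈ S.H m, 1 / S.q k m ^ 6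
      ≤ ∑ k ∈ S.H m, 1 / S.q k m ^ 2 * (1 / S.b m ^ 4) :=
        Finset.sum_le_sum fun k hk => S.inv6_le hk
    _ = (∑ k ∈ S.H m, 1 / S.q k m ^ 2) * (1 / S.b m ^ 4) := by rw [Finset.sum_mul]
    _ ≤ (1 / S.b m) * (1 / S.b m ^ 4) := by
        have := S.sum_inv_q2 m
        gcongr
    _ = 1 / S.b m ^ 5 := by field_simp

/-- The near diagonality of a child. -/
theorem Sched.rough_X (hα : ∀ v, ∑ i, α v i ^ 2 ≤ 1) {m s : ℕ} {B : Finset V} {sub : V → ℕ}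
    {p q : Fin d → ℝ} (hX : S.Xf m (S.Err α m B) ≤ (1 / 100) ^ 2)
    (hN0 : S.RN α m B p q sub s) (hN1 : S.RN α m B p q sub (s + 1)) :
    S.Xf (m + 1) (S.Err α (m + 1) (B.filter fun v => sub v = s)) ≤ (1 / 1000) ^ 2 := by
  unfold Sched.Xf
  rcases (S.H (m + 1)).eq_empty_or_nonempty with he | ⟨k0, hk0⟩
  · rw [he]
    simp
  have hsub := S.H_succ_subset m
  set θ := ttt B (S.K m) (s + 1) - ttt B (S.K m) s with hθ
  have hθ0 : 0 ≤ θ := theta_nonneg B (S.K m) s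
  have hθ1 : θ ≤ 2 / (S.K m : ℝ) := S.theta_le hα hX (hsub hk0) s
  set c : ℝ := (2 : ℝ) ^ S.j m with hc
  have hc0 : 0 < c := by positivity
  have hKc : (S.K m : ℝ) = c ^ 4 := by
    rw [S.K_cast, hc, ← pow_mul, mul_comm]
  have hb := S.b_pos (m + 1)
  have hterm : ∀ k ∈ S.H (m + 1), ∀ l ∈ S.H (m + 1),
      S.Err α (m + 1) (B.filter fun v => sub v = s) k l ^ 2
          / (S.q k (m + 1) ^ 2 * S.q l (m + 1) ^ 2 * min (S.q k (m + 1)) (S.q l (m + 1)) ^ 2)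
        ≤ 3 * (θ ^ 2 * c ^ 6) * (S.Err α m B k l ^ 2
              / (S.q k m ^ 2 * S.q l m ^ 2 * min (S.q k m) (S.q l m) ^ 2))
          + 3 * (if k = l then 4 / S.q k (m + 1) ^ 6 else 0)
          + 6 * (S.Nn α m B sub (s + 1) (Sum.inr (Sum.inl (k, l))) ^ 2
              / (S.q k (m + 1) ^ 2 * S.q l (m + 1) ^ 2 * min (S.q k (m + 1)) (S.q l (m + 1)) ^ 2))
          + 6 * (S.Nn α m B sub s (Sum.inr (Sum.inl (k, l))) ^ 2
              / (S.q k (m + 1) ^ 2 * S.q l (m + 1) ^ 2 * min (S.q k (m + 1)) (S.q l (m + 1)) ^ 2)) := by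
    intro k hk l hl
    have hd := S.den_pos hk hl
    have hd0 := S.den_pos (hsub hk) (hsub hl)
    set D' := S.q k (m + 1) ^ 2 * S.q l (m + 1) ^ 2 * min (S.q k (m + 1)) (S.q l (m + 1)) ^ 2 with hD'
    set D := S.q k m ^ 2 * S.q l m ^ 2 * min (S.q k m) (S.q l m) ^ 2 with hD
    have hDD : D' = D / c ^ 6 := S.den_succ m k l
    rw [S.Err_child m B sub s k l]
    set E := S.Err α m B k l
    set N1 := S.Nn α m B sub (s + 1) (Sum.inr (Sum.inl (k, l)))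
    set N0 := S.Nn α m B sub s (Sum.inr (Sum.inl (k, l)))
    have h1 : (θ * E + (if k = l then (θ - 1 / (S.K m : ℝ)) * S.q k m ^ 4 else 0) + (N1 - N0)) ^ 2
        ≤ 3 * (θ ^ 2 * E ^ 2) + 3 * (if k = l then 4 else 0) + 6 * N1 ^ 2 + 6 * N0 ^ 2 := by
      have hdiag : (if k = l then (θ - 1 / (S.K m : ℝ)) * S.q k m ^ 4 else 0) ^ 2
          ≤ (if k = l then 4 else 0) := by
        split_ifs
        · exact S.theta_diag hα hX (hsub hk) s
        · norm_num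
      set y := (if k = l then (θ - 1 / (S.K m : ℝ)) * S.q k m ^ 4 else (0 : ℝ))
      nlinarith [sq_nonneg (θ * E - y), sq_nonneg (θ * E - (N1 - N0)), sq_nonneg (y - (N1 - N0)),
        sq_nonneg (N1 + N0)]
    have h2 := div_le_div_of_nonneg_right h1 hd.le
    refine h2.trans (le_of_eq ?_)
    have e1 : θ ^ 2 * E ^ 2 / D' = θ ^ 2 * c ^ 6 * (E ^ 2 / D) := by
      rw [hDD]
      field_simp
    have e2 : (if k = l then (4 : ℝ) else 0) / D' = if k = l then 4 / S.q k (m + 1) ^ 6 else 0 := by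
      split_ifs with hkl
      · subst hkl
        rw [hD', min_self]
        congr 1
        ring
      · simp
    rw [add_div, add_div, add_div, mul_div_assoc (3 : ℝ), mul_div_assoc (3 : ℝ), mul_div_assoc (6 : ℝ),
      mul_div_assoc (6 : ℝ), e1, e2]
    ring
  refine (Finset.sum_le_sum fun k hk => Finset.sum_le_sum fun l hl => hterm k hk l hl).trans ?_
  simp only [Finset.sum_add_distrib, ← Finset.mul_sum]
  have h1 : ∑ k ∈ S.H (m + 1), ∑ l ∈ S.H (m + 1), S.Err α m B k l ^ 2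
        / (S.q k m ^ 2 * S.q l m ^ 2 * min (S.q k m) (S.q l m) ^ 2) ≤ (1 / 100) ^ 2 := by
    refine le_trans ?_ hX
    unfold Sched.Xf
    exact sum_sum_subset_le hsub hsub fun k hk l hl => by
      have := S.den_pos hk hl
      positivity
  have h2 : ∑ k ∈ S.H (m + 1), ∑ l ∈ S.H (m + 1), (if k = l then 4 / S.q k (m + 1) ^ 6 else 0)
      ≤ 4 / S.b (m + 1) ^ 5 := by
    have : ∀ k ∈ S.H (m + 1), ∑ l ∈ S.H (m + 1), (if k = l then 4 / S.q k (m + 1) ^ 6 else 0)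
        = 4 * (1 / S.q k (m + 1) ^ 6) := by
      intro k hk
      rw [Finset.sum_ite_eq, if_pos hk]
      ring
    rw [Finset.sum_congr rfl this, ← Finset.mul_sum]
    have := S.sum_inv6 (m + 1)
    calc _ ≤ 4 * (1 / S.b (m + 1) ^ 5) := by gcongr
      _ = _ := by ring
  have h3 := hN0.nX
  have h4 := hN1.nX
  have h5 : θ ^ 2 * c ^ 6 ≤ 4 / 2 ^ 64 := by
    have h6 : θ ^ 2 ≤ (2 / (S.K m : ℝ)) ^ 2 := by gcongr
    rw [hKc] at h6
    have h7 : (32 : ℕ) ≤ S.j m := S.hj m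
    have h8 : (2 : ℝ) ^ 32 ≤ c := by
      rw [hc]
      exact pow_le_pow_right₀ (by norm_num) h7
    have h9 : (2 : ℝ) ^ 64 ≤ c ^ 2 := by
      calc (2 : ℝ) ^ 64 = ((2 : ℝ) ^ 32) ^ 2 := by norm_num
        _ ≤ c ^ 2 := by gcongr
    have e : (2 / c ^ 4) ^ 2 * c ^ 6 = 4 / c ^ 2 := by
      field_simp
      norm_num
    calc θ ^ 2 * c ^ 6 ≤ (2 / c ^ 4) ^ 2 * c ^ 6 := by gcongr
      _ = 4 / c ^ 2 := e
      _ ≤ 4 / 2 ^ 64 := by gcongr
  have h6 : 3 * (θ ^ 2 * c ^ 6) * ∑ k ∈ S.H (m + 1), ∑ l ∈ S.H (m + 1), S.Err α m B k l ^ 2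
        / (S.q k m ^ 2 * S.q l m ^ 2 * min (S.q k m) (S.q l m) ^ 2)
      ≤ 3 * (4 / 2 ^ 64) * (1 / 100) ^ 2 := by
    have h0 : 0 ≤ ∑ k ∈ S.H (m + 1), ∑ l ∈ S.H (m + 1), S.Err α m B k l ^ 2
        / (S.q k m ^ 2 * S.q l m ^ 2 * min (S.q k m) (S.q l m) ^ 2) :=
      Finset.sum_nonneg fun k hk => Finset.sum_nonneg fun l hl => by
        have := S.den_pos (hsub hk) (hsub hl)
        positivity
    have h00 : 0 ≤ θ ^ 2 * c ^ 6 := by positivity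
    gcongr
  have hb1 : (2 : ℝ) ^ 42 ≤ S.b (m + 1) := S.b_ge (m + 1)
  have h7 : 1 / S.b (m + 1) ^ 4 ≤ 1 / 10 ^ 50 := by
    apply one_div_le_one_div_of_le (by positivity)
    calc (10 : ℝ) ^ 50 ≤ ((2 : ℝ) ^ 42) ^ 4 := by norm_num
      _ ≤ S.b (m + 1) ^ 4 := by gcongr
  have h8 : 1 / S.b (m + 1) ^ 5 ≤ 1 / 10 ^ 60 := by
    apply one_div_le_one_div_of_le (by positivity)
    calc (10 : ℝ) ^ 60 ≤ ((2 : ℝ) ^ 42) ^ 5 := by norm_num
      _ ≤ S.b (m + 1) ^ 5 := by gcongr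
  have e1 : 9600 / S.b (m + 1) ^ 4 = 9600 * (1 / S.b (m + 1) ^ 4) := by ring
  have e2 : 4 / S.b (m + 1) ^ 5 = 4 * (1 / S.b (m + 1) ^ 5) := by ring
  rw [e1] at h3 h4
  rw [e2] at h2
  have h10 : (3 * (4 / 2 ^ 64) * (1 / 100) ^ 2 : ℝ) ≤ 1 / 10 ^ 20 := by norm_num
  have h11 : (1 / 10 ^ 20 : ℝ) + 3 * (4 * (1 / 10 ^ 60)) + 6 * (9600 * (1 / 10 ^ 50))
      + 6 * (9600 * (1 / 10 ^ 50)) ≤ (1 / 1000) ^ 2 := by norm_num
  linarith

/-- The entries with the class leaving, for a child. -/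
theorem Sched.rough_Xp (hα : ∀ v, ∑ i, α v i ^ 2 ≤ 1) {m s : ℕ} {B : Finset V} {sub : V → ℕ}
    {p q : Fin d → ℝ} (hX : S.Xf m (S.Err α m B) ≤ (1 / 100) ^ 2)
    (hN0 : S.RN α m B p q sub s) (hN1 : S.RN α m B p q sub (s + 1)) :
    S.Xp (m + 1) (MB α (B.filter fun v => sub v = s)) ≤ (1 / 10 ^ 4) ^ 2 * ((S.C (m + 1)).card : ℝ) := by
  unfold Sched.Xp
  rcases (S.H (m + 1)).eq_empty_or_nonempty with he | ⟨k0, hk0⟩
  · rw [he, Finset.sum_empty]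
    positivity
  rcases (S.C (m + 1)).eq_empty_or_nonempty with he | ⟨c0, hc0'⟩
  · rw [he]
    simp
  have hsub := S.H_succ_subset m
  have hCsub : S.C (m + 1) ⊆ S.H m := by
    intro c hc
    have := S.mem_C.mp hc
    exact S.mem_H.mpr (by omega)
  set θ := ttt B (S.K m) (s + 1) - ttt B (S.K m) s with hθ
  have hθ0 : 0 ≤ θ := theta_nonneg B (S.K m) s
  have hθ1 : θ ≤ 2 / (S.K m : ℝ) := S.theta_le hα hX (hsub hk0) s
  set c : ℝ := (2 : ℝ) ^ S.j m with hc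
  have hc0 : 0 < c := by positivity
  have hKc : (S.K m : ℝ) = c ^ 4 := by
    rw [S.K_cast, hc, ← pow_mul, mul_comm]
  have hb := S.b_pos (m + 1)
  have hterm : ∀ k ∈ S.H (m + 1), ∀ l ∈ S.C (m + 1),
      MB α (B.filter fun v => sub v = s) k l ^ 2 / S.q k (m + 1) ^ 6
        ≤ 2 * (θ ^ 2 * c ^ 6) * (S.Err α m B k l ^ 2
              / (S.q k m ^ 2 * S.q l m ^ 2 * min (S.q k m) (S.q l m) ^ 2))
          + 4 * (S.Nn α m B sub (s + 1) (Sum.inr (Sum.inl (k, l))) ^ 2 / S.q k (m + 1) ^ 6)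
          + 4 * (S.Nn α m B sub s (Sum.inr (Sum.inl (k, l))) ^ 2 / S.q k (m + 1) ^ 6) := by
    intro k hk l hl
    have hkl : k ≠ l := by
      rintro rfl
      have h1 := S.mem_H.mp hk
      have h2 := S.mem_C.mp hl
      omega
    have hq := S.q_pos hk
    have hq0 := S.q_pos (hsub hk)
    have hql := S.q_pos (hCsub hl)
    have hle : S.q l m ≤ S.q k m := by
      have h1 : S.q l (m + 1) < S.b (m + 1) := S.q_lt_b (by
        intro h
        have h1 := S.mem_H.mp h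
        have h2 := S.mem_C.mp hl
        omega)
      have h2 := S.b_le_q hk
      have h3 : S.q l (m + 1) ≤ S.q k (m + 1) := by linarith
      rw [S.hqs, S.hqs] at h3
      exact (div_le_div_iff_of_pos_right (by positivity)).mp h3
    have hDD : S.q k m ^ 2 * S.q l m ^ 2 * min (S.q k m) (S.q l m) ^ 2 ≤ S.q k m ^ 6 := by
      rw [min_eq_right hle]
      have h1 : S.q l m ^ 2 ≤ S.q k m ^ 2 := by gcongr
      calc S.q k m ^ 2 * S.q l m ^ 2 * S.q l m ^ 2 ≤ S.q k m ^ 2 * S.q k m ^ 2 * S.q k m ^ 2 := by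
            gcongr
        _ = S.q k m ^ 6 := by ring
    have hD0 := S.den_pos (hsub hk) (hCsub hl)
    set D := S.q k m ^ 2 * S.q l m ^ 2 * min (S.q k m) (S.q l m) ^ 2 with hD
    have hq6 : S.q k (m + 1) ^ 6 = S.q k m ^ 6 / c ^ 6 := by
      rw [S.hqs, div_pow]
    rw [S.MB_child m B sub s k l]
    have hE : MB α B k l = S.Err α m B k l := by
      unfold Sched.Err
      rw [if_neg hkl, sub_zero]
    rw [hE]
    set E := S.Err α m B k l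
    set N1 := S.Nn α m B sub (s + 1) (Sum.inr (Sum.inl (k, l)))
    set N0 := S.Nn α m B sub s (Sum.inr (Sum.inl (k, l)))
    have h1 : (θ * E + (N1 - N0)) ^ 2 ≤ 2 * (θ ^ 2 * E ^ 2) + 4 * N1 ^ 2 + 4 * N0 ^ 2 := by
      nlinarith [sq_nonneg (θ * E - (N1 - N0)), sq_nonneg (N1 + N0)]
    have hq60 : 0 < S.q k (m + 1) ^ 6 := by positivity
    have h2 := div_le_div_of_nonneg_right h1 hq60.le
    refine h2.trans ?_
    rw [add_div, add_div, mul_div_assoc (2 : ℝ), mul_div_assoc (4 : ℝ), mul_div_assoc (4 : ℝ)]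
    have h3 : θ ^ 2 * E ^ 2 / S.q k (m + 1) ^ 6 ≤ θ ^ 2 * c ^ 6 * (E ^ 2 / D) := by
      rw [hq6]
      have e : θ ^ 2 * E ^ 2 / (S.q k m ^ 6 / c ^ 6) = θ ^ 2 * c ^ 6 * (E ^ 2 / S.q k m ^ 6) := by
        field_simp
      rw [e]
      have h4 : E ^ 2 / S.q k m ^ 6 ≤ E ^ 2 / D := by
        apply div_le_div_of_nonneg_left (sq_nonneg _) hD0 hDD
      have h5 : 0 ≤ θ ^ 2 * c ^ 6 := by positivity
      exact mul_le_mul_of_nonneg_left h4 h5
    linarith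
  refine (Finset.sum_le_sum fun k hk => Finset.sum_le_sum fun l hl => hterm k hk l hl).trans ?_
  simp only [Finset.sum_add_distrib, ← Finset.mul_sum]
  have h1 : ∑ k ∈ S.H (m + 1), ∑ l ∈ S.C (m + 1), S.Err α m B k l ^ 2
        / (S.q k m ^ 2 * S.q l m ^ 2 * min (S.q k m) (S.q l m) ^ 2) ≤ (1 / 100) ^ 2 := by
    refine le_trans ?_ hX
    unfold Sched.Xf
    exact sum_sum_subset_le hsub hCsub fun k hk l hl => by
      have := S.den_pos hk hl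
      positivity
  have h3 := hN0.nXp
  have h4 := hN1.nXp
  have h5 : θ ^ 2 * c ^ 6 ≤ 4 / 2 ^ 64 := by
    have h6 : θ ^ 2 ≤ (2 / (S.K m : ℝ)) ^ 2 := by gcongr
    rw [hKc] at h6
    have h7 : (32 : ℕ) ≤ S.j m := S.hj m
    have h8 : (2 : ℝ) ^ 32 ≤ c := by
      rw [hc]
      exact pow_le_pow_right₀ (by norm_num) h7
    have h9 : (2 : ℝ) ^ 64 ≤ c ^ 2 := by
      calc (2 : ℝ) ^ 64 = ((2 : ℝ) ^ 32) ^ 2 := by norm_num
        _ ≤ c ^ 2 := by gcongr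
    have e : (2 / c ^ 4) ^ 2 * c ^ 6 = 4 / c ^ 2 := by
      field_simp
      norm_num
    calc θ ^ 2 * c ^ 6 ≤ (2 / c ^ 4) ^ 2 * c ^ 6 := by gcongr
      _ = 4 / c ^ 2 := e
      _ ≤ 4 / 2 ^ 64 := by gcongr
  have h6 : 2 * (θ ^ 2 * c ^ 6) * ∑ k ∈ S.H (m + 1), ∑ l ∈ S.C (m + 1), S.Err α m B k l ^ 2
        / (S.q k m ^ 2 * S.q l m ^ 2 * min (S.q k m) (S.q l m) ^ 2)
      ≤ 2 * (4 / 2 ^ 64) * (1 / 100) ^ 2 := by
    have h0 : 0 ≤ ∑ k ∈ S.H (m + 1), ∑ l ∈ S.C (m + 1), S.Err α m B k l ^ 2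
        / (S.q k m ^ 2 * S.q l m ^ 2 * min (S.q k m) (S.q l m) ^ 2) :=
      Finset.sum_nonneg fun k hk => Finset.sum_nonneg fun l hl => by
        have := S.den_pos (hsub hk) (hCsub hl)
        positivity
    have h00 : 0 ≤ θ ^ 2 * c ^ 6 := by positivity
    gcongr
  have hb1 : (2 : ℝ) ^ 42 ≤ S.b (m + 1) := S.b_ge (m + 1)
  have h8 : 1 / S.b (m + 1) ^ 5 ≤ 1 / 10 ^ 60 := by
    apply one_div_le_one_div_of_le (by positivity)
    calc (10 : ℝ) ^ 60 ≤ ((2 : ℝ) ^ 42) ^ 5 := by norm_num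
      _ ≤ S.b (m + 1) ^ 5 := by gcongr
  have hC1 : (1 : ℝ) ≤ ((S.C (m + 1)).card : ℝ) := by
    have : 1 ≤ (S.C (m + 1)).card := Finset.card_pos.mpr ⟨c0, hc0'⟩
    exact_mod_cast this
  have e1 : (3200 * ((S.C (m + 1)).card : ℝ) + 6400) / S.b (m + 1) ^ 5
      = (3200 * ((S.C (m + 1)).card : ℝ) + 6400) * (1 / S.b (m + 1) ^ 5) := by ring
  rw [e1] at h3 h4
  have h9 : (3200 * ((S.C (m + 1)).card : ℝ) + 6400) * (1 / S.b (m + 1) ^ 5)
      ≤ (9600 * ((S.C (m + 1)).card : ℝ)) * (1 / 10 ^ 60) := by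
    apply mul_le_mul _ h8 (by positivity) (by positivity)
    linarith
  have h10 : (2 * (4 / 2 ^ 64) * (1 / 100) ^ 2 : ℝ) ≤ 1 / 10 ^ 20 := by norm_num
  have h11 : (1 / 10 ^ 20 : ℝ) * ((S.C (m + 1)).card : ℝ)
      + 4 * ((9600 * ((S.C (m + 1)).card : ℝ)) * (1 / 10 ^ 60))
      + 4 * ((9600 * ((S.C (m + 1)).card : ℝ)) * (1 / 10 ^ 60))
      ≤ (1 / 10 ^ 4) ^ 2 * ((S.C (m + 1)).card : ℝ) := by
    have : (0 : ℝ) ≤ ((S.C (m + 1)).card : ℝ) := Nat.cast_nonneg _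
    norm_num
    linarith
  have h12 : (1 / 10 ^ 20 : ℝ) ≤ (1 / 10 ^ 20 : ℝ) * ((S.C (m + 1)).card : ℝ) := by
    have : (0 : ℝ) ≤ (1 / 10 ^ 20 : ℝ) := by norm_num
    nlinarith
  linarith

end Vale.Agent.P262S
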