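import Vale.Agent.P262S.RoughDet2

/-! # Deterministic consequences of the tests: counts, masses, positions, light sums. -/

open Finset

namespace Vale.Agent.P262S

variable {d : ℕ} (S : Sched d)
variable {V : Type} [Fintype V] [DecidableEq V] {α : V → Fin d → ℝ}

lemma Sched.rr_t0 (m : ℕ) (v : V) :
    S.rr α m v (Sum.inr (Sum.inr 0)) = min (S.uu α (m + 1) v) 1 := by
  simp [Sched.rr]

lemma Sched.rr_t1 (m : ℕ) (v : V) :
    S.rr α m v (Sum.inr (Sum.inr 1)) = Row α (S.C (m + 1)) v := by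
  simp [Sched.rr]

lemma Sched.rr_t2 (m : ℕ) (v : V) :
    S.rr α m v (Sum.inr (Sum.inr 2)) = Row α (S.C m) v := by
  simp [Sched.rr]

lemma Sched.noise_abs {m s : ℕ} {B : Finset V} {sub : V → ℕ} {p q : Fin d → ℝ}
    (hN : S.RN α m B p q sub s) (t : Fin 3) :
    |S.Nn α m B sub s (Sum.inr (Sum.inr t))| ≤ 165 * √(S.j m : ℝ) := by
  have h1 := hN.nR t
  have h2 := S.j_ge m
  have h3 : 3200 + 6400 * (5 + 4 * (S.j m : ℝ)) ≤ (165 * √(S.j m : ℝ)) ^ 2 := by
    rw [mul_pow, Real.sq_sqrt (by linarith)]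
    nlinarith
  exact abs_le_of_sq_le_sq (h1.trans h3) (by positivity)

/-- A row with values in `[0,1]` on a child. -/
lemma Sched.child_row {m s : ℕ} {B : Finset V} {sub : V → ℕ} {p q : Fin d → ℝ}
    (hN0 : S.RN α m B p q sub s) (hN1 : S.RN α m B p q sub (s + 1)) (t : Fin 3)
    (h0 : ∀ v ∈ B, 0 ≤ S.rr α m v (Sum.inr (Sum.inr t)))
    (h1 : ∀ v ∈ B, S.rr α m v (Sum.inr (Sum.inr t)) ≤ 1) :
    ∑ v ∈ B.filter (fun v => sub v = s), S.rr α m v (Sum.inr (Sum.inr t))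
      ≤ (∑ v ∈ B, S.rr α m v (Sum.inr (Sum.inr t))) / (S.K m : ℝ) + 1 + 330 * √(S.j m : ℝ) := by
  rw [S.sum_ch]
  have h2 := theta_mul_le B (S.K m) s (S.K_one_le m) _ h0 h1
  have h3 := (abs_le.mp (S.noise_abs hN0 t)).1
  have h4 := (abs_le.mp (S.noise_abs hN1 t)).2
  linarith

/-- The total of the status row on a block. -/
lemma Sched.sum_R_le {m : ℕ} {B : Finset V}
    (hB : S.BlockInv α m B (1 / 100) (1 / 1000) (S.Nb m) (S.Nb m) (S.Mb1 m) (S.Mb2 m)) :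
    ∑ v ∈ B, min (S.uu α (m + 1) v) 1 ≤ S.Nb m + 2 * S.Nb m + S.Mb2 m := by
  classical
  rw [← Finset.sum_filter_add_sum_filter_not B (fun v => S.Hv α m v)]
  have h1 : ∑ v ∈ B.filter (fun v => S.Hv α m v), min (S.uu α (m + 1) v) 1 ≤ S.Nb m := by
    calc _ ≤ ∑ _v ∈ B.filter (fun v => S.Hv α m v), (1 : ℝ) :=
          Finset.sum_le_sum fun v _ => min_le_right _ _
      _ = ((S.Sv α m B).card : ℝ) := by
          simp only [Finset.sum_const, nsmul_eq_mul, mul_one, Sched.Sv]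
      _ ≤ _ := hB.hNh
  have h2 : ∑ v ∈ B.filter (fun v => ¬ S.Hv α m v), min (S.uu α (m + 1) v) 1
      ≤ 2 * S.Nb m + S.Mb2 m := by
    cases m with
    | zero =>
      have : ∀ v ∈ B.filter (fun v => ¬ S.Hv α 0 v), min (S.uu α (0 + 1) v) 1 = 0 := by
        intro v _
        rw [zero_add, S.uu_one]
        simp
      rw [Finset.sum_congr rfl this]
      simp [Sched.Nb, Sched.Mb2]
    | succ c =>
      have h3 := hB.hNe
      have h4 := hB.hM2 c rfl
      have h5 : ∑ v ∈ B.filter (fun v => ¬ S.Hv α (c + 1) v), Row α (S.C c) v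
          ≤ ∑ v ∈ B, Row α (S.C c) v :=
        Finset.sum_le_sum_of_subset_of_nonneg (Finset.filter_subset _ _)
          fun v _ _ => Row_nonneg α _ v
      calc _ ≤ ∑ v ∈ B.filter (fun v => ¬ S.Hv α (c + 1) v),
            (2 * S.uu α (c + 1) v + Row α (S.C c) v) := by
            refine Finset.sum_le_sum fun v _ => ?_
            rw [← S.uu_succ_succ]
            exact min_le_left _ _
        _ = 2 * ∑ v ∈ S.Lv α (c + 1) B, S.uu α (c + 1) v
            + ∑ v ∈ B.filter (fun v => ¬ S.Hv α (c + 1) v), Row α (S.C c) v := by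
            rw [Finset.sum_add_distrib, ← Finset.mul_sum]
            rfl
        _ ≤ _ := by linarith
  linarith

/-- The status row on a child. -/
lemma Sched.child_R {m s : ℕ} {B : Finset V} {sub : V → ℕ} {p q : Fin d → ℝ}
    (hB : S.BlockInv α m B (1 / 100) (1 / 1000) (S.Nb m) (S.Nb m) (S.Mb1 m) (S.Mb2 m))
    (hN0 : S.RN α m B p q sub s) (hN1 : S.RN α m B p q sub (s + 1)) :
    ∑ v ∈ B.filter (fun v => sub v = s), min (S.uu α (m + 1) v) 1 ≤ S.NbR (m + 1) := by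
  have h0 : ∀ v ∈ B, 0 ≤ S.rr α m v (Sum.inr (Sum.inr 0)) := fun v _ => by
    rw [S.rr_t0]
    exact le_min (S.uu_nonneg α _ v) zero_le_one
  have h1 : ∀ v ∈ B, S.rr α m v (Sum.inr (Sum.inr 0)) ≤ 1 := fun v _ => by
    rw [S.rr_t0]
    exact min_le_right _ _
  have h2 := S.child_row hN0 hN1 0 h0 h1
  simp only [S.rr_t0] at h2
  have h3 := S.sum_R_le hB
  have h4 := S.NK m
  have h5 := S.K_pos m
  have h6 : (∑ v ∈ B, min (S.uu α (m + 1) v) 1) / (S.K m : ℝ)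
      ≤ (S.Nb m + 2 * S.Nb m + S.Mb2 m) / (S.K m : ℝ) := by gcongr
  have h7 := S.sqrt_j_ge m
  have h8 : S.NbR (m + 1) = 340 * √(S.j m : ℝ) := rfl
  rw [h8]
  linarith

lemma Sched.child_Nh {m s : ℕ} {B : Finset V} {sub : V → ℕ} {p q : Fin d → ℝ}
    (hB : S.BlockInv α m B (1 / 100) (1 / 1000) (S.Nb m) (S.Nb m) (S.Mb1 m) (S.Mb2 m))
    (hN0 : S.RN α m B p q sub s) (hN1 : S.RN α m B p q sub (s + 1)) :
    ((S.Sv α (m + 1) (B.filter fun v => sub v = s)).card : ℝ) ≤ S.NbR (m + 1) := by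
  classical
  refine le_trans ?_ (S.child_R hB hN0 hN1)
  have h1 : ((S.Sv α (m + 1) (B.filter fun v => sub v = s)).card : ℝ)
      = ∑ v ∈ S.Sv α (m + 1) (B.filter fun v => sub v = s), min (S.uu α (m + 1) v) 1 := by
    have : ∀ v ∈ S.Sv α (m + 1) (B.filter fun v => sub v = s), min (S.uu α (m + 1) v) 1 = 1 := by
      intro v hv
      have h2 : S.Hv α (m + 1) v := (Finset.mem_filter.mp hv).2
      exact min_eq_right (le_of_lt h2)
    rw [Finset.sum_congr rfl this]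
    simp
  rw [h1]
  apply Finset.sum_le_sum_of_subset_of_nonneg (Finset.filter_subset _ _)
  intro v _ _
  exact le_min (S.uu_nonneg α _ v) zero_le_one

lemma Sched.child_Ne {m s : ℕ} {B : Finset V} {sub : V → ℕ} {p q : Fin d → ℝ}
    (hB : S.BlockInv α m B (1 / 100) (1 / 1000) (S.Nb m) (S.Nb m) (S.Mb1 m) (S.Mb2 m))
    (hN0 : S.RN α m B p q sub s) (hN1 : S.RN α m B p q sub (s + 1)) :
    ∑ v ∈ S.Lv α (m + 1) (B.filter fun v => sub v = s), S.uu α (m + 1) v ≤ S.NbR (m + 1) := by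
  classical
  refine le_trans ?_ (S.child_R hB hN0 hN1)
  have : ∀ v ∈ S.Lv α (m + 1) (B.filter fun v => sub v = s),
      S.uu α (m + 1) v = min (S.uu α (m + 1) v) 1 := by
    intro v hv
    have h2 : ¬ S.Hv α (m + 1) v := (Finset.mem_filter.mp hv).2
    exact (min_eq_left (not_lt.mp h2)).symm
  rw [Finset.sum_congr rfl this]
  apply Finset.sum_le_sum_of_subset_of_nonneg (Finset.filter_subset _ _)
  intro v _ _
  exact le_min (S.uu_nonneg α _ v) zero_le_one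

/-- The mass of the class leaving. -/
lemma Sched.child_M1 (hα : ∀ v, ∑ i, α v i ^ 2 ≤ 1) {m s : ℕ} {B : Finset V} {sub : V → ℕ}
    {p q : Fin d → ℝ}
    (hB : S.BlockInv α m B (1 / 100) (1 / 1000) (S.Nb m) (S.Nb m) (S.Mb1 m) (S.Mb2 m))
    (hN0 : S.RN α m B p q sub s) (hN1 : S.RN α m B p q sub (s + 1)) :
    ∑ v ∈ B.filter (fun v => sub v = s), Row α (S.C (m + 1)) v ≤ S.M1R m := by
  have h0 : ∀ v ∈ B, 0 ≤ S.rr α m v (Sum.inr (Sum.inr 1)) := fun v _ => by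
    rw [S.rr_t1]
    exact Row_nonneg α _ v
  have h1 : ∀ v ∈ B, S.rr α m v (Sum.inr (Sum.inr 1)) ≤ 1 := fun v _ => by
    rw [S.rr_t1]
    exact Row_le_one α hα _ v
  have h2 := S.child_row hN0 hN1 1 h0 h1
  simp only [S.rr_t1] at h2
  have h3 : (∑ v ∈ B, Row α (S.C (m + 1)) v) / (S.K m : ℝ)
      ≤ 2 * ∑ i ∈ S.C (m + 1), S.q i (m + 1) ^ 4 := by
    have e : ∑ v ∈ B, Row α (S.C (m + 1)) v = ∑ i ∈ S.C (m + 1), MB α B i i := by
      unfold Row MB
      rw [Finset.sum_comm]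
      refine Finset.sum_congr rfl fun i _ => Finset.sum_congr rfl fun v _ => ?_
      ring
    rw [e, Finset.sum_div, Finset.mul_sum]
    refine Finset.sum_le_sum fun i hi => ?_
    have hi' : i ∈ S.H m := by
      have := S.mem_C.mp hi
      exact S.mem_H.mpr (by omega)
    have h4 := S.err_diag hB.hX hi'
    have h5 := (abs_le.mp h4).2
    have h6 := S.MB_diag (α := α) m B i
    have h7 := S.one_le_q hi'
    have h8 : S.q i m ^ 3 / 100 ≤ S.q i m ^ 4 := by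
      have : S.q i m ^ 3 ≤ S.q i m ^ 4 := by
        calc S.q i m ^ 3 = S.q i m ^ 3 * 1 := by ring
          _ ≤ S.q i m ^ 3 * S.q i m := by gcongr
          _ = S.q i m ^ 4 := by ring
      have h9 : 0 ≤ S.q i m ^ 3 := by positivity
      linarith
    rw [S.q_succ_pow4]
    have h10 := S.K_pos m
    have h11 : MB α B i i ≤ 2 * S.q i m ^ 4 := by linarith
    calc MB α B i i / (S.K m : ℝ) ≤ 2 * S.q i m ^ 4 / (S.K m : ℝ) := by gcongr
      _ = _ := by ring
  unfold Sched.M1R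
  linarith

/-- The mass of the class which has just left. -/
lemma Sched.child_M2 (hα : ∀ v, ∑ i, α v i ^ 2 ≤ 1) {m s : ℕ} {B : Finset V} {sub : V → ℕ}
    {p q : Fin d → ℝ}
    (hB : S.BlockInv α m B (1 / 100) (1 / 1000) (S.Nb m) (S.Nb m) (S.Mb1 m) (S.Mb2 m))
    (hN0 : S.RN α m B p q sub s) (hN1 : S.RN α m B p q sub (s + 1)) :
    ∑ v ∈ B.filter (fun v => sub v = s), Row α (S.C m) v ≤ S.M2R m := by
  have h0 : ∀ v ∈ B, 0 ≤ S.rr α m v (Sum.inr (Sum.inr 2)) := fun v _ => by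
    rw [S.rr_t2]
    exact Row_nonneg α _ v
  have h1 : ∀ v ∈ B, S.rr α m v (Sum.inr (Sum.inr 2)) ≤ 1 := fun v _ => by
    rw [S.rr_t2]
    exact Row_le_one α hα _ v
  have h2 := S.child_row hN0 hN1 2 h0 h1
  simp only [S.rr_t2] at h2
  have h3 := hB.hM1
  have h5 := S.K_pos m
  have h6 : (∑ v ∈ B, Row α (S.C m) v) / (S.K m : ℝ) ≤ S.Mb1 m / (S.K m : ℝ) := by gcongr
  unfold Sched.M2R
  linarith

/-- The rows of the coordinates in `H (m + 1)`. -/
lemma Sched.rr_H {m : ℕ} {i : Fin d} (hi : i ∈ S.H (m + 1)) (v : V) :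
    S.rr α m v (Sum.inl i) = α v i := by
  simp [Sched.rr, hi]

/-- The rows of the coordinates not in `H (m + 1)`. -/
lemma Sched.sum_rr_U {m : ℕ} {i : Fin d} (hi : i ∉ S.H (m + 1)) (A : Finset V) :
    ∑ v ∈ A, S.rr α m v (Sum.inl i) = sm α (S.Lv α m A) i := by
  classical
  unfold sm Sched.Lv
  rw [Finset.sum_filter]
  refine Finset.sum_congr rfl fun v _ => ?_
  simp only [Sched.rr, if_neg hi]
  by_cases h : S.Hv α m v <;> simp [h]

lemma mem_U_not_H {m : ℕ} {i : Fin d} (S : Sched d) (hi : i ∈ S.U (m + 1)) : i ∉ S.H (m + 1) := by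
  intro h
  have h1 := S.mem_U.mp hi
  have h2 := S.mem_H.mp h
  omega

/-- The position form on the corrected coordinates of a new cut. -/
theorem Sched.rough_T {m s : ℕ} {B : Finset V} {sub : V → ℕ} {p q : Fin d → ℝ}
    (hq : ∀ i, q i = p i + sm α B i)
    (hsz : (B.filter fun v => sub v < s).card = s * B.card / S.K m)
    (hTp : S.Tf (m + 1) p ≤ 1 / 1000) (hTq : S.Tf (m + 1) q ≤ 1 / 1000)
    (hN : S.RN α m B p q sub s) :
    S.Tf (m + 1) (fun i => p i + sm α (B.filter fun v => sub v < s) i) ≤ 1 / 100 := by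
  set t := ttt B (S.K m) s with ht
  have ht0 : 0 ≤ t := ttt_nonneg B (S.K m) s
  have ht1 : t ≤ 1 := ttt_le_one B (S.K m) s sub hsz
  have hterm : ∀ i ∈ S.H (m + 1),
      (p i + sm α (B.filter fun v => sub v < s) i) ^ 2 / S.q i (m + 1) ^ 2
        ≤ 2 * (1 - t) * (p i ^ 2 / S.q i (m + 1) ^ 2) + 2 * t * (q i ^ 2 / S.q i (m + 1) ^ 2)
          + 2 * (S.Nn α m B sub s (Sum.inl i) ^ 2 / S.q i (m + 1) ^ 2) := by
    intro i hi
    have hq0 := S.q_pos hi
    have e1 : sm α (B.filter fun v => sub v < s) i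
        = t * sm α B i + S.Nn α m B sub s (Sum.inl i) := by
      have h1 := S.sum_first α m B sub s (Sum.inl i)
      simp only [S.rr_H hi] at h1
      exact h1
    have e2 : p i + sm α (B.filter fun v => sub v < s) i
        = (1 - t) * p i + t * q i + S.Nn α m B sub s (Sum.inl i) := by
      rw [e1, hq i]
      ring
    rw [e2]
    set N := S.Nn α m B sub s (Sum.inl i)
    have h1 : ((1 - t) * p i + t * q i + N) ^ 2 ≤ 2 * (1 - t) * p i ^ 2 + 2 * t * q i ^ 2 + 2 * N ^ 2 := by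
      have h2 : 0 ≤ t * (1 - t) * (p i - q i) ^ 2 := by
        have : 0 ≤ 1 - t := by linarith
        positivity
      nlinarith [sq_nonneg ((1 - t) * p i + t * q i - N)]
    have h2 := div_le_div_of_nonneg_right h1 (show 0 ≤ S.q i (m + 1) ^ 2 by positivity)
    refine h2.trans (le_of_eq ?_)
    ring
  unfold Sched.Tf at *
  refine (Finset.sum_le_sum hterm).trans ?_
  simp only [Finset.sum_add_distrib, ← Finset.mul_sum]
  have h1 := hN.nT
  have h2 := S.b_ge (m + 1)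
  have h3 : 9600 / S.b (m + 1) ≤ 1 / 1000 := by
    rw [div_le_div_iff₀ (S.b_pos _) (by norm_num)]
    norm_num at h2 ⊢
    linarith
  have h4 : 2 * (1 - t) * ∑ i ∈ S.H (m + 1), p i ^ 2 / S.q i (m + 1) ^ 2 ≤ 2 * (1 - t) * (1 / 1000) := by
    have : 0 ≤ 1 - t := by linarith
    gcongr
  have h5 : 2 * t * ∑ i ∈ S.H (m + 1), q i ^ 2 / S.q i (m + 1) ^ 2 ≤ 2 * t * (1 / 1000) := by
    gcongr
  linarith

/-- Cauchy for a set of elements of bounded mass. -/
lemma Sched.ph_sm_le (hα : ∀ v, ∑ i, α v i ^ 2 ≤ 1) {m : ℕ} {E : Finset V}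
    (hE : ∀ v ∈ E, S.uu α m v ≤ 1) :
    ∑ i ∈ S.U (m + 1), S.ph (m + 1) i * sm α E i ^ 2 ≤ (E.card : ℝ) ^ 2 * (5 * S.Θ m) := by
  have h1 : ∀ i ∈ S.U (m + 1), S.ph (m + 1) i * sm α E i ^ 2
      ≤ (E.card : ℝ) * ∑ v ∈ E, S.ph (m + 1) i * α v i ^ 2 := by
    intro i _
    have h2 : sm α E i ^ 2 ≤ (E.card : ℝ) * ∑ v ∈ E, α v i ^ 2 := sq_sum_le_card_mul_sum_sq
    have h3 : 0 ≤ S.ph (m + 1) i := zero_le_one.trans (S.one_le_ph _ i)
    calc _ ≤ S.ph (m + 1) i * ((E.card : ℝ) * ∑ v ∈ E, α v i ^ 2) := by gcongr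
      _ = _ := by
        rw [Finset.mul_sum, Finset.mul_sum, Finset.mul_sum]
        refine Finset.sum_congr rfl fun v _ => ?_
        ring
  refine (Finset.sum_le_sum h1).trans ?_
  rw [← Finset.mul_sum, Finset.sum_comm]
  have h2 : ∑ v ∈ E, ∑ i ∈ S.U (m + 1), S.ph (m + 1) i * α v i ^ 2 ≤ (E.card : ℝ) * (5 * S.Θ m) := by
    calc _ ≤ ∑ _v ∈ E, 5 * S.Θ m := Finset.sum_le_sum fun v hv => S.light_ph_le α hα (hE v hv)
      _ = _ := by simp
  have h3 : (0 : ℝ) ≤ (E.card : ℝ) := Nat.cast_nonneg _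
  calc _ ≤ (E.card : ℝ) * ((E.card : ℝ) * (5 * S.Θ m)) := by gcongr
    _ = _ := by ring

end Vale.Agent.P262S
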