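import Vale.Agent.P262S.RoughDet3

/-! # Deterministic consequences of the tests: light sums and the position form. -/

open Finset

namespace Vale.Agent.P262S

variable {d : ℕ} (S : Sched d)
variable {V : Type} [Fintype V] [DecidableEq V] {α : V → Fin d → ℝ}

lemma sm_union {A A' : Finset V} (h : Disjoint A A') (i : Fin d) :
    sm α (A ∪ A') i = sm α A i + sm α A' i := by
  unfold sm
  rw [Finset.sum_union h]

lemma sm_nonneg_card_le (A : Finset V) : (0 : ℝ) ≤ (A.card : ℝ) := Nat.cast_nonneg _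

/-- The light part at the next level. -/
lemma Sched.Hv_mono {m : ℕ} {v : V} (h : S.Hv α m v) : S.Hv α (m + 1) v :=
  lt_of_lt_of_le h (S.uu_mono α m v)

/-- The new heavy elements of a set. -/
noncomputable def Sched.Nh (m : ℕ) (A : Finset V) : Finset V :=
  by classical exact (S.Lv α m A).filter (fun v => S.Hv α (m + 1) v)

lemma Sched.Nh_sub (m : ℕ) (A : Finset V) : S.Nh (α := α) m A ⊆ S.Sv α (m + 1) A := by
  classical
  intro v hv
  unfold Sched.Nh at hv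
  have h1 := Finset.mem_filter.mp hv
  have h2 := Finset.mem_filter.mp h1.1
  exact Finset.mem_filter.mpr ⟨h2.1, h1.2⟩

lemma Sched.Nh_light (m : ℕ) (A : Finset V) {v : V} (hv : v ∈ S.Nh (α := α) m A) : S.uu α m v ≤ 1 := by
  classical
  unfold Sched.Nh at hv
  have h1 := Finset.mem_filter.mp hv
  have h2 := Finset.mem_filter.mp h1.1
  exact not_lt.mp h2.2

/-- Light sums at the next level. -/
lemma Sched.sm_Lv_succ (m : ℕ) (A : Finset V) (i : Fin d) :
    sm α (S.Lv α (m + 1) A) i = sm α (S.Lv α m A) i - sm α (S.Nh (α := α) m A) i := by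
  classical
  have e : S.Lv α m A = S.Lv α (m + 1) A ∪ S.Nh (α := α) m A := by
    ext v
    simp only [Sched.Lv, Sched.Nh, Finset.mem_filter, Finset.mem_union]
    constructor
    · rintro ⟨h1, h2⟩
      by_cases h : S.Hv α (m + 1) v
      · exact Or.inr ⟨⟨h1, h2⟩, h⟩
      · exact Or.inl ⟨h1, h⟩
    · rintro (⟨h1, h2⟩ | ⟨⟨h1, h2⟩, -⟩)
      · exact ⟨h1, fun h => h2 (S.Hv_mono h)⟩
      · exact ⟨h1, h2⟩
  have hd : Disjoint (S.Lv α (m + 1) A) (S.Nh (α := α) m A) := by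
    rw [Finset.disjoint_left]
    intro v hv hv'
    have h1 := (Finset.mem_filter.mp hv).2
    unfold Sched.Nh at hv'
    exact h1 (Finset.mem_filter.mp hv').2
  rw [e, sm_union hd]
  ring

/-- The light sum form of a child. -/
theorem Sched.rough_LF (hα : ∀ v, ∑ i, α v i ^ 2 ≤ 1) {m s : ℕ} {B : Finset V} {sub : V → ℕ}
    {p q : Fin d → ℝ} {LF : ℝ}
    (hB : S.BlockInv α m B (1 / 100) (1 / 1000) (S.Nb m) (S.Nb m) (S.Mb1 m) (S.Mb2 m))
    (hH : (S.H (m + 1)).Nonempty)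
    (hLF : S.LFf (m + 1) (sm α (S.Lv α m B)) ≤ LF)
    (hN0 : S.RN α m B p q sub s) (hN1 : S.RN α m B p q sub (s + 1)) :
    S.LFf (m + 1) (sm α (S.Lv α (m + 1) (B.filter fun v => sub v = s))) ≤ S.LFr LF m := by
  obtain ⟨k, hk⟩ := hH
  have hsub := S.H_succ_subset m
  set θ := ttt B (S.K m) (s + 1) - ttt B (S.K m) s with hθ
  have hθ0 : 0 ≤ θ := theta_nonneg B (S.K m) s
  have hθ1 : θ ≤ 2 / (S.K m : ℝ) := S.theta_le hα hB.hX (hsub hk) s
  set E := S.Nh (α := α) m (B.filter fun v => sub v = s) with hE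
  have hterm : ∀ i ∈ S.U (m + 1),
      S.ph (m + 1) i * sm α (S.Lv α (m + 1) (B.filter fun v => sub v = s)) i ^ 2
        ≤ 3 * θ ^ 2 * (S.ph (m + 1) i * sm α (S.Lv α m B) i ^ 2)
          + 6 * (S.ph (m + 1) i * S.Nn α m B sub (s + 1) (Sum.inl i) ^ 2)
          + 6 * (S.ph (m + 1) i * S.Nn α m B sub s (Sum.inl i) ^ 2)
          + 3 * (S.ph (m + 1) i * sm α E i ^ 2) := by
    intro i hi
    have hni := mem_U_not_H S hi
    have h1 := S.sum_ch α m B sub s (Sum.inl i)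
    rw [S.sum_rr_U hni, S.sum_rr_U hni] at h1
    rw [S.sm_Lv_succ, h1]
    have hph : 0 ≤ S.ph (m + 1) i := zero_le_one.trans (S.one_le_ph _ i)
    set L := sm α (S.Lv α m B) i
    set N1 := S.Nn α m B sub (s + 1) (Sum.inl i)
    set N0 := S.Nn α m B sub s (Sum.inl i)
    set e := sm α E i
    have h2 : (θ * L + (N1 - N0) - e) ^ 2 ≤ 3 * θ ^ 2 * L ^ 2 + 6 * N1 ^ 2 + 6 * N0 ^ 2 + 3 * e ^ 2 := by
      nlinarith [sq_nonneg (θ * L - (N1 - N0)), sq_nonneg (θ * L + e), sq_nonneg ((N1 - N0) + e),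
        sq_nonneg (N1 + N0)]
    calc _ ≤ S.ph (m + 1) i * (3 * θ ^ 2 * L ^ 2 + 6 * N1 ^ 2 + 6 * N0 ^ 2 + 3 * e ^ 2) := by gcongr
      _ = _ := by ring
  unfold Sched.LFf at *
  refine (Finset.sum_le_sum hterm).trans ?_
  simp only [Finset.sum_add_distrib, ← Finset.mul_sum]
  have h1 := hN0.nLF
  have h2 := hN1.nLF
  have h3 : ∑ i ∈ S.U (m + 1), S.ph (m + 1) i * sm α E i ^ 2 ≤ 5 * S.NbR (m + 1) ^ 2 * S.Θ m := by
    refine (S.ph_sm_le hα fun v hv => S.Nh_light m _ hv).trans ?_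
    have h4 : (E.card : ℝ) ≤ S.NbR (m + 1) := by
      refine le_trans ?_ (S.child_Nh hB hN0 hN1)
      exact_mod_cast Finset.card_le_card (S.Nh_sub m _)
    have h5 : (E.card : ℝ) ^ 2 ≤ S.NbR (m + 1) ^ 2 := by
      have := sm_nonneg_card_le E
      gcongr
    have h6 := S.Θ_pos m
    nlinarith
  have h7 : 0 ≤ S.NbR (m + 1) ^ 2 * S.Θ m := by
    have h6 := S.Θ_pos m
    positivity
  have h4 : 3 * θ ^ 2 * ∑ i ∈ S.U (m + 1), S.ph (m + 1) i * sm α (S.Lv α m B) i ^ 2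
      ≤ 3 * (4 / (S.K m : ℝ) ^ 2 * LF) := by
    have h5 : θ ^ 2 ≤ (2 / (S.K m : ℝ)) ^ 2 := by gcongr
    have h6 : 0 ≤ ∑ i ∈ S.U (m + 1), S.ph (m + 1) i * sm α (S.Lv α m B) i ^ 2 :=
      Finset.sum_nonneg fun i _ =>
        mul_nonneg (zero_le_one.trans (S.one_le_ph _ i)) (sq_nonneg _)
    have h8 : (2 / (S.K m : ℝ)) ^ 2 = 4 / (S.K m : ℝ) ^ 2 := by ring
    rw [h8] at h5
    have h9 : θ ^ 2 * ∑ i ∈ S.U (m + 1), S.ph (m + 1) i * sm α (S.Lv α m B) i ^ 2
        ≤ 4 / (S.K m : ℝ) ^ 2 * LF := by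
      apply mul_le_mul h5 hLF h6 (by positivity)
    linarith
  unfold Sched.LFr
  linarith

/-- The position form of a point on a chord between two centres (with the same noise). -/
lemma Sched.chord_Q {m s : ℕ} {B : Finset V} {sub : V → ℕ} {p q : Fin d → ℝ} {Bud : ℝ}
    (hsz : (B.filter fun v => sub v < s).card = s * B.card / S.K m)
    (hq : ∀ i, q i = p i + sm α B i)
    (hJL : S.JL α m (m + 1) (S.W (m + 1)) Bud B p)
    (hJR : S.JR α m (m + 1) (S.W (m + 1)) Bud B q)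
    (hN : S.RN α m B p q sub s) {G : Finset V} (hG : G ⊆ S.Sv α m B) :
    ∑ i ∈ S.U (m + 1), S.Wk (m + 1) 5 i
        * (p i + ttt B (S.K m) s * sm α (S.Lv α m B) i + sm α G i
            + S.Nn α m B sub s (Sum.inl i)) ^ 2
      ≤ Bud + (3200 * S.Vw m
        + 960000 * S.Θ m * (3 + ((S.Sv α m B).card : ℝ) + 4 * (S.j m : ℝ))) := by
  classical
  set t := ttt B (S.K m) s with ht
  have ht0 : 0 ≤ t := ttt_nonneg B (S.K m) s
  have ht1 : t ≤ 1 := ttt_le_one B (S.K m) s sub hsz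
  set G' := S.Sv α m B \ G with hG'
  have hG's : G' ⊆ S.Sv α m B := Finset.sdiff_subset
  have hsS : ∀ i, sm α (S.Sv α m B) i = sm α G i + sm α G' i := by
    intro i
    rw [hG', ← sm_union Finset.disjoint_sdiff, Finset.union_sdiff_of_subset hG]
  have hsB : ∀ i, sm α B i = sm α (S.Lv α m B) i + sm α (S.Sv α m B) i := by
    intro i
    unfold sm Sched.Lv Sched.Sv
    rw [add_comm, Finset.sum_filter_add_sum_filter_not]
  have hcent : ∀ i, q i - sm α G' i = p i + sm α (S.Lv α m B) i + sm α G i := by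
    intro i
    rw [hq i, hsB i, hsS i]
    ring
  have hterm : ∀ i ∈ S.U (m + 1), S.Wk (m + 1) 5 i
        * (p i + t * sm α (S.Lv α m B) i + sm α G i + S.Nn α m B sub s (Sum.inl i)) ^ 2
      ≤ (1 - t) * (S.Wk (m + 1) 5 i * (p i + sm α G i + S.Nn α m B sub s (Sum.inl i)) ^ 2)
        + t * (S.Wk (m + 1) 5 i * (q i - sm α G' i + S.Nn α m B sub s (Sum.inl i)) ^ 2) := by
    intro i _
    rw [hcent i]
    have hW := (S.Wk_pos (m + 1) 5 i).le
    set N := S.Nn α m B sub s (Sum.inl i)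
    set a := p i + sm α G i + N
    set L := sm α (S.Lv α m B) i
    have e1 : p i + t * L + sm α G i + N = a + t * L := by
      simp only [a]
      ring
    have e2 : p i + L + sm α G i + N = a + L := by
      simp only [a]
      ring
    rw [e1, e2]
    have h2 : (a + t * L) ^ 2 ≤ (1 - t) * a ^ 2 + t * (a + L) ^ 2 := by
      have : 0 ≤ t * (1 - t) * L ^ 2 := by
        have : 0 ≤ 1 - t := by linarith
        positivity
      nlinarith
    calc _ ≤ S.Wk (m + 1) 5 i * ((1 - t) * a ^ 2 + t * (a + L) ^ 2) := by gcongr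
      _ = _ := by ring
  refine (Finset.sum_le_sum hterm).trans ?_
  rw [Finset.sum_add_distrib, ← Finset.mul_sum, ← Finset.mul_sum]
  have h1 := hN.nQL G hG
  have h2 := hN.nQR G' hG's
  have h3 := hJL G hG
  have h4 := hJR G' hG's
  unfold Sched.Qf at h3 h4
  set C := 3200 * S.Vw m + 960000 * S.Θ m * (3 + ((S.Sv α m B).card : ℝ) + 4 * (S.j m : ℝ))
  have h5 : ∑ i ∈ S.U (m + 1), S.Wk (m + 1) 5 i * (p i + sm α G i + S.Nn α m B sub s (Sum.inl i)) ^ 2
      ≤ Bud + C := by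
    simp only [C]
    linarith
  have h6 : ∑ i ∈ S.U (m + 1), S.Wk (m + 1) 5 i * (q i - sm α G' i + S.Nn α m B sub s (Sum.inl i)) ^ 2
      ≤ Bud + C := by
    simp only [C]
    linarith
  have h7 : 0 ≤ 1 - t := by linarith
  calc _ ≤ (1 - t) * (Bud + C) + t * (Bud + C) := by gcongr
    _ = _ := by ring

/-- Adding new heavy elements to the position form. -/
lemma Sched.Q_add_heavy (hα : ∀ v, ∑ i, α v i ^ 2 ≤ 1) {m : ℕ} {E : Finset V}
    (hE : ∀ v ∈ E, S.uu α m v ≤ 1) (y : Fin d → ℝ) (σ : ℝ) (hσ : σ ^ 2 = 1) :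
    ∑ i ∈ S.U (m + 1), S.Wk (m + 1) 4 i * (y i + σ * sm α E i) ^ 2
      ≤ ∑ i ∈ S.U (m + 1), S.Wk (m + 1) 5 i * y i ^ 2
        + 51 * ((E.card : ℝ) ^ 2 * (5 * S.Θ m)) := by
  have h1 := S.ph_sm_le hα hE
  have hterm : ∀ i ∈ S.U (m + 1), S.Wk (m + 1) 4 i * (y i + σ * sm α E i) ^ 2
      ≤ S.Wk (m + 1) 5 i * y i ^ 2 + 51 * (S.ph (m + 1) i * sm α E i ^ 2) := by
    intro i hi
    have hei := S.mem_U.mp hi
    have hW := S.Wk_pos (m + 1) 4 i
    have hW1 := S.Wk_le_one (u := m + 1) (k := 4) (by norm_num) hei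
    have hag := S.ag_pos (m + 1) i
    have hph := S.ph_mul_ag (m + 1) i
    have hph1 := S.one_le_ph (m + 1) i
    have e5 : S.Wk (m + 1) 5 i = S.Wk (m + 1) 4 i * (1 + S.ag (m + 1) i / 50) := by
      rw [S.Wk_succ]
      rfl
    rw [e5]
    set a := S.ag (m + 1) i
    set x := y i
    set z := sm α E i
    have hz : (σ * z) ^ 2 = z ^ 2 := by
      rw [mul_pow, hσ, one_mul]
    have h2 : (x + σ * z) ^ 2 ≤ (1 + a / 50) * x ^ 2 + (1 + 50 * S.ph (m + 1) i) * z ^ 2 := by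
      have h3 : 2 * x * (σ * z) ≤ a / 50 * x ^ 2 + 50 * S.ph (m + 1) i * z ^ 2 := by
        have h4 : 0 ≤ (a / 50) * (x - 50 * S.ph (m + 1) i * (σ * z)) ^ 2 := by positivity
        have e : (a / 50) * (x - 50 * S.ph (m + 1) i * (σ * z)) ^ 2
            = a / 50 * x ^ 2 - 2 * (S.ph (m + 1) i * a) * x * (σ * z)
              + 50 * (S.ph (m + 1) i * a) * S.ph (m + 1) i * (σ * z) ^ 2 := by
          ring
        rw [e, hph, hz] at h4
        linarith
      nlinarith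
    have hz2 : 0 ≤ z ^ 2 := sq_nonneg z
    calc _ ≤ S.Wk (m + 1) 4 i * ((1 + a / 50) * x ^ 2 + (1 + 50 * S.ph (m + 1) i) * z ^ 2) := by
          gcongr
      _ = S.Wk (m + 1) 4 i * (1 + a / 50) * x ^ 2
            + S.Wk (m + 1) 4 i * ((1 + 50 * S.ph (m + 1) i) * z ^ 2) := by ring
      _ ≤ S.Wk (m + 1) 4 i * (1 + a / 50) * x ^ 2 + 1 * ((1 + 50 * S.ph (m + 1) i) * z ^ 2) := by
          gcongr
      _ ≤ _ := by
          nlinarith
  refine (Finset.sum_le_sum hterm).trans ?_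
  rw [Finset.sum_add_distrib, ← Finset.mul_sum]
  linarith

end Vale.Agent.P262S
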