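import Vale.Agent.P262S.RoughNoise

/-! # The noise of a rough split. -/

open Finset

namespace Vale.Agent.P262S

variable {d : ℕ} (S : Sched d)
variable {V : Type} [Fintype V] [DecidableEq V] (α : V → Fin d → ℝ)

/-- The noise of a row at a cut. -/
noncomputable def Sched.Nn (m : ℕ) (B : Finset V) (sub : V → ℕ) (s : ℕ) (I : RI d) : ℝ :=
  ∑ v ∈ B.filter (fun v => sub v < s), S.rr α m v I
    - (((s * B.card / S.K m : ℕ) : ℝ) / (B.card : ℝ)) * ∑ v ∈ B, S.rr α m v I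

/-- The consequences of the tests at one cut. -/
structure Sched.RN (m : ℕ) (B : Finset V) (p q : Fin d → ℝ) (sub : V → ℕ) (s : ℕ) : Prop where
  nT : ∑ i ∈ S.H (m + 1), S.Nn α m B sub s (Sum.inl i) ^ 2 / S.q i (m + 1) ^ 2 ≤ 9600 / S.b (m + 1)
  nX : ∑ k ∈ S.H (m + 1), ∑ l ∈ S.H (m + 1), S.Nn α m B sub s (Sum.inr (Sum.inl (k, l))) ^ 2
        / (S.q k (m + 1) ^ 2 * S.q l (m + 1) ^ 2 * min (S.q k (m + 1)) (S.q l (m + 1)) ^ 2)
      ≤ 9600 / S.b (m + 1) ^ 4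
  nXp : ∑ k ∈ S.H (m + 1), ∑ c ∈ S.C (m + 1), S.Nn α m B sub s (Sum.inr (Sum.inl (k, c))) ^ 2
        / S.q k (m + 1) ^ 6
      ≤ (3200 * ((S.C (m + 1)).card : ℝ) + 6400) / S.b (m + 1) ^ 5
  nR : ∀ t : Fin 3, S.Nn α m B sub s (Sum.inr (Sum.inr t)) ^ 2 ≤ 3200 + 6400 * (5 + 4 * (S.j m : ℝ))
  nLF : ∑ i ∈ S.U (m + 1), S.ph (m + 1) i * S.Nn α m B sub s (Sum.inl i) ^ 2 ≤ S.LNw m
  nQL : ∀ G ⊆ S.Sv α m B, ∑ i ∈ S.U (m + 1),
        S.Wk (m + 1) 5 i * (p i + sm α G i + S.Nn α m B sub s (Sum.inl i)) ^ 2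
      ≤ 3200 * S.Vw m + ∑ i ∈ S.U (m + 1), S.W (m + 1) i * (p i + sm α G i) ^ 2
        + 960000 * S.Θ m * (3 + ((S.Sv α m B).card : ℝ) + 4 * (S.j m : ℝ))
  nQR : ∀ G ⊆ S.Sv α m B, ∑ i ∈ S.U (m + 1),
        S.Wk (m + 1) 5 i * (q i - sm α G i + S.Nn α m B sub s (Sum.inl i)) ^ 2
      ≤ 3200 * S.Vw m + ∑ i ∈ S.U (m + 1), S.W (m + 1) i * (q i - sm α G i) ^ 2
        + 960000 * S.Θ m * (3 + ((S.Sv α m B).card : ℝ) + 4 * (S.j m : ℝ))

/-- The existence of a rough split with all tests good. -/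
theorem Sched.exists_noise (hα : ∀ v, ∑ i, α v i ^ 2 ≤ 1) (m : ℕ) (B : Finset V) (p q : Fin d → ℝ) :
    ∃ sub : V → ℕ, (∀ v, sub v < S.K m) ∧
      (∀ s ≤ S.K m, (B.filter fun v => sub v < s).card = s * B.card / S.K m) ∧
      ∀ s ≤ S.K m, S.RN α m B p q sub s := by
  classical
  set h := (S.Sv α m B).card with hh
  let t : Fin 7 ⊕ (↥(S.Sv α m B).powerset × Bool) → FT (S.rb m) :=
    Sum.elim ![S.tT m, S.tX m, S.tXp m, S.fts m 0, S.fts m 1, S.fts m 2, S.tLF m]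
      (fun g => S.tQ m (if g.2 then (fun i => p i + sm α g.1.1 i) else (fun i => q i - sm α g.1.1 i)))
  let π : Fin 7 ⊕ (↥(S.Sv α m B).powerset × Bool) → ℝ :=
    Sum.elim (fun _ => 1 / 16) (fun _ => 1 / 4 / 2 ^ h)
  have hπ : ∀ τ, 0 < π τ := by
    rintro (a | g)
    · simp [π]
    · simp only [π, Sum.elim_inr]
      positivity
  have hπ1 : ∑ τ, π τ ≤ 1 := by
    rw [Fintype.sum_sum_type]
    simp only [π, Sum.elim_inl, Sum.elim_inr]
    simp only [Finset.sum_const, Finset.card_univ, Fintype.card_prod, Fintype.card_coe,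
      Finset.card_powerset, Fintype.card_bool, Fintype.card_fin, nsmul_eq_mul]
    push_cast
    rw [← hh]
    have : (0 : ℝ) < 2 ^ h := by positivity
    have e : (2 : ℝ) ^ h * 2 * (1 / 4 / 2 ^ h) = 1 / 2 := by
      field_simp
      norm_num
    rw [e]
    norm_num
  have hK : 1 ≤ S.K m := Nat.one_le_pow _ _ (by norm_num)
  obtain ⟨sub, h1, h2, h3⟩ := star_rough B (S.rb m) (S.rb_pos m) (S.rr α m)
    (fun v _ => S.rr_norm α hα m v) (S.K m) hK t π hπ hπ1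
  refine ⟨sub, h1, h2, fun s hs => ?_⟩
  have key : ∀ τ, (t τ).val (S.Nn α m B sub s)
      ≤ (t τ).bd + Real.log (2 * (S.K m : ℝ) / π τ) / (t τ).τ := by
    intro τ
    have := h3 s hs τ 1 (Or.inl rfl)
    simp only [one_mul] at this
    exact this
  have hLog1 := S.log_K1 m
  refine ⟨?_, ?_, ?_, ?_, ?_, ?_, ?_⟩
  · exact S.tT_bound m _ hLog1 (key (Sum.inl 0))
  · exact S.tX_bound m _ hLog1 (key (Sum.inl 1))
  · exact S.tXp_bound m _ hLog1 (key (Sum.inl 2))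
  · intro a
    fin_cases a
    · exact S.tR_bound m 0 _ hLog1 (key (Sum.inl 3))
    · exact S.tR_bound m 1 _ hLog1 (key (Sum.inl 4))
    · exact S.tR_bound m 2 _ hLog1 (key (Sum.inl 5))
  · exact S.tLF_bound m _ hLog1 (key (Sum.inl 6))
  · intro G hG
    have hg : G ∈ (S.Sv α m B).powerset := Finset.mem_powerset.mpr hG
    exact S.tQ_bound m _ _ (S.log_K2 m h) (key (Sum.inr (⟨G, hg⟩, true)))
  · intro G hG
    have hg : G ∈ (S.Sv α m B).powerset := Finset.mem_powerset.mpr hG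
    exact S.tQ_bound m _ _ (S.log_K2 m h) (key (Sum.inr (⟨G, hg⟩, false)))

end Vale.Agent.P262S
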