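import Vale.Agent.P262S.Basic

/-! # The cost of the new heavy elements at a rough split (notes/P262_sqrtd.md, section 3). -/

open Finset

namespace Vale.Agent.P262S

variable {d : ℕ} (S : Sched d)
variable {V : Type} [Fintype V] [DecidableEq V] (α : V → Fin d → ℝ)

omit [Fintype V] [DecidableEq V] in
/-- The mass of a set of light elements in the light sum form. -/
lemma Sched.ph_sm_le (hα : ∀ v, ∑ i, α v i ^ 2 ≤ 1) {m : ℕ} {E : Finset V}
    (hE : ∀ v ∈ E, S.uu α m v ≤ 1) :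
    ∑ i ∈ S.U (m + 1), S.ph (m + 1) i * sm α E i ^ 2 ≤ 5 * S.Θ m * (E.card : ℝ) ^ 2 := by
  have hΘ := S.Θ_pos m
  calc ∑ i ∈ S.U (m + 1), S.ph (m + 1) i * sm α E i ^ 2
      ≤ ∑ i ∈ S.U (m + 1), S.ph (m + 1) i * ((E.card : ℝ) * ∑ v ∈ E, α v i ^ 2) := by
        refine Finset.sum_le_sum fun i _ => ?_
        refine mul_le_mul_of_nonneg_left ?_ (le_trans zero_le_one (S.one_le_ph _ _))
        exact sq_sum_le_card_mul_sum_sq
    _ = (E.card : ℝ) * ∑ v ∈ E, ∑ i ∈ S.U (m + 1), S.ph (m + 1) i * α v i ^ 2 := by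
        rw [Finset.sum_comm, Finset.mul_sum]
        refine Finset.sum_congr rfl fun i _ => ?_
        rw [Finset.mul_sum, Finset.mul_sum, Finset.mul_sum]
        refine Finset.sum_congr rfl fun v _ => ?_
        ring
    _ ≤ (E.card : ℝ) * ∑ _v ∈ E, 5 * S.Θ m := by
        refine mul_le_mul_of_nonneg_left ?_ (by positivity)
        exact Finset.sum_le_sum fun v hv => S.light_ph_le α hα (hE v hv)
    _ = 5 * S.Θ m * (E.card : ℝ) ^ 2 := by
        rw [Finset.sum_const, nsmul_eq_mul]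
        ring

omit [Fintype V] [DecidableEq V] in
/-- Adding a set of elements which are light at level `m` costs one weight factor and a `h²` term. -/
lemma Sched.new_heavy_cost (hα : ∀ v, ∑ i, α v i ^ 2 ≤ 1) {m k : ℕ} (hk : k ≤ 6) {E : Finset V}
    (hE : ∀ v ∈ E, S.uu α m v ≤ 1) (x : Fin d → ℝ) {σ : ℝ} (hσ : σ = 1 ∨ σ = -1) :
    S.Qf (m + 1) (S.Wk (m + 1) k) (fun i => x i + σ * sm α E i)
      ≤ S.Qf (m + 1) (S.Wk (m + 1) (k + 1)) x + 255 * (E.card : ℝ) ^ 2 * S.Θ m := by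
  have hσ2 : σ ^ 2 = 1 := by rcases hσ with rfl | rfl <;> norm_num
  have hterm : ∀ i ∈ S.U (m + 1), S.Wk (m + 1) k i * (x i + σ * sm α E i) ^ 2
      ≤ S.Wk (m + 1) (k + 1) i * x i ^ 2 + 51 * (S.ph (m + 1) i * sm α E i ^ 2) := by
    intro i hi
    have hi' := S.mem_U.1 hi
    have hag := S.ag_pos (m + 1) i
    have hW0 := S.Wk_pos (m + 1) k i
    have hW1 := S.Wk_le_one hk hi'
    have hph1 := S.one_le_ph (m + 1) i
    have hph := S.ph_mul_ag (m + 1) i
    set y := sm α E i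
    have hWs : S.Wk (m + 1) (k + 1) i = S.Wk (m + 1) k i * (1 + S.ag (m + 1) i / 50) := S.Wk_succ _ _ _
    rw [hWs]
    -- Young with `ε = ag / 50`
    set ε := S.ag (m + 1) i / 50 with hε
    have hε0 : 0 < ε := by positivity
    have hY : (x i + σ * y) ^ 2 ≤ (1 + ε) * x i ^ 2 + (1 + 1 / ε) * y ^ 2 := by
      have e : (1 + ε) * x i ^ 2 + (1 + 1 / ε) * y ^ 2 - (x i + σ * y) ^ 2
          = (ε * x i - σ * y) ^ 2 / ε := by
        rcases hσ with rfl | rfl
        · field_simp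
          ring
        · field_simp
          ring
      have h2 : 0 ≤ (ε * x i - σ * y) ^ 2 / ε := by positivity
      linarith
    have h1e : 1 / ε = 50 * S.ph (m + 1) i := by
      rw [hε]
      field_simp
      linarith
    have hy0 : 0 ≤ y ^ 2 := sq_nonneg y
    calc S.Wk (m + 1) k i * (x i + σ * y) ^ 2
        ≤ S.Wk (m + 1) k i * ((1 + ε) * x i ^ 2 + (1 + 1 / ε) * y ^ 2) :=
          mul_le_mul_of_nonneg_left hY hW0.le
      _ = S.Wk (m + 1) k i * (1 + ε) * x i ^ 2 + S.Wk (m + 1) k i * ((1 + 1 / ε) * y ^ 2) := by ring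
      _ ≤ S.Wk (m + 1) k i * (1 + ε) * x i ^ 2 + 51 * (S.ph (m + 1) i * y ^ 2) := by
          have h3 : (1 + 1 / ε) ≤ 51 * S.ph (m + 1) i := by rw [h1e]; linarith
          have h4 : 0 ≤ (1 + 1 / ε) * y ^ 2 := by positivity
          have h5 : S.Wk (m + 1) k i * ((1 + 1 / ε) * y ^ 2) ≤ 1 * ((1 + 1 / ε) * y ^ 2) :=
            mul_le_mul_of_nonneg_right hW1 h4
          have h6 : (1 + 1 / ε) * y ^ 2 ≤ 51 * S.ph (m + 1) i * y ^ 2 :=
            mul_le_mul_of_nonneg_right h3 hy0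
          linarith
  unfold Sched.Qf
  refine (Finset.sum_le_sum hterm).trans ?_
  rw [Finset.sum_add_distrib, ← Finset.mul_sum]
  have h := S.ph_sm_le α hα hE
  have : 51 * ∑ i ∈ S.U (m + 1), S.ph (m + 1) i * sm α E i ^ 2 ≤ 51 * (5 * S.Θ m * (E.card : ℝ) ^ 2) :=
    mul_le_mul_of_nonneg_left h (by norm_num)
  linarith

omit [Fintype V] [DecidableEq V] in
/-- Convexity of a position form: the centre `(1 - t) c₁ + t c₂` with the common noise `n`. -/
lemma Sched.Qf_convex {u : ℕ} {w : Fin d → ℝ} (hw : ∀ i, 0 ≤ w i) {c₁ c₂ n : Fin d → ℝ} {t A : ℝ}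
    (ht0 : 0 ≤ t) (ht1 : t ≤ 1)
    (h₁ : S.Qf u w (fun i => c₁ i + n i) ≤ A) (h₂ : S.Qf u w (fun i => c₂ i + n i) ≤ A) :
    S.Qf u w (fun i => (1 - t) * c₁ i + t * c₂ i + n i) ≤ A := by
  have hterm : ∀ i ∈ S.U u, w i * ((1 - t) * c₁ i + t * c₂ i + n i) ^ 2
      ≤ (1 - t) * (w i * (c₁ i + n i) ^ 2) + t * (w i * (c₂ i + n i) ^ 2) := by
    intro i _
    have e : (1 - t) * (w i * (c₁ i + n i) ^ 2) + t * (w i * (c₂ i + n i) ^ 2)
        - w i * ((1 - t) * c₁ i + t * c₂ i + n i) ^ 2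
        = w i * ((1 - t) * t * (c₁ i - c₂ i) ^ 2) := by ring
    have h0 : 0 ≤ w i * ((1 - t) * t * (c₁ i - c₂ i) ^ 2) := by
      have := hw i
      have h1 : 0 ≤ 1 - t := by linarith
      positivity
    linarith
  unfold Sched.Qf at *
  refine (Finset.sum_le_sum hterm).trans ?_
  rw [Finset.sum_add_distrib, ← Finset.mul_sum, ← Finset.mul_sum]
  nlinarith

end Vale.Agent.P262S
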