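import Vale.Agent.P262S.RoughCore

/-! # The tests of the rough split and their consequences. -/

open Finset

namespace Vale.Agent.P262S

variable {d : ℕ} (S : Sched d)

lemma Sched.b_pos (m : ℕ) : 0 < S.b m := by
  have := S.b_ge m
  linarith [show (0 : ℝ) < 2 ^ 42 by positivity]

lemma Sched.five_le_b (m : ℕ) : 5 + 4 * (S.j m : ℝ) ≤ S.b (m + 1) := by
  have h1 := S.b_succ_ge m
  have h2 := S.j_ge m
  have h3 : (1 : ℝ) ≤ ((S.C m).card : ℝ) + 1 := by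
    have : (0 : ℝ) ≤ ((S.C m).card : ℝ) := Nat.cast_nonneg _
    linarith
  have h4 : (S.j m : ℝ) ^ 4 ≥ S.j m := by
    have : (1 : ℝ) ≤ S.j m := by linarith
    calc (S.j m : ℝ) ^ 4 ≥ (S.j m : ℝ) ^ 1 := pow_le_pow_right₀ this (by norm_num)
      _ = S.j m := pow_one _
  have h5 : (S.j m : ℝ) ^ 4 * 1 * 1024 ≤ S.j m ^ 4 * (((S.C m).card : ℝ) + 1) * 1024 := by
    gcongr
  nlinarith

/-- A form test supported on a set of coordinates. -/
noncomputable def Sched.ftA (m : ℕ) (A : Finset (Fin d)) (a c : Fin d → ℝ) (τ : ℝ)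
    (ha : ∀ i ∈ A, 0 ≤ a i) (hτ : 0 < τ)
    (hs : ∀ i ∈ A, τ * a i * (1600 / S.om m i) ≤ 1 / 4) : FT (S.rb m) :=
  S.ftc m (fun i => if i ∈ A then a i else 0) c τ
    (by
      intro i
      split_ifs with h
      · exact ha i h
      · exact le_refl 0)
    hτ
    (by
      intro i
      split_ifs with h
      · exact hs i h
      · simp)

lemma Sched.ftA_spec (m : ℕ) (A : Finset (Fin d)) (a c : Fin d → ℝ) (τ : ℝ)
    (ha : ∀ i ∈ A, 0 ≤ a i) (hτ : 0 < τ)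
    (hs : ∀ i ∈ A, τ * a i * (1600 / S.om m i) ≤ 1 / 4) (x : RI d → ℝ) {L : ℝ}
    (h : (S.ftA m A a c τ ha hτ hs).val x
      ≤ (S.ftA m A a c τ ha hτ hs).bd + L / (S.ftA m A a c τ ha hτ hs).τ) :
    ∑ i ∈ A, a i * (c i + x (Sum.inl i)) ^ 2
      ≤ ∑ i ∈ A, (2 * (1600 / S.om m i) * a i
          + a i * (1 + 4 * τ * a i * (1600 / S.om m i)) * c i ^ 2) + L / τ := by
  have hτe : (S.ftA m A a c τ ha hτ hs).τ = τ := rfl
  rw [hτe] at h
  unfold Sched.ftA at h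
  rw [S.ftc_val, S.ftc_bd, sum_ite_mul_mem] at h
  have e : ∑ i, (2 * (1600 / S.om m i) * (if i ∈ A then a i else 0)
      + (if i ∈ A then a i else 0) * (1 + 4 * τ * (if i ∈ A then a i else 0) * (1600 / S.om m i))
        * c i ^ 2)
      = ∑ i ∈ A, (2 * (1600 / S.om m i) * a i
          + a i * (1 + 4 * τ * a i * (1600 / S.om m i)) * c i ^ 2) := by
    rw [← Finset.sum_filter_add_sum_filter_not univ (fun i => i ∈ A)]
    rw [Finset.sum_eq_zero (s := univ.filter (fun i => i ∉ A)), add_zero]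
    · have hf : univ.filter (fun i => i ∈ A) = A := by
        ext i; simp
      rw [hf]
      refine Finset.sum_congr rfl fun i hi => ?_
      rw [if_pos hi]
    · intro i hi
      rw [if_neg (Finset.mem_filter.mp hi).2]
      simp
  rw [e] at h
  exact h

/-- A form test supported on a set of pairs. -/
noncomputable def Sched.fpA (m : ℕ) (A : Finset (Fin d × Fin d)) (a : Fin d × Fin d → ℝ) (τ : ℝ)
    (ha : ∀ i ∈ A, 0 ≤ a i) (hτ : 0 < τ)
    (hs : ∀ i ∈ A, τ * a i * 1600 ≤ 1 / 4) : FT (S.rb m) :=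
  S.ftp m (fun i => if i ∈ A then a i else 0) τ
    (by
      intro i
      split_ifs with h
      · exact ha i h
      · exact le_refl 0)
    hτ
    (by
      intro i
      split_ifs with h
      · exact hs i h
      · simp)

lemma Sched.fpA_spec (m : ℕ) (A : Finset (Fin d × Fin d)) (a : Fin d × Fin d → ℝ) (τ : ℝ)
    (ha : ∀ i ∈ A, 0 ≤ a i) (hτ : 0 < τ)
    (hs : ∀ i ∈ A, τ * a i * 1600 ≤ 1 / 4) (x : RI d → ℝ) {L : ℝ}
    (h : (S.fpA m A a τ ha hτ hs).val x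
      ≤ (S.fpA m A a τ ha hτ hs).bd + L / (S.fpA m A a τ ha hτ hs).τ) :
    ∑ y ∈ A, a y * x (Sum.inr (Sum.inl y)) ^ 2 ≤ 3200 * ∑ y ∈ A, a y + L / τ := by
  have hτe : (S.fpA m A a τ ha hτ hs).τ = τ := rfl
  rw [hτe] at h
  unfold Sched.fpA at h
  rw [S.ftp_val, S.ftp_bd, sum_ite_mul_mem] at h
  have e : ∑ y, 3200 * (if y ∈ A then a y else 0) = 3200 * ∑ y ∈ A, a y := by
    rw [← Finset.mul_sum, Finset.sum_ite_mem, Finset.univ_inter]
  rw [e] at h
  exact h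

/-- The test of the position form on the corrected coordinates. -/
noncomputable def Sched.tT (m : ℕ) : FT (S.rb m) :=
  S.ftA m (S.H (m + 1)) (fun i => 1 / S.q i (m + 1) ^ 2) (fun _ => 0) (S.b (m + 1) ^ 2 / 6400)
    (fun i _ => by positivity)
    (by
      have := S.b_pos (m + 1)
      positivity)
    (by
      intro i h
      rw [S.om_eq_one h]
      have h1 := S.b_le_q h
      have h2 := S.q_pos h
      have h4 := S.b_pos (m + 1)
      have h5 : S.b (m + 1) ^ 2 ≤ S.q i (m + 1) ^ 2 := by gcongr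
      have e : S.b (m + 1) ^ 2 / 6400 * (1 / S.q i (m + 1) ^ 2) * (1600 / 1)
          = (S.b (m + 1) ^ 2 / S.q i (m + 1) ^ 2) / 4 := by
        field_simp
        ring
      rw [e]
      have : S.b (m + 1) ^ 2 / S.q i (m + 1) ^ 2 ≤ 1 := by
        rw [div_le_one (by positivity)]
        exact h5
      linarith)

/-- The bound of the position noise. -/
lemma Sched.tT_bound (m : ℕ) (x : RI d → ℝ) {L : ℝ} (hL : L ≤ 5 + 4 * (S.j m : ℝ))
    (h : (S.tT m).val x ≤ (S.tT m).bd + L / (S.tT m).τ) :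
    ∑ i ∈ S.H (m + 1), x (Sum.inl i) ^ 2 / S.q i (m + 1) ^ 2 ≤ 9600 / S.b (m + 1) := by
  have hb := S.b_pos (m + 1)
  have h1 := S.ftA_spec m _ _ _ _ _ _ _ x h
  have e1 : ∑ i ∈ S.H (m + 1), (2 * (1600 / S.om m i) * (1 / S.q i (m + 1) ^ 2)
      + (1 / S.q i (m + 1) ^ 2) * (1 + 4 * (S.b (m + 1) ^ 2 / 6400) * (1 / S.q i (m + 1) ^ 2)
          * (1600 / S.om m i)) * (0 : ℝ) ^ 2)
      = 3200 * ∑ i ∈ S.H (m + 1), 1 / S.q i (m + 1) ^ 2 := by
    rw [Finset.mul_sum]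
    refine Finset.sum_congr rfl fun i hi => ?_
    rw [S.om_eq_one hi]
    ring
  rw [e1] at h1
  have e2 : ∑ i ∈ S.H (m + 1), 1 / S.q i (m + 1) ^ 2 * (0 + x (Sum.inl i)) ^ 2
      = ∑ i ∈ S.H (m + 1), x (Sum.inl i) ^ 2 / S.q i (m + 1) ^ 2 := by
    refine Finset.sum_congr rfl fun i _ => ?_
    ring
  rw [e2] at h1
  refine h1.trans ?_
  have h2 := S.sum_inv_q2 (m + 1)
  have h3 : L / (S.b (m + 1) ^ 2 / 6400) ≤ 6400 / S.b (m + 1) := by
    have h5 := S.five_le_b m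
    rw [div_le_div_iff₀ (by positivity) hb]
    have : L ≤ S.b (m + 1) := hL.trans h5
    nlinarith
  have h4 : 3200 * ∑ i ∈ S.H (m + 1), 1 / S.q i (m + 1) ^ 2 ≤ 3200 / S.b (m + 1) := by
    have := mul_le_mul_of_nonneg_left h2 (show (0 : ℝ) ≤ 3200 by norm_num)
    calc _ ≤ 3200 * (1 / S.b (m + 1)) := this
      _ = 3200 / S.b (m + 1) := by ring
  have e3 : (9600 : ℝ) / S.b (m + 1) = 3200 / S.b (m + 1) + 6400 / S.b (m + 1) := by ring
  rw [e3]
  linarith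

/-- The light form test. -/
noncomputable def Sched.tLF (m : ℕ) : FT (S.rb m) :=
  S.ftA m (S.U (m + 1)) (fun i => S.ph (m + 1) i) (fun _ => 0) (1 / (16000 * S.Θ m))
    (fun i _ => (zero_lt_one.trans_le (S.one_le_ph _ i)).le)
    (by
      have := S.Θ_pos m
      positivity)
    (by
      intro i h
      have h1 := S.rough_ph_om (S.mem_U.mp h)
      have h2 := S.Θ_pos m
      have h3 := S.om_pos m i
      have e : 1 / (16000 * S.Θ m) * S.ph (m + 1) i * (1600 / S.om m i)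
          = (S.ph (m + 1) i / (S.Θ m * S.om m i)) / 10 := by
        field_simp
        ring
      rw [e]
      have : S.ph (m + 1) i / (S.Θ m * S.om m i) ≤ 2.4 := by
        rw [div_le_iff₀ (by positivity)]
        linarith
      linarith)

lemma Sched.tLF_bound (m : ℕ) (x : RI d → ℝ) {L : ℝ} (hL : L ≤ 5 + 4 * (S.j m : ℝ))
    (h : (S.tLF m).val x ≤ (S.tLF m).bd + L / (S.tLF m).τ) :
    ∑ i ∈ S.U (m + 1), S.ph (m + 1) i * x (Sum.inl i) ^ 2 ≤ S.LNw m := by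
  have h1 := S.ftA_spec m _ _ _ _ _ _ _ x h
  have hΘ := S.Θ_pos m
  have e1 : ∑ i ∈ S.U (m + 1), (2 * (1600 / S.om m i) * S.ph (m + 1) i
      + S.ph (m + 1) i * (1 + 4 * (1 / (16000 * S.Θ m)) * S.ph (m + 1) i
          * (1600 / S.om m i)) * (0 : ℝ) ^ 2)
      = 3200 * S.Vw m := by
    unfold Sched.Vw
    rw [Finset.mul_sum]
    refine Finset.sum_congr rfl fun i hi => ?_
    ring
  rw [e1] at h1
  have e2 : ∑ i ∈ S.U (m + 1), S.ph (m + 1) i * (0 + x (Sum.inl i)) ^ 2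
      = ∑ i ∈ S.U (m + 1), S.ph (m + 1) i * x (Sum.inl i) ^ 2 := by
    refine Finset.sum_congr rfl fun i _ => ?_
    ring
  rw [e2] at h1
  refine h1.trans ?_
  unfold Sched.LNw
  have h3 : L / (1 / (16000 * S.Θ m)) ≤ 16000 * S.Θ m * (5 + 4 * (S.j m : ℝ)) := by
    rw [div_div_eq_mul_div, div_one, mul_comm]
    gcongr
  linarith

/-- The test of the position form with a centre. -/
noncomputable def Sched.tQ (m : ℕ) (c : Fin d → ℝ) : FT (S.rb m) :=
  S.ftA m (S.U (m + 1)) (fun i => S.Wk (m + 1) 5 i) c (1 / (960000 * S.Θ m))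
    (fun i _ => (S.Wk_pos _ _ i).le)
    (by
      have := S.Θ_pos m
      positivity)
    (by
      intro i h
      have hei := S.mem_U.mp h
      have h1 := S.rough_scale hei
      have h2 := S.Θ_pos m
      have h3 := S.om_pos m i
      have h4 := S.Wk_le_one (u := m + 1) (k := 5) (by norm_num) hei
      have h5 := S.Wk_pos (m + 1) 5 i
      have h6 := S.ag_le_one (m + 1) i
      have h7 := S.ag_pos (m + 1) i
      have e : 1 / (960000 * S.Θ m) * S.Wk (m + 1) 5 i * (1600 / S.om m i)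
          = S.Wk (m + 1) 5 i * (1 / (S.Θ m * S.om m i)) / 600 := by
        field_simp
        ring
      rw [e]
      have h8 : 1 / (S.Θ m * S.om m i) ≤ 3 * S.ag (m + 1) i := by
        rw [div_le_iff₀ (by positivity)]
        nlinarith
      have h9 : S.Wk (m + 1) 5 i * (1 / (S.Θ m * S.om m i)) ≤ 1 * 3 := by
        have : 0 ≤ 1 / (S.Θ m * S.om m i) := by positivity
        apply mul_le_mul h4 (by linarith) this (by norm_num)
      linarith)

lemma Sched.tQ_bound (m : ℕ) (c : Fin d → ℝ) (x : RI d → ℝ) {L A : ℝ} (hL : L ≤ A)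
    (h : (S.tQ m c).val x ≤ (S.tQ m c).bd + L / (S.tQ m c).τ) :
    ∑ i ∈ S.U (m + 1), S.Wk (m + 1) 5 i * (c i + x (Sum.inl i)) ^ 2
      ≤ 3200 * S.Vw m + ∑ i ∈ S.U (m + 1), S.W (m + 1) i * c i ^ 2 + 960000 * S.Θ m * A := by
  have h1 := S.ftA_spec m _ _ _ _ _ _ _ x h
  have hΘ := S.Θ_pos m
  refine h1.trans ?_
  have h3 : L / (1 / (960000 * S.Θ m)) ≤ 960000 * S.Θ m * A := by
    rw [div_div_eq_mul_div, div_one, mul_comm]
    gcongr
  have h4 : ∑ i ∈ S.U (m + 1), (2 * (1600 / S.om m i) * S.Wk (m + 1) 5 i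
      + S.Wk (m + 1) 5 i * (1 + 4 * (1 / (960000 * S.Θ m)) * S.Wk (m + 1) 5 i
          * (1600 / S.om m i)) * c i ^ 2)
      ≤ 3200 * S.Vw m + ∑ i ∈ S.U (m + 1), S.W (m + 1) i * c i ^ 2 := by
    unfold Sched.Vw
    rw [Finset.mul_sum, ← Finset.sum_add_distrib]
    refine Finset.sum_le_sum fun i hi => ?_
    have hei := S.mem_U.mp hi
    have h5 := S.rough_scale hei
    have h6 := S.om_pos m i
    have h7 := S.Wk_le_one (u := m + 1) (k := 5) (by norm_num) hei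
    have h8 := S.Wk_pos (m + 1) 5 i
    have h9 := S.Wk_six_le hei
    have h10 := S.one_le_ph (m + 1) i
    have h11 := S.ag_pos (m + 1) i
    have e : 2 * (1600 / S.om m i) * S.Wk (m + 1) 5 i = 3200 * (S.Wk (m + 1) 5 i / S.om m i) := by
      ring
    have h12 : S.Wk (m + 1) 5 i / S.om m i ≤ S.ph (m + 1) i / S.om m i := by
      gcongr
      linarith
    have e2 : 3200 * (S.ph (m + 1) i / S.om m i) = 3200 * (S.ph (m + 1) i / S.om m i) := rfl
    have h13 : 1 / (S.Θ m * S.om m i) ≤ 3 * S.ag (m + 1) i := by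
      rw [div_le_iff₀ (by positivity)]
      nlinarith
    have h14 : 4 * (1 / (960000 * S.Θ m)) * S.Wk (m + 1) 5 i * (1600 / S.om m i)
        = S.Wk (m + 1) 5 i * (1 / (S.Θ m * S.om m i)) / 150 := by
      field_simp
      ring
    have h15 : S.Wk (m + 1) 5 i * (1 + 4 * (1 / (960000 * S.Θ m)) * S.Wk (m + 1) 5 i
          * (1600 / S.om m i)) ≤ S.W (m + 1) i := by
      rw [h14]
      have h16 : S.Wk (m + 1) 5 i * (1 / (S.Θ m * S.om m i)) ≤ 1 * (3 * S.ag (m + 1) i) := by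
        have : 0 ≤ 1 / (S.Θ m * S.om m i) := by positivity
        apply mul_le_mul h7 h13 this (by norm_num)
      have h17 : 1 + S.Wk (m + 1) 5 i * (1 / (S.Θ m * S.om m i)) / 150 ≤ S.fa (m + 1) i := by
        unfold Sched.fa
        linarith
      have h18 := S.Wk_succ (m + 1) 5 i
      calc _ ≤ S.Wk (m + 1) 5 i * S.fa (m + 1) i := by gcongr
        _ = S.Wk (m + 1) 6 i := h18.symm
        _ ≤ _ := h9
    have h19 := sq_nonneg (c i)
    rw [e]
    have := mul_le_mul_of_nonneg_right h15 h19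
    linarith
  linarith

/-- The test for the near diagonality. -/
noncomputable def Sched.tX (m : ℕ) : FT (S.rb m) :=
  S.fpA m (S.H (m + 1) ×ˢ S.H (m + 1))
    (fun y => 1 / (S.q y.1 (m + 1) ^ 2 * S.q y.2 (m + 1) ^ 2 * min (S.q y.1 (m + 1)) (S.q y.2 (m + 1)) ^ 2))
    (S.b (m + 1) ^ 6 / 6400)
    (fun y hy => by
      have h1 := S.q_pos (Finset.mem_product.mp hy).1
      have h2 := S.q_pos (Finset.mem_product.mp hy).2
      positivity)
    (by
      have := S.b_pos (m + 1)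
      positivity)
    (by
      intro y hy
      have h1 := S.q_pos (Finset.mem_product.mp hy).1
      have h2 := S.q_pos (Finset.mem_product.mp hy).2
      have h3 := S.b_le_q (Finset.mem_product.mp hy).1
      have h4 := S.b_le_q (Finset.mem_product.mp hy).2
      have hb := S.b_pos (m + 1)
      have h5 : S.b (m + 1) ≤ min (S.q y.1 (m + 1)) (S.q y.2 (m + 1)) := le_min h3 h4
      have h6 : 0 < min (S.q y.1 (m + 1)) (S.q y.2 (m + 1)) := lt_min h1 h2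
      have h7 : S.b (m + 1) ^ 2 * S.b (m + 1) ^ 2 * S.b (m + 1) ^ 2
          ≤ S.q y.1 (m + 1) ^ 2 * S.q y.2 (m + 1) ^ 2 * min (S.q y.1 (m + 1)) (S.q y.2 (m + 1)) ^ 2 := by
        gcongr
      have e : S.b (m + 1) ^ 6 / 6400 * (1 / (S.q y.1 (m + 1) ^ 2 * S.q y.2 (m + 1) ^ 2 * min (S.q y.1 (m + 1)) (S.q y.2 (m + 1)) ^ 2)) * 1600
          = (S.b (m + 1) ^ 2 * S.b (m + 1) ^ 2 * S.b (m + 1) ^ 2) / (S.q y.1 (m + 1) ^ 2 * S.q y.2 (m + 1) ^ 2 * min (S.q y.1 (m + 1)) (S.q y.2 (m + 1)) ^ 2) / 4 := by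
        field_simp
        ring
      rw [e]
      have : (S.b (m + 1) ^ 2 * S.b (m + 1) ^ 2 * S.b (m + 1) ^ 2) / (S.q y.1 (m + 1) ^ 2 * S.q y.2 (m + 1) ^ 2 * min (S.q y.1 (m + 1)) (S.q y.2 (m + 1)) ^ 2) ≤ 1 := by
        rw [div_le_one (by positivity)]
        exact h7
      linarith)

lemma Sched.tX_bound (m : ℕ) (x : RI d → ℝ) {L : ℝ} (hL : L ≤ 5 + 4 * (S.j m : ℝ))
    (h : (S.tX m).val x ≤ (S.tX m).bd + L / (S.tX m).τ) :
    ∑ k ∈ S.H (m + 1), ∑ l ∈ S.H (m + 1), x (Sum.inr (Sum.inl (k, l))) ^ 2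
        / (S.q k (m + 1) ^ 2 * S.q l (m + 1) ^ 2 * min (S.q k (m + 1)) (S.q l (m + 1)) ^ 2)
      ≤ 9600 / S.b (m + 1) ^ 4 := by
  have hb := S.b_pos (m + 1)
  have hb1 : 1 ≤ S.b (m + 1) := by
    have := S.b_ge (m + 1)
    have h2 : (1 : ℝ) ≤ 2 ^ 42 := by norm_num
    linarith
  have h1 := S.fpA_spec m _ _ _ _ _ _ x h
  rw [Finset.sum_product, Finset.sum_product] at h1
  have e2 : ∑ k ∈ S.H (m + 1), ∑ l ∈ S.H (m + 1), 1 / (S.q k (m + 1) ^ 2 * S.q l (m + 1) ^ 2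
        * min (S.q k (m + 1)) (S.q l (m + 1)) ^ 2) * x (Sum.inr (Sum.inl (k, l))) ^ 2
      = ∑ k ∈ S.H (m + 1), ∑ l ∈ S.H (m + 1), x (Sum.inr (Sum.inl (k, l))) ^ 2
        / (S.q k (m + 1) ^ 2 * S.q l (m + 1) ^ 2 * min (S.q k (m + 1)) (S.q l (m + 1)) ^ 2) := by
    refine Finset.sum_congr rfl fun k _ => Finset.sum_congr rfl fun l _ => ?_
    ring
  simp only at h1
  rw [e2] at h1
  refine h1.trans ?_
  have h2 : ∑ k ∈ S.H (m + 1), ∑ l ∈ S.H (m + 1), 1 / (S.q k (m + 1) ^ 2 * S.q l (m + 1) ^ 2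
        * min (S.q k (m + 1)) (S.q l (m + 1)) ^ 2) ≤ 1 / S.b (m + 1) ^ 4 := by
    have h3 := S.sum_inv_q2 (m + 1)
    have h4 : ∀ k ∈ S.H (m + 1), ∀ l ∈ S.H (m + 1),
        1 / (S.q k (m + 1) ^ 2 * S.q l (m + 1) ^ 2 * min (S.q k (m + 1)) (S.q l (m + 1)) ^ 2)
          ≤ (1 / S.q k (m + 1) ^ 2) * (1 / S.q l (m + 1) ^ 2) * (1 / S.b (m + 1) ^ 2) := by
      intro k hk l hl
      have h5 := S.q_pos hk
      have h6 := S.q_pos hl
      have h7 : S.b (m + 1) ≤ min (S.q k (m + 1)) (S.q l (m + 1)) := le_min (S.b_le_q hk) (S.b_le_q hl)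
      have e : (1 / S.q k (m + 1) ^ 2) * (1 / S.q l (m + 1) ^ 2) * (1 / S.b (m + 1) ^ 2)
          = 1 / (S.q k (m + 1) ^ 2 * S.q l (m + 1) ^ 2 * S.b (m + 1) ^ 2) := by
        field_simp
      rw [e]
      gcongr
    calc _ ≤ ∑ k ∈ S.H (m + 1), ∑ l ∈ S.H (m + 1),
          (1 / S.q k (m + 1) ^ 2) * (1 / S.q l (m + 1) ^ 2) * (1 / S.b (m + 1) ^ 2) :=
          Finset.sum_le_sum fun k hk => Finset.sum_le_sum fun l hl => h4 k hk l hl
      _ = (∑ k ∈ S.H (m + 1), 1 / S.q k (m + 1) ^ 2) * (∑ l ∈ S.H (m + 1), 1 / S.q l (m + 1) ^ 2)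
            * (1 / S.b (m + 1) ^ 2) := by
          rw [Finset.sum_mul_sum, Finset.sum_mul]
          refine Finset.sum_congr rfl fun k _ => ?_
          rw [Finset.sum_mul]
      _ ≤ (1 / S.b (m + 1)) * (1 / S.b (m + 1)) * (1 / S.b (m + 1) ^ 2) := by
          have h8 : 0 ≤ ∑ k ∈ S.H (m + 1), 1 / S.q k (m + 1) ^ 2 :=
            Finset.sum_nonneg fun k _ => by positivity
          gcongr
      _ = 1 / S.b (m + 1) ^ 4 := by
          field_simp
  have h3 : L / (S.b (m + 1) ^ 6 / 6400) ≤ 6400 / S.b (m + 1) ^ 4 := by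
    have h5 := S.five_le_b m
    rw [div_le_div_iff₀ (by positivity) (by positivity)]
    have h6 : L ≤ S.b (m + 1) := hL.trans h5
    have h7 : S.b (m + 1) ≤ S.b (m + 1) ^ 2 := by nlinarith
    have h8 : L ≤ S.b (m + 1) ^ 2 := h6.trans h7
    have h9 : 0 < S.b (m + 1) ^ 4 := by positivity
    calc L * S.b (m + 1) ^ 4 ≤ S.b (m + 1) ^ 2 * S.b (m + 1) ^ 4 := by gcongr
      _ = S.b (m + 1) ^ 6 := by ring
      _ ≤ 6400 * (S.b (m + 1) ^ 6 / 6400) := by
          apply le_of_eq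
          ring
  have h4 : 3200 * (∑ k ∈ S.H (m + 1), ∑ l ∈ S.H (m + 1), 1 / (S.q k (m + 1) ^ 2 * S.q l (m + 1) ^ 2
        * min (S.q k (m + 1)) (S.q l (m + 1)) ^ 2)) ≤ 3200 / S.b (m + 1) ^ 4 := by
    have := mul_le_mul_of_nonneg_left h2 (show (0 : ℝ) ≤ 3200 by norm_num)
    calc _ ≤ 3200 * (1 / S.b (m + 1) ^ 4) := this
      _ = _ := by ring
  have e3 : (9600 : ℝ) / S.b (m + 1) ^ 4 = 3200 / S.b (m + 1) ^ 4 + 6400 / S.b (m + 1) ^ 4 := by ring
  rw [e3]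
  linarith

/-- The test for the entries with the class leaving. -/
noncomputable def Sched.tXp (m : ℕ) : FT (S.rb m) :=
  S.fpA m (S.H (m + 1) ×ˢ S.C (m + 1))
    (fun y => 1 / S.q y.1 (m + 1) ^ 6)
    (S.b (m + 1) ^ 6 / 6400)
    (fun y hy => by positivity)
    (by
      have := S.b_pos (m + 1)
      positivity)
    (by
      intro y hy
      have h1 := S.q_pos (Finset.mem_product.mp hy).1
      have h3 := S.b_le_q (Finset.mem_product.mp hy).1
      have hb := S.b_pos (m + 1)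
      have h7 : S.b (m + 1) ^ 6 ≤ S.q y.1 (m + 1) ^ 6 := by gcongr
      have e : S.b (m + 1) ^ 6 / 6400 * (1 / S.q y.1 (m + 1) ^ 6) * 1600
          = S.b (m + 1) ^ 6 / S.q y.1 (m + 1) ^ 6 / 4 := by
        field_simp
        ring
      rw [e]
      have : S.b (m + 1) ^ 6 / S.q y.1 (m + 1) ^ 6 ≤ 1 := by
        rw [div_le_one (by positivity)]
        exact h7
      linarith)

lemma Sched.tXp_bound (m : ℕ) (x : RI d → ℝ) {L : ℝ} (hL : L ≤ 5 + 4 * (S.j m : ℝ))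
    (h : (S.tXp m).val x ≤ (S.tXp m).bd + L / (S.tXp m).τ) :
    ∑ k ∈ S.H (m + 1), ∑ c ∈ S.C (m + 1), x (Sum.inr (Sum.inl (k, c))) ^ 2 / S.q k (m + 1) ^ 6
      ≤ (3200 * ((S.C (m + 1)).card : ℝ) + 6400) / S.b (m + 1) ^ 5 := by
  have hb := S.b_pos (m + 1)
  have h1 := S.fpA_spec m _ _ _ _ _ _ x h
  rw [Finset.sum_product, Finset.sum_product] at h1
  simp only at h1
  have e2 : ∑ k ∈ S.H (m + 1), ∑ c ∈ S.C (m + 1), 1 / S.q k (m + 1) ^ 6 * x (Sum.inr (Sum.inl (k, c))) ^ 2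
      = ∑ k ∈ S.H (m + 1), ∑ c ∈ S.C (m + 1), x (Sum.inr (Sum.inl (k, c))) ^ 2 / S.q k (m + 1) ^ 6 := by
    refine Finset.sum_congr rfl fun k _ => Finset.sum_congr rfl fun l _ => ?_
    ring
  rw [e2] at h1
  refine h1.trans ?_
  have h2 : ∑ k ∈ S.H (m + 1), ∑ _c ∈ S.C (m + 1), 1 / S.q k (m + 1) ^ 6
      ≤ ((S.C (m + 1)).card : ℝ) / S.b (m + 1) ^ 5 := by
    have h3 := S.sum_inv_q2 (m + 1)
    simp only [Finset.sum_const, nsmul_eq_mul]
    rw [← Finset.mul_sum, div_eq_mul_one_div]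
    have h0 : (0 : ℝ) ≤ ((S.C (m + 1)).card : ℝ) := Nat.cast_nonneg _
    apply mul_le_mul_of_nonneg_left _ h0
    calc ∑ k ∈ S.H (m + 1), 1 / S.q k (m + 1) ^ 6
        ≤ ∑ k ∈ S.H (m + 1), (1 / S.q k (m + 1) ^ 2) * (1 / S.b (m + 1) ^ 4) := by
          refine Finset.sum_le_sum fun k hk => ?_
          have h5 := S.q_pos hk
          have h6 := S.b_le_q hk
          have e : (1 / S.q k (m + 1) ^ 2) * (1 / S.b (m + 1) ^ 4)
              = 1 / (S.q k (m + 1) ^ 2 * S.b (m + 1) ^ 4) := by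
            field_simp
          rw [e]
          have e2 : S.q k (m + 1) ^ 6 = S.q k (m + 1) ^ 2 * S.q k (m + 1) ^ 4 := by ring
          rw [e2]
          gcongr
      _ = (∑ k ∈ S.H (m + 1), 1 / S.q k (m + 1) ^ 2) * (1 / S.b (m + 1) ^ 4) := by
          rw [Finset.sum_mul]
      _ ≤ (1 / S.b (m + 1)) * (1 / S.b (m + 1) ^ 4) := by gcongr
      _ = 1 / S.b (m + 1) ^ 5 := by
          field_simp
  have h3 : L / (S.b (m + 1) ^ 6 / 6400) ≤ 6400 / S.b (m + 1) ^ 5 := by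
    have h5 := S.five_le_b m
    rw [div_le_div_iff₀ (by positivity) (by positivity)]
    have h6 : L ≤ S.b (m + 1) := hL.trans h5
    calc L * S.b (m + 1) ^ 5 ≤ S.b (m + 1) * S.b (m + 1) ^ 5 := by gcongr
      _ = 6400 * (S.b (m + 1) ^ 6 / 6400) := by ring
  have h4 : 3200 * (∑ k ∈ S.H (m + 1), ∑ _c ∈ S.C (m + 1), 1 / S.q k (m + 1) ^ 6)
      ≤ 3200 * ((S.C (m + 1)).card : ℝ) / S.b (m + 1) ^ 5 := by
    have := mul_le_mul_of_nonneg_left h2 (show (0 : ℝ) ≤ 3200 by norm_num)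
    calc _ ≤ 3200 * (((S.C (m + 1)).card : ℝ) / S.b (m + 1) ^ 5) := this
      _ = _ := by ring
  have e3 : (3200 * ((S.C (m + 1)).card : ℝ) + 6400) / S.b (m + 1) ^ 5
      = 3200 * ((S.C (m + 1)).card : ℝ) / S.b (m + 1) ^ 5 + 6400 / S.b (m + 1) ^ 5 := by ring
  rw [e3]
  linarith

lemma Sched.tR_bound (m : ℕ) (t : Fin 3) (x : RI d → ℝ) {L : ℝ} (hL : L ≤ 5 + 4 * (S.j m : ℝ))
    (h : (S.fts m t).val x ≤ (S.fts m t).bd + L / (S.fts m t).τ) :
    x (Sum.inr (Sum.inr t)) ^ 2 ≤ 3200 + 6400 * (5 + 4 * (S.j m : ℝ)) := by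
  rw [S.fts_val, S.fts_bd] at h
  have hτ : (S.fts m t).τ = 1 / 6400 := rfl
  rw [hτ] at h
  have : L / (1 / 6400) = 6400 * L := by ring
  rw [this] at h
  linarith

end Vale.Agent.P262S
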