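import Vale.Agent.P262S.Basic
import Vale.Agent.P262S.Star

/-! # The rough split of one block: definitions and the noise structure (notes/P262_sqrtd.md, section 3). -/

open Finset

namespace Vale.Agent.P262S

variable {d : ℕ} (S : Sched d)
variable {V : Type} [Fintype V] [DecidableEq V] (α : V → Fin d → ℝ)

/-- The fraction at a cut. -/
noncomputable def tcut (B : Finset V) (K s : ℕ) : ℝ := ((s * B.card / K : ℕ) : ℝ) / (B.card : ℝ)

/-- The fraction of a child. -/
noncomputable def dcut (B : Finset V) (K s : ℕ) : ℝ := tcut B K (s + 1) - tcut B K s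

/-- The noise of a row at a cut. -/
noncomputable def rnz (B : Finset V) (sub : V → ℕ) (K s : ℕ) (r : V → ℝ) : ℝ :=
  ∑ v ∈ B.filter (fun v => sub v < s), r v - tcut B K s * ∑ v ∈ B, r v

open Classical in
/-- A coordinate restricted to the light elements of level `m`. -/
noncomputable def Sched.lig (m : ℕ) (i : Fin d) (v : V) : ℝ := if S.Hv α m v then 0 else α v i

/-- The clipped old mass of the next level. -/
noncomputable def Sched.Rc (m : ℕ) (v : V) : ℝ := min (S.uu α (m + 1) v) 1

/-- The outcome of the tests at one cut (all but the position tests). -/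
structure Sched.RoughNoise (m : ℕ) (B : Finset V) (sub : V → ℕ) (s : ℕ) : Prop where
  hT : S.Tf (m + 1) (fun i => rnz B sub (S.K m) s fun v => α v i) ≤ 1 / 1000
  hX : S.Xf (m + 1) (fun k l => rnz B sub (S.K m) s fun v => α v k * α v l) ≤ 1 / 10 ^ 10
  hXp : S.Xp (m + 1) (fun k l => rnz B sub (S.K m) s fun v => α v k * α v l)
    ≤ ((S.C (m + 1)).card : ℝ) / 10 ^ 10
  hR : (rnz B sub (S.K m) s (S.Rc α m)) ^ 2 ≤ 27225 * (S.j m : ℝ)
  hR1 : (rnz B sub (S.K m) s (Row α (S.C (m + 1)))) ^ 2 ≤ 27225 * (S.j m : ℝ)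
  hR2 : (rnz B sub (S.K m) s (Row α (S.C m))) ^ 2 ≤ 27225 * (S.j m : ℝ)
  hLF : S.LFf (m + 1) (fun i => rnz B sub (S.K m) s (S.lig α m i)) ≤ S.LNw m

end Vale.Agent.P262S
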