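import Vale.Agent.P262S.RoughParts
import Vale.Agent.P262S.CoreP3

/-! # Rough split, piece R1: the tests (notes/P262_sqrtd.md, section 3). Mirrors `CoreP3.round_outcome`. -/

open Finset

namespace Vale.Agent.P262S

variable {d : ℕ} (S : Sched d)
variable {V : Type} [Fintype V] [DecidableEq V] (α : V → Fin d → ℝ)

/-! ### values and bounds of the tests of `CoreP3`, for a general logarithm -/

section tests

lemma Sched.testT_val_eq (L : ℕ) (om : Fin d → ℝ) (hom : ∀ i, 1 ≤ om i) (X : Idx d → ℝ) :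
    (S.testT L om hom).val X = S.Tf L (fun i => X (Sum.inl i)) := by
  unfold Sched.testT
  rw [testC_val]
  unfold Sched.Tf
  rw [← sum_ite_one (S.H L) (fun i => X (Sum.inl i) ^ 2 / S.q i L ^ 2)]
  refine Finset.sum_congr rfl fun i _ => ?_
  split_ifs
  · simp only [zero_add]; ring
  · simp

lemma Sched.testT_bd_le (L : ℕ) (om : Fin d → ℝ) (hom : ∀ i, 1 ≤ om i) :
    (S.testT L om hom).bd ≤ 3200 / S.b L := by
  unfold Sched.testT
  rw [testC_bd]
  calc _ ≤ ∑ i, (3200 * (if i ∈ S.H L then 1 / S.q i L ^ 2 else 0)) := by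
        refine Finset.sum_le_sum fun i _ => ?_
        have h2 : 1600 / om i ≤ 1600 := div_le_self (by norm_num) (hom i)
        have h0 : 0 ≤ (if i ∈ S.H L then 1 / S.q i L ^ 2 else 0) := by
          split_ifs
          · positivity
          · exact le_rfl
        simp only [ne_eq, OfNat.ofNat_ne_zero, not_false_eq_true, zero_pow, mul_zero, add_zero]
        nlinarith
    _ = 3200 * ∑ i ∈ S.H L, 1 / S.q i L ^ 2 := by
        rw [← Finset.mul_sum, sum_ite_one]
    _ ≤ 3200 * (1 / S.b L) := by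
        gcongr
        exact S.sum_inv_q2 L
    _ = _ := by ring

lemma Sched.testX_val_eq (L : ℕ) (om : Fin d → ℝ) (X : Idx d → ℝ) :
    (S.testX L om).val X = S.Xf L (fun k l => X (Sum.inr (Sum.inl (k, l)))) := by
  unfold Sched.testX
  rw [testP_val]
  unfold Sched.Xf
  rw [← sum_ite_pair]
  refine Finset.sum_congr rfl fun p _ => ?_
  split_ifs
  · ring
  · simp

lemma Sched.testX_bd_le (L : ℕ) (om : Fin d → ℝ) :
    (S.testX L om).bd ≤ 3200 * (1 / S.b L ^ 4) := by
  have hb0 : 0 < S.b L := lt_of_lt_of_le (by norm_num) (S.b_ge L)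
  unfold Sched.testX
  rw [testP_bd, ← Finset.mul_sum]
  gcongr
  have h1 : ∑ p : Fin d × Fin d, (if p.1 ∈ S.H L ∧ p.2 ∈ S.H L then
      1 / (S.q p.1 L ^ 2 * S.q p.2 L ^ 2 * min (S.q p.1 L) (S.q p.2 L) ^ 2) else 0)
      = ∑ k ∈ S.H L, ∑ l ∈ S.H L, 1 / (S.q k L ^ 2 * S.q l L ^ 2 * min (S.q k L) (S.q l L) ^ 2) :=
    sum_ite_pair _ _ (fun k l => 1 / (S.q k L ^ 2 * S.q l L ^ 2 * min (S.q k L) (S.q l L) ^ 2))
  rw [h1]
  calc _ ≤ ∑ k ∈ S.H L, ∑ l ∈ S.H L, (1 / S.q k L ^ 2) * ((1 / S.q l L ^ 2) * (1 / S.b L ^ 2)) := by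
        refine Finset.sum_le_sum fun k hk => Finset.sum_le_sum fun l hl => ?_
        have hqk := S.q_pos hk
        have hql := S.q_pos hl
        have hm : S.b L ≤ min (S.q k L) (S.q l L) := le_min (S.b_le_q hk) (S.b_le_q hl)
        rw [one_div_mul_one_div, one_div_mul_one_div]
        apply one_div_le_one_div_of_le (by positivity)
        rw [mul_assoc]
        gcongr
    _ = (∑ k ∈ S.H L, 1 / S.q k L ^ 2) * ((∑ l ∈ S.H L, 1 / S.q l L ^ 2) * (1 / S.b L ^ 2)) := by
        rw [Finset.sum_mul]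
        refine Finset.sum_congr rfl fun k _ => ?_
        rw [Finset.sum_mul, Finset.mul_sum]
    _ ≤ (1 / S.b L) * ((1 / S.b L) * (1 / S.b L ^ 2)) := by
        have h2 := S.sum_inv_q2 L
        have h3 : 0 ≤ ∑ l ∈ S.H L, 1 / S.q l L ^ 2 := Finset.sum_nonneg fun l _ => by positivity
        gcongr
    _ = 1 / S.b L ^ 4 := by field_simp

lemma Sched.testXp_val_eq (L : ℕ) (om : Fin d → ℝ) (X : Idx d → ℝ) :
    (S.testXp L om).val X = S.Xp L (fun k l => X (Sum.inr (Sum.inl (k, l)))) := by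
  unfold Sched.testXp
  rw [testP_val]
  unfold Sched.Xp
  rw [← sum_ite_pair (S.H L) (S.C L) (fun k c => X (Sum.inr (Sum.inl (k, c))) ^ 2 / S.q k L ^ 6)]
  refine Finset.sum_congr rfl fun p _ => ?_
  split_ifs
  · ring
  · simp

lemma Sched.testXp_bd_le (L : ℕ) (om : Fin d → ℝ) :
    (S.testXp L om).bd ≤ 3200 * (((S.C L).card : ℝ) * (1 / S.b L ^ 5)) := by
  have hb0 : 0 < S.b L := lt_of_lt_of_le (by norm_num) (S.b_ge L)
  unfold Sched.testXp
  rw [testP_bd, ← Finset.mul_sum]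
  gcongr
  have h1 : ∑ p : Fin d × Fin d, (if p.1 ∈ S.H L ∧ p.2 ∈ S.C L then 1 / S.q p.1 L ^ 6 else 0)
      = ∑ k ∈ S.H L, ∑ _c ∈ S.C L, 1 / S.q k L ^ 6 :=
    sum_ite_pair _ _ (fun k _ => 1 / S.q k L ^ 6)
  rw [h1]
  simp only [Finset.sum_const, nsmul_eq_mul]
  rw [← Finset.mul_sum]
  gcongr
  calc ∑ k ∈ S.H L, 1 / S.q k L ^ 6 ≤ ∑ k ∈ S.H L, (1 / S.q k L ^ 2) * (1 / S.b L ^ 4) := by
        refine Finset.sum_le_sum fun k hk => ?_
        have hqk := S.q_pos hk
        have hq := S.b_le_q hk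
        rw [one_div_mul_one_div]
        apply one_div_le_one_div_of_le (by positivity)
        calc S.q k L ^ 2 * S.b L ^ 4 ≤ S.q k L ^ 2 * S.q k L ^ 4 := by gcongr
          _ = S.q k L ^ 6 := by ring
    _ = (∑ k ∈ S.H L, 1 / S.q k L ^ 2) * (1 / S.b L ^ 4) := by rw [Finset.sum_mul]
    _ ≤ (1 / S.b L) * (1 / S.b L ^ 4) := by
        have := S.sum_inv_q2 L
        gcongr
    _ = 1 / S.b L ^ 5 := by field_simp

/-- The logarithm at a rough split. -/
lemma Sched.log_rough (m : ℕ) :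
    Real.log (2 * S.K m / (1 / 16)) ≤ 5 + 4 * (S.j m : ℝ) := by
  have e : (2 * (S.K m : ℝ) / (1 / 16)) = 2 ^ (5 + 4 * S.j m) := by
    unfold Sched.K
    push_cast
    rw [pow_add, pow_mul]
    norm_num
    ring
  rw [e, Real.log_pow]
  have h1 : Real.log 2 ≤ 1 := by have := Real.log_two_lt_d9; linarith
  have h0 : (0 : ℝ) ≤ ((5 + 4 * S.j m : ℕ) : ℝ) := by positivity
  have := mul_le_mul_of_nonneg_left h1 h0
  push_cast at this ⊢
  linarith

lemma Sched.log_rough_nonneg (m : ℕ) :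
    0 ≤ Real.log (2 * S.K m / (1 / 16)) := by
  apply Real.log_nonneg
  have : (1 : ℝ) ≤ S.K m := by
    have := S.K_pos m
    exact_mod_cast (by exact_mod_cast this : 0 < S.K m)
  rw [le_div_iff₀ (by norm_num)]
  linarith

/-- `5 + 4 j` against the next scale. -/
lemma Sched.jbound (m : ℕ) : (5 + 4 * (S.j m : ℝ)) / S.b (m + 1) ≤ 1 := by
  have hj := S.j_ge m
  have hb := S.b_succ_ge m
  have hb2 := S.b_ge (m + 1)
  have hb0 : 0 < S.b (m + 1) := lt_of_lt_of_le (by norm_num) hb2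
  rw [div_le_one hb0]
  have hC : (0 : ℝ) ≤ ((S.C m).card : ℝ) := by positivity
  have h4 : (S.j m : ℝ) ≤ (S.j m : ℝ) ^ 4 := by
    have : (1 : ℝ) ≤ S.j m := by linarith
    calc (S.j m : ℝ) = (S.j m : ℝ) ^ 1 := (pow_one _).symm
      _ ≤ _ := pow_le_pow_right₀ this (by norm_num)
  nlinarith

end tests


/-! ### the rows -/

section rows

open Classical in
/-- The rows of a rough split. -/
noncomputable def Sched.rowsR (m : ℕ) (v : V) : Idx d → ℝ :=
  Sum.elim (fun i => if i ∈ S.H (m + 1) then α v i else S.lig α m i v)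
    (Sum.elim (fun p => α v p.1 * α v p.2)
      ![S.Rc α m v, Row α (S.C (m + 1)) v, Row α (S.C m) v])

lemma Sched.rowsR_H (m : ℕ) (v : V) {i : Fin d} (hi : i ∈ S.H (m + 1)) :
    S.rowsR α m v (Sum.inl i) = α v i := by
  simp [Sched.rowsR, hi]

lemma Sched.rowsR_U (m : ℕ) (v : V) {i : Fin d} (hi : i ∉ S.H (m + 1)) :
    S.rowsR α m v (Sum.inl i) = S.lig α m i v := by
  simp [Sched.rowsR, hi]

lemma Sched.om_H {m : ℕ} {i : Fin d} (hi : i ∈ S.H (m + 1)) : S.om m i = 1 := by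
  have := S.mem_H.mp hi
  unfold Sched.om
  rw [if_neg (by omega)]

lemma Sched.rowsR_norm (hα : ∀ v, ∑ i, α v i ^ 2 ≤ 1) (m : ℕ) (v : V) :
    ∑ I, (bet (S.om m) I / 3 * S.rowsR α m v I) ^ 2 ≤ 1 := by
  classical
  rw [Fintype.sum_sum_type, Fintype.sum_sum_type, Fin.sum_univ_three]
  simp only [bet, Sum.elim_inl, Sum.elim_inr]
  -- coordinates
  have h1 : ∑ i, (√(S.om m i) / 3 * S.rowsR α m v (Sum.inl i)) ^ 2 ≤ 2 / 9 := by
    have e : ∀ i, (√(S.om m i) / 3 * S.rowsR α m v (Sum.inl i)) ^ 2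
        = (1 / 9) * (S.om m i * S.rowsR α m v (Sum.inl i) ^ 2) := by
      intro i
      rw [mul_pow, div_pow, Real.sq_sqrt (S.om_pos _ _).le]
      ring
    simp_rw [e]
    rw [← Finset.mul_sum]
    have h3 := hα v
    by_cases hv : S.Hv α m v
    · have h2 : ∑ i, S.om m i * S.rowsR α m v (Sum.inl i) ^ 2 ≤ ∑ i, α v i ^ 2 := by
        refine Finset.sum_le_sum fun i _ => ?_
        by_cases hi : i ∈ S.H (m + 1)
        · rw [S.rowsR_H α m v hi, S.om_H hi, one_mul]
        · rw [S.rowsR_U α m v hi]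
          simp [Sched.lig, hv, sq_nonneg]
      linarith
    · have hu : S.uu α m v ≤ 1 := not_lt.mp hv
      have h2 : ∑ i, S.om m i * S.rowsR α m v (Sum.inl i) ^ 2 ≤ S.uu α m v + ∑ i, α v i ^ 2 := by
        unfold Sched.uu
        rw [Finset.sum_filter, ← Finset.sum_add_distrib]
        refine Finset.sum_le_sum fun i _ => ?_
        have hr : S.rowsR α m v (Sum.inl i) = α v i := by
          by_cases hi : i ∈ S.H (m + 1)
          · rw [S.rowsR_H α m v hi]
          · rw [S.rowsR_U α m v hi]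
            simp [Sched.lig, hv]
        rw [hr]
        unfold Sched.om
        split_ifs with hi
        · nlinarith [sq_nonneg (α v i)]
        · simp
      linarith
  -- pairs
  have h4 : ∑ p : Fin d × Fin d, ((1 : ℝ) / 3 * S.rowsR α m v (Sum.inr (Sum.inl p))) ^ 2 ≤ 1 / 9 := by
    have e0 : ∀ p : Fin d × Fin d, S.rowsR α m v (Sum.inr (Sum.inl p)) = α v p.1 * α v p.2 := fun p => rfl
    simp_rw [e0]
    rw [Fintype.sum_prod_type]
    simp only
    have e : ∑ k, ∑ l, ((1 : ℝ) / 3 * (α v k * α v l)) ^ 2 = (1 / 9) * ((∑ k, α v k ^ 2) * ∑ l, α v l ^ 2) := by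
      rw [Finset.sum_mul_sum, Finset.mul_sum]
      refine Finset.sum_congr rfl fun k _ => ?_
      rw [Finset.mul_sum]
      refine Finset.sum_congr rfl fun l _ => ?_
      ring
    rw [e]
    have h3 := hα v
    have h0 : 0 ≤ ∑ k, α v k ^ 2 := Finset.sum_nonneg fun _ _ => sq_nonneg _
    nlinarith
  have r1 := Row_le α hα (S.C (m + 1)) v
  have r1' := Row_nonneg α (S.C (m + 1)) v
  have r2 := Row_le α hα (S.C m) v
  have r2' := Row_nonneg α (S.C m) v
  have r0 : S.Rc α m v ≤ 1 := min_le_right _ _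
  have r0' : 0 ≤ S.Rc α m v := le_min (S.uu_nonneg α (m + 1) v) zero_le_one
  have e0 : S.rowsR α m v (Sum.inr (Sum.inr 0)) = S.Rc α m v := rfl
  have e1 : S.rowsR α m v (Sum.inr (Sum.inr 1)) = Row α (S.C (m + 1)) v := rfl
  have e2 : S.rowsR α m v (Sum.inr (Sum.inr 2)) = Row α (S.C m) v := rfl
  rw [e0, e1, e2]
  have s0 : ((1 : ℝ) / 3 * S.Rc α m v) ^ 2 ≤ 1 / 9 := by nlinarith
  have s1 : ((1 : ℝ) / 3 * Row α (S.C (m + 1)) v) ^ 2 ≤ 1 / 9 := by nlinarith
  have s2 : ((1 : ℝ) / 3 * Row α (S.C m) v) ^ 2 ≤ 1 / 9 := by nlinarith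
  linarith

end rows

/-! ### The coordinate tests of the rough split -/

section cotests

/-- The light sum test of a rough split. -/
noncomputable def Sched.testLFr (m : ℕ) : FT (bet (S.om m)) :=
  testC (S.om m) (fun i => if i ∈ S.U (m + 1) then S.ph (m + 1) i else 0) (fun _ => 0)
    (1 / (16000 * S.Θ m))
    (fun i => by
      split_ifs
      · exact le_trans zero_le_one (S.one_le_ph _ _)
      · exact le_rfl)
    (by have := S.Θ_pos m; positivity)
    (fun i => S.om_pos _ _)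
    (fun i => by
      have hΘ := S.Θ_pos m
      have hom := S.om_pos m i
      split_ifs with hi
      · have h1 := S.rough_ph_om (S.mem_U.mp hi)
        have e : 1 / (16000 * S.Θ m) * S.ph (m + 1) i * (1600 / S.om m i)
            = (1 / 10) * (S.ph (m + 1) i / (S.Θ m * S.om m i)) := by
          field_simp
          ring
        rw [e]
        have h2 : S.ph (m + 1) i / (S.Θ m * S.om m i) ≤ 2.4 := by
          rw [div_le_iff₀ (by positivity)]
          linarith
        linarith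
      · simp)

lemma Sched.testLFr_val (m : ℕ) (X : Idx d → ℝ) :
    (S.testLFr m).val X = S.LFf (m + 1) (fun i => X (Sum.inl i)) := by
  unfold Sched.testLFr
  rw [testC_val]
  unfold Sched.LFf
  rw [← sum_ite_one (S.U (m + 1)) (fun i => S.ph (m + 1) i * X (Sum.inl i) ^ 2)]
  refine Finset.sum_congr rfl fun i _ => ?_
  split_ifs
  · simp
  · simp

lemma Sched.testLFr_bd (m : ℕ) : (S.testLFr m).bd = 3200 * S.Vw m := by
  unfold Sched.testLFr
  rw [testC_bd]
  unfold Sched.Vw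
  rw [Finset.mul_sum, ← sum_ite_one (S.U (m + 1)) (fun i => 3200 * (S.ph (m + 1) i / S.om m i))]
  refine Finset.sum_congr rfl fun i _ => ?_
  split_ifs
  · simp
    ring
  · simp

/-- The position test of a rough split. -/
noncomputable def Sched.testQr (m : ℕ) (c0 : Fin d → ℝ) : FT (bet (S.om m)) :=
  testC (S.om m) (fun i => if i ∈ S.U (m + 1) then S.Wk (m + 1) 5 i else 0) c0
    (1 / (960000 * S.Θ m))
    (fun i => by
      split_ifs
      · exact (S.Wk_pos _ _ _).le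
      · exact le_rfl)
    (by have := S.Θ_pos m; positivity)
    (fun i => S.om_pos _ _)
    (fun i => by
      have hΘ := S.Θ_pos m
      have hom := S.om_pos m i
      split_ifs with hi
      · have hi' := S.mem_U.mp hi
        have h1 := S.rough_scale hi'
        have h2 := S.ag_le_one (m + 1) i
        have h3 := S.Wk_le_one (k := 5) (by norm_num) hi'
        have h4 := S.Wk_pos (m + 1) 5 i
        have hag := S.ag_pos (m + 1) i
        have e : 1 / (960000 * S.Θ m) * S.Wk (m + 1) 5 i * (1600 / S.om m i)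
            = (1 / 600) * (S.Wk (m + 1) 5 i / (S.Θ m * S.om m i)) := by
          field_simp
          norm_num
        rw [e]
        have h5 : S.Wk (m + 1) 5 i / (S.Θ m * S.om m i) ≤ 3 := by
          rw [div_le_iff₀ (by positivity)]
          have h6 : 0 < S.Θ m * S.om m i := by positivity
          nlinarith
        linarith
      · simp)

lemma Sched.testQr_out (m : ℕ) (c0 : Fin d → ℝ) (X : Idx d → ℝ) (L : ℝ)
    (h : (S.testQr m c0).val X ≤ (S.testQr m c0).bd + L / (S.testQr m c0).τ) :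
    S.Qf (m + 1) (S.Wk (m + 1) 5) (fun i => c0 i + X (Sum.inl i))
      ≤ 3200 * S.Vw m + ∑ i ∈ S.U (m + 1), S.Wk (m + 1) 6 i * c0 i ^ 2
        + L * (960000 * S.Θ m) := by
  have hΘ := S.Θ_pos m
  have hv : (S.testQr m c0).val X = S.Qf (m + 1) (S.Wk (m + 1) 5) (fun i => c0 i + X (Sum.inl i)) := by
    unfold Sched.testQr
    rw [testC_val]
    unfold Sched.Qf
    rw [← sum_ite_one (S.U (m + 1)) (fun i => S.Wk (m + 1) 5 i * (c0 i + X (Sum.inl i)) ^ 2)]
    refine Finset.sum_congr rfl fun i _ => ?_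
    split_ifs
    · rfl
    · simp
  have hb : (S.testQr m c0).bd ≤ 3200 * S.Vw m
      + ∑ i ∈ S.U (m + 1), S.Wk (m + 1) 6 i * c0 i ^ 2 := by
    unfold Sched.testQr
    rw [testC_bd]
    unfold Sched.Vw
    rw [Finset.mul_sum, ← Finset.sum_add_distrib,
      ← sum_ite_one (S.U (m + 1)) (fun i => 3200 * (S.ph (m + 1) i / S.om m i)
        + S.Wk (m + 1) 6 i * c0 i ^ 2)]
    refine Finset.sum_le_sum fun i _ => ?_
    split_ifs with hi
    · have hi' := S.mem_U.mp hi
      have hom := S.om_pos m i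
      have h1 := S.rough_scale hi'
      have h3 := S.Wk_le_one (k := 5) (by norm_num) hi'
      have h4 := S.Wk_pos (m + 1) 5 i
      have hag := S.ag_pos (m + 1) i
      have hph := S.one_le_ph (m + 1) i
      have t1 : 2 * (1600 / S.om m i) * S.Wk (m + 1) 5 i ≤ 3200 * (S.ph (m + 1) i / S.om m i) := by
        have e1 : 2 * (1600 / S.om m i) * S.Wk (m + 1) 5 i = 3200 * (S.Wk (m + 1) 5 i / S.om m i) := by
          ring
        rw [e1]
        gcongr
        linarith
      have t2 : S.Wk (m + 1) 5 i * (1 + 4 * (1 / (960000 * S.Θ m)) * S.Wk (m + 1) 5 i * (1600 / S.om m i))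
          ≤ S.Wk (m + 1) 6 i := by
        rw [S.Wk_succ (m + 1) 5]
        apply mul_le_mul_of_nonneg_left _ h4.le
        unfold Sched.fa
        have e : 4 * (1 / (960000 * S.Θ m)) * S.Wk (m + 1) 5 i * (1600 / S.om m i)
            = (1 / 150) * (S.Wk (m + 1) 5 i / (S.Θ m * S.om m i)) := by
          field_simp
          norm_num
        rw [e]
        have h5 : S.Wk (m + 1) 5 i / (S.Θ m * S.om m i) ≤ 3 * S.ag (m + 1) i := by
          rw [div_le_iff₀ (by positivity)]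
          have : 3 * S.ag (m + 1) i * (S.Θ m * S.om m i)
              = 3 * S.ag (m + 1) i * S.Θ m * S.om m i := by ring
          rw [this]
          linarith
        linarith
      have t3 := mul_le_mul_of_nonneg_right t2 (sq_nonneg (c0 i))
      linarith
    · simp
  rw [hv] at h
  have hτ : (S.testQr m c0).τ = 1 / (960000 * S.Θ m) := rfl
  rw [hτ] at h
  have e : L / (1 / (960000 * S.Θ m)) = L * (960000 * S.Θ m) := by
    field_simp
  rw [e] at h
  linarith

end cotests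

/-- **The tests of a rough split** (`star_rough`, `σ = 1` is enough). Index set `I = Fin d ⊕ (Fin d × Fin d) ⊕ Fin 3`,
weights `β (inl i) = √(om m i)` (which is `1` on `H (m + 1)`), `1` on the others.
Rows: `inl i`: `α v i` if `i ∈ H (m + 1)`, else `lig m i v`. Pairs `(k, l)`: `α v k * α v l`.
Three rows `Rc m`, `Row (C (m + 1))`, `Row (C m)`. -/
theorem Sched.rough_outcome (hα : ∀ v, ∑ i, α v i ^ 2 ≤ 1) (m : ℕ) (B : Finset V)
    {𝒢 : Type} [Fintype 𝒢] (cen : 𝒢 → Fin d → ℝ) (π₀ : 𝒢 → ℝ) (hπ : ∀ g, 0 < π₀ g)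
    (hπ1 : ∑ g, π₀ g ≤ 1 / 2) :
    ∃ sub : V → ℕ, (∀ v, sub v < S.K m) ∧
      (∀ s ≤ S.K m, (B.filter fun v => sub v < s).card = s * B.card / S.K m) ∧
      ∀ s ≤ S.K m, S.RoughNoise α m B sub s ∧
        ∀ g, S.Qf (m + 1) (S.Wk (m + 1) 5)
            (fun i => cen g i + rnz B sub (S.K m) s (S.lig α m i))
          ≤ 3200 * S.Vw m + ∑ i ∈ S.U (m + 1), S.Wk (m + 1) 6 i * cen g i ^ 2
            + Real.log (2 * S.K m / π₀ g) * (960000 * S.Θ m) := by
  classical
  have homp : ∀ i, 0 < S.om m i := fun i => S.om_pos _ _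
  have hom1 : ∀ i, 1 ≤ S.om m i := fun i => S.one_le_om _ _
  set om := S.om m with hom
  -- the family of tests
  let T7 : Fin 7 → FT (bet om) :=
    ![S.testT (m + 1) om hom1, S.testX (m + 1) om, S.testXp (m + 1) om,
      testR om 0, testR om 1, testR om 2, S.testLFr m]
  let t : Fin 7 ⊕ 𝒢 → FT (bet om) := Sum.elim T7 (fun g => S.testQr m (cen g))
  let π : Fin 7 ⊕ 𝒢 → ℝ := Sum.elim (fun _ => 1 / 16) π₀
  have hπpos : ∀ x, 0 < π x := by
    rintro (j | g)
    · simp [π]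
    · exact hπ g
  have hπsum : ∑ x, π x ≤ 1 := by
    rw [Fintype.sum_sum_type]
    simp only [π, Sum.elim_inl, Sum.elim_inr]
    rw [Finset.sum_const, Finset.card_univ, Fintype.card_fin]
    norm_num
    linarith
  have hK : 1 ≤ S.K m := by
    have := S.K_pos m
    exact_mod_cast this
  obtain ⟨sub, hsub, hcard, hmain⟩ := star_rough B (bet om) (bet_pos homp) (S.rowsR α m)
    (fun v _ => S.rowsR_norm α hα m v) (S.K m) hK t π hπpos hπsum
  refine ⟨sub, hsub, hcard, fun s hs => ?_⟩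
  set X : Idx d → ℝ := fun I => ∑ v ∈ B.filter (fun v => sub v < s), S.rowsR α m v I
      - tcut B (S.K m) s * ∑ v ∈ B, S.rowsR α m v I with hX
  have hm : ∀ τ, (t τ).val X ≤ (t τ).bd + Real.log (2 * S.K m / π τ) / (t τ).τ := by
    intro τ
    have h1 := hmain s hs τ 1 (Or.inl rfl)
    simp only [one_mul] at h1
    exact h1
  have hXH : ∀ i ∈ S.H (m + 1), X (Sum.inl i) = rnz B sub (S.K m) s fun v => α v i := by
    intro i hi
    simp only [hX, rnz]
    rw [Finset.sum_congr rfl fun v _ => S.rowsR_H α m v hi,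
      Finset.sum_congr rfl fun v _ => S.rowsR_H α m v hi]
  have hXU : ∀ i ∈ S.U (m + 1), X (Sum.inl i) = rnz B sub (S.K m) s (S.lig α m i) := by
    intro i hi
    have hi' : i ∉ S.H (m + 1) := by
      rw [S.mem_H]
      have := S.mem_U.mp hi
      omega
    simp only [hX, rnz]
    rw [Finset.sum_congr rfl fun v _ => S.rowsR_U α m v hi',
      Finset.sum_congr rfl fun v _ => S.rowsR_U α m v hi']
  have hL0 := S.log_rough m
  have hL00 := S.log_rough_nonneg m
  have hb1 := S.b_ge (m + 1)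
  have hb0 : 0 < S.b (m + 1) := lt_of_lt_of_le (by norm_num) hb1
  have hjb := S.jbound m
  have hj := S.j_ge m
  -- the log over `b`
  have hLb : Real.log (2 * S.K m / (1 / 16)) / S.b (m + 1) ≤ 1 :=
    le_trans (by gcongr) hjb
  set Lg := Real.log (2 * S.K m / (1 / 16)) with hLg
  refine ⟨⟨?_, ?_, ?_, ?_, ?_, ?_, ?_⟩, fun g => ?_⟩
  · -- T
    have h1 : (S.testT (m + 1) om hom1).val X ≤ (S.testT (m + 1) om hom1).bd
        + Lg / (S.testT (m + 1) om hom1).τ := hm (Sum.inl 0)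
    rw [S.testT_val_eq] at h1
    have h2 := S.testT_bd_le (m + 1) om hom1
    have hτ : (S.testT (m + 1) om hom1).τ = S.b (m + 1) ^ 2 / 6400 := rfl
    rw [hτ] at h1
    have e : S.Tf (m + 1) (fun i => rnz B sub (S.K m) s fun v => α v i)
        = S.Tf (m + 1) (fun i => X (Sum.inl i)) := by
      unfold Sched.Tf
      exact Finset.sum_congr rfl fun i hi => by simp only [hXH i hi]
    rw [e]
    have e2 : Lg / (S.b (m + 1) ^ 2 / 6400) = 6400 * (Lg / S.b (m + 1)) * (1 / S.b (m + 1)) := by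
      field_simp
    rw [e2] at h1
    have h3 : 1 / S.b (m + 1) ≤ 1 / 2 ^ 42 := by gcongr
    have h4 : 0 ≤ 1 / S.b (m + 1) := by positivity
    have h5 : 6400 * (Lg / S.b (m + 1)) * (1 / S.b (m + 1)) ≤ 6400 * 1 * (1 / 2 ^ 42) := by
      have h0 : 0 ≤ Lg / S.b (m + 1) := by positivity
      gcongr
    have h6 : 3200 / S.b (m + 1) ≤ 3200 / 2 ^ 42 := by gcongr
    have hnum : (6400 : ℝ) * 1 * (1 / 2 ^ 42) + 3200 / 2 ^ 42 ≤ 1 / 1000 := by norm_num
    linarith
  · -- X
    have h1 : (S.testX (m + 1) om).val X ≤ (S.testX (m + 1) om).bd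
        + Lg / (S.testX (m + 1) om).τ := hm (Sum.inl 1)
    rw [S.testX_val_eq] at h1
    have h2 := S.testX_bd_le (m + 1) om
    have hτ : (S.testX (m + 1) om).τ = S.b (m + 1) ^ 6 / 6400 := rfl
    rw [hτ] at h1
    have e2 : Lg / (S.b (m + 1) ^ 6 / 6400) = 6400 * (Lg / S.b (m + 1)) * (1 / S.b (m + 1) ^ 5) := by
      field_simp
    rw [e2] at h1
    have h3 : 1 / S.b (m + 1) ^ 5 ≤ 1 / (2 ^ 42) ^ 5 := by gcongr
    have h5 : 6400 * (Lg / S.b (m + 1)) * (1 / S.b (m + 1) ^ 5) ≤ 6400 * 1 * (1 / (2 ^ 42) ^ 5) := by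
      have h0 : 0 ≤ Lg / S.b (m + 1) := by positivity
      gcongr
    have h6 : 3200 * (1 / S.b (m + 1) ^ 4) ≤ 3200 * (1 / (2 ^ 42) ^ 4) := by gcongr
    have hnum : (6400 : ℝ) * 1 * (1 / (2 ^ 42) ^ 5) + 3200 * (1 / (2 ^ 42) ^ 4) ≤ 1 / 10 ^ 10 := by norm_num
    have ee : S.Xf (m + 1) (fun k l => rnz B sub (S.K m) s fun v => α v k * α v l)
        = S.Xf (m + 1) (fun k l => X (Sum.inr (Sum.inl (k, l)))) := rfl
    rw [ee]
    linarith
  · -- Xp
    rcases (S.C (m + 1)).eq_empty_or_nonempty with hC | hC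
    · simp [Sched.Xp, hC]
    have hC1 : (1 : ℝ) ≤ ((S.C (m + 1)).card : ℝ) := by
      exact_mod_cast Finset.card_pos.mpr hC
    have h1 : (S.testXp (m + 1) om).val X ≤ (S.testXp (m + 1) om).bd
        + Lg / (S.testXp (m + 1) om).τ := hm (Sum.inl 2)
    rw [S.testXp_val_eq] at h1
    have h2 := S.testXp_bd_le (m + 1) om
    have hτ : (S.testXp (m + 1) om).τ = S.b (m + 1) ^ 6 / 6400 := rfl
    rw [hτ] at h1
    have e2 : Lg / (S.b (m + 1) ^ 6 / 6400) = 6400 * (Lg / S.b (m + 1)) * (1 / S.b (m + 1) ^ 5) := by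
      field_simp
    rw [e2] at h1
    have h3 : 1 / S.b (m + 1) ^ 5 ≤ 1 / (2 ^ 42) ^ 5 := by gcongr
    have h5 : 6400 * (Lg / S.b (m + 1)) * (1 / S.b (m + 1) ^ 5) ≤ 6400 * 1 * (1 / (2 ^ 42) ^ 5) := by
      have h0 : 0 ≤ Lg / S.b (m + 1) := by positivity
      gcongr
    have hc0 : (0 : ℝ) ≤ ((S.C (m + 1)).card : ℝ) := by positivity
    have h6 : 3200 * (((S.C (m + 1)).card : ℝ) * (1 / S.b (m + 1) ^ 5))
        ≤ 3200 * (((S.C (m + 1)).card : ℝ) * (1 / (2 ^ 42) ^ 5)) := by gcongr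
    have e : ((S.C (m + 1)).card : ℝ) / 10 ^ 10 = ((S.C (m + 1)).card : ℝ) * (1 / 10 ^ 10) := by ring
    rw [e]
    have h7 : 6400 * 1 * (1 / ((2 : ℝ) ^ 42) ^ 5) ≤ ((S.C (m + 1)).card : ℝ) * (6400 * 1 * (1 / (2 ^ 42) ^ 5)) := by
      have : (0 : ℝ) ≤ 6400 * 1 * (1 / ((2 : ℝ) ^ 42) ^ 5) := by positivity
      nlinarith
    have h8 : ((S.C (m + 1)).card : ℝ) * (6400 * 1 * (1 / ((2 : ℝ) ^ 42) ^ 5)) + 3200 * (((S.C (m + 1)).card : ℝ) * (1 / (2 ^ 42) ^ 5))
        ≤ ((S.C (m + 1)).card : ℝ) * (1 / 10 ^ 10) := by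
      have h9 : (6400 * 1 * (1 / ((2 : ℝ) ^ 42) ^ 5)) + 3200 * (1 / (2 ^ 42) ^ 5) ≤ 1 / 10 ^ 10 := by norm_num
      have := mul_le_mul_of_nonneg_left h9 hc0
      nlinarith
    have ee : S.Xp (m + 1) (fun k l => rnz B sub (S.K m) s fun v => α v k * α v l)
        = S.Xp (m + 1) (fun k l => X (Sum.inr (Sum.inl (k, l)))) := rfl
    rw [ee]
    linarith
  · -- R
    have h1 : (testR om 0).val X ≤ (testR om 0).bd + Lg / (testR om 0).τ := hm (Sum.inl 3)
    rw [testR_val, testR_bd] at h1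
    have hτ : (testR om 0).τ = 1 / 6400 := rfl
    rw [hτ] at h1
    have e : X (Sum.inr (Sum.inr 0)) = rnz B sub (S.K m) s (S.Rc α m) := rfl
    rw [e] at h1
    have h2 : Lg / (1 / 6400) = 6400 * Lg := by field_simp
    rw [h2] at h1
    nlinarith
  · have h1 : (testR om 1).val X ≤ (testR om 1).bd + Lg / (testR om 1).τ := hm (Sum.inl 4)
    rw [testR_val, testR_bd] at h1
    have hτ : (testR om 1).τ = 1 / 6400 := rfl
    rw [hτ] at h1
    have e : X (Sum.inr (Sum.inr 1)) = rnz B sub (S.K m) s (Row α (S.C (m + 1))) := rfl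
    rw [e] at h1
    have h2 : Lg / (1 / 6400) = 6400 * Lg := by field_simp
    rw [h2] at h1
    nlinarith
  · have h1 : (testR om 2).val X ≤ (testR om 2).bd + Lg / (testR om 2).τ := hm (Sum.inl 5)
    rw [testR_val, testR_bd] at h1
    have hτ : (testR om 2).τ = 1 / 6400 := rfl
    rw [hτ] at h1
    have e : X (Sum.inr (Sum.inr 2)) = rnz B sub (S.K m) s (Row α (S.C m)) := rfl
    rw [e] at h1
    have h2 : Lg / (1 / 6400) = 6400 * Lg := by field_simp
    rw [h2] at h1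
    nlinarith
  · -- LF
    have h1 : (S.testLFr m).val X ≤ (S.testLFr m).bd + Lg / (S.testLFr m).τ := hm (Sum.inl 6)
    rw [S.testLFr_val, S.testLFr_bd] at h1
    have hτ : (S.testLFr m).τ = 1 / (16000 * S.Θ m) := rfl
    rw [hτ] at h1
    have hΘ := S.Θ_pos m
    have e : S.LFf (m + 1) (fun i => rnz B sub (S.K m) s (S.lig α m i))
        = S.LFf (m + 1) (fun i => X (Sum.inl i)) := by
      unfold Sched.LFf
      exact Finset.sum_congr rfl fun i hi => by simp only [hXU i hi]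
    rw [e]
    unfold Sched.LNw
    have h2 : Lg / (1 / (16000 * S.Θ m)) = 16000 * S.Θ m * Lg := by field_simp
    rw [h2] at h1
    have h3 : 16000 * S.Θ m * Lg ≤ 16000 * S.Θ m * (5 + 4 * (S.j m : ℝ)) := by gcongr
    linarith
  · -- position
    have h1 := hm (Sum.inr g)
    have e := S.testQr_out m (cen g) X (Real.log (2 * S.K m / π₀ g)) h1
    have e2 : S.Qf (m + 1) (S.Wk (m + 1) 5) (fun i => cen g i + rnz B sub (S.K m) s (S.lig α m i))
        = S.Qf (m + 1) (S.Wk (m + 1) 5) (fun i => cen g i + X (Sum.inl i)) := by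
      unfold Sched.Qf
      exact Finset.sum_congr rfl fun i hi => by simp only [hXU i hi]
    rw [e2]
    exact e

end Vale.Agent.P262S
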