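import Vale.Agent.P262S.RoughParts

/-! # Rough split, piece R2: cuts and children. -/

open Finset

namespace Vale.Agent.P262S

variable {d : ℕ} (S : Sched d)
variable {V : Type} [Fintype V] [DecidableEq V] (α : V → Fin d → ℝ)

lemma tcut_mem (B : Finset V) {K s : ℕ} (hK : 0 < K) (hs : s ≤ K) :
    0 ≤ tcut B K s ∧ tcut B K s ≤ 1 := by
  unfold tcut
  refine ⟨by positivity, ?_⟩
  have h : s * B.card / K ≤ B.card := by
    refine Nat.div_le_of_le_mul ?_
    exact Nat.mul_le_mul_right _ hs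
  refine div_le_one_of_le₀ ?_ (by positivity)
  exact_mod_cast h

lemma dcut_nonneg (B : Finset V) {K : ℕ} (hK : 0 < K) (s : ℕ) : 0 ≤ dcut B K s := by
  unfold dcut tcut
  have h : s * B.card / K ≤ (s + 1) * B.card / K :=
    Nat.div_le_div_right (Nat.mul_le_mul_right _ (Nat.le_succ s))
  rw [sub_nonneg]
  exact div_le_div_of_nonneg_right (by exact_mod_cast h) (by positivity)

/-- Both sides of the exact size of a child. -/
lemma abs_dcut_sub (B : Finset V) {K : ℕ} (hK : 0 < K) (hB : B.Nonempty) (s : ℕ) :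
    |dcut B K s - 1 / (K : ℝ)| ≤ 1 / (B.card : ℝ) := by
  unfold dcut tcut
  obtain ⟨n, hn⟩ : ∃ n, n = B.card := ⟨_, rfl⟩
  rw [← hn]
  have hnpos : 0 < n := by rw [hn]; exact Finset.card_pos.mpr hB
  obtain ⟨a, ha⟩ : ∃ a, a = s * n / K := ⟨_, rfl⟩
  obtain ⟨b, hb⟩ : ∃ b, b = (s + 1) * n / K := ⟨_, rfl⟩
  rw [← ha, ← hb]
  have h1 : K * a + (s * n) % K = s * n := by rw [ha]; exact Nat.div_add_mod _ _
  have h2 : K * b + ((s + 1) * n) % K = (s + 1) * n := by rw [hb]; exact Nat.div_add_mod _ _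
  have h3 : (s * n) % K < K := Nat.mod_lt _ hK
  have h4 : ((s + 1) * n) % K < K := Nat.mod_lt _ hK
  have hK' : (0 : ℝ) < K := by exact_mod_cast hK
  have hn' : (0 : ℝ) < n := by exact_mod_cast hnpos
  have h5 : ((K : ℝ) * a + ((s * n) % K : ℕ)) = (s : ℝ) * n := by exact_mod_cast h1
  have h6 : ((K : ℝ) * b + (((s + 1) * n) % K : ℕ)) = ((s : ℝ) + 1) * n := by exact_mod_cast h2
  have h7 : (((s * n) % K : ℕ) : ℝ) < K := by exact_mod_cast h3
  have h8 : ((((s + 1) * n) % K : ℕ) : ℝ) < K := by exact_mod_cast h4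
  have h9 : (0 : ℝ) ≤ ((s * n) % K : ℕ) := by positivity
  have h10 : (0 : ℝ) ≤ (((s + 1) * n) % K : ℕ) := by positivity
  have key : (b : ℝ) / n - (a : ℝ) / n - 1 / (K : ℝ) = ((K : ℝ) * (b - a) - n) / (K * n) := by
    field_simp
  rw [key, abs_div, abs_of_pos (by positivity : (0 : ℝ) < K * n), div_le_div_iff₀ (by positivity) hn']
  have hx : |(K : ℝ) * (b - a) - n| ≤ K := by
    rw [abs_le]
    constructor <;> nlinarith
  nlinarith [abs_nonneg ((K : ℝ) * (b - a) - n)]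

lemma dcut_le (B : Finset V) {K : ℕ} (hK : 0 < K) (s : ℕ) :
    dcut B K s ≤ 1 / (K : ℝ) + 1 / (B.card : ℝ) := by
  rcases B.eq_empty_or_nonempty with h | h
  · subst h
    simp [dcut, tcut]
  · have := abs_le.mp (abs_dcut_sub B hK h s)
    linarith [this.2]

lemma cut_sum (B : Finset V) (sub : V → ℕ) (K s : ℕ) (r : V → ℝ) :
    ∑ v ∈ B.filter (fun v => sub v < s), r v = tcut B K s * ∑ v ∈ B, r v + rnz B sub K s r := by
  unfold rnz
  ring

lemma child_sum (B : Finset V) (sub : V → ℕ) (K s : ℕ) (r : V → ℝ) :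
    ∑ v ∈ B.filter (fun v => sub v = s), r v
      = dcut B K s * ∑ v ∈ B, r v + rnz B sub K (s + 1) r - rnz B sub K s r := by
  have h : ∑ v ∈ B.filter (fun v => sub v < s + 1), r v
      = ∑ v ∈ B.filter (fun v => sub v < s), r v + ∑ v ∈ B.filter (fun v => sub v = s), r v := by
    rw [← Finset.sum_union]
    · congr 1
      ext v
      simp only [mem_filter, mem_union]
      constructor
      · rintro ⟨hv, h⟩
        by_cases hs : sub v < s
        · exact Or.inl ⟨hv, hs⟩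
        · exact Or.inr ⟨hv, by omega⟩
      · rintro (⟨hv, h⟩ | ⟨hv, h⟩)
        · exact ⟨hv, by omega⟩
        · exact ⟨hv, by omega⟩
    · rw [Finset.disjoint_left]
      intro v hv hv2
      simp only [mem_filter] at hv hv2
      omega
  unfold rnz dcut
  linarith

/-- A diagonal entry of a block at a level where the coordinate is corrected. -/
lemma Sched.diag_close {m : ℕ} {B : Finset V} (hX : S.Xf m (S.Err α m B) ≤ (1 / 100) ^ 2) {k : Fin d}
    (hk : k ∈ S.H m) : |MB α B k k - S.q k m ^ 4| ≤ S.q k m ^ 3 / 100 := by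
  have hq := S.q_pos hk
  unfold Sched.Xf at hX
  have h1 : S.Err α m B k k ^ 2 / (S.q k m ^ 2 * S.q k m ^ 2 * min (S.q k m) (S.q k m) ^ 2)
      ≤ ∑ l ∈ S.H m, S.Err α m B k l ^ 2 / (S.q k m ^ 2 * S.q l m ^ 2 * min (S.q k m) (S.q l m) ^ 2) :=
    Finset.single_le_sum (f := fun l => S.Err α m B k l ^ 2 / (S.q k m ^ 2 * S.q l m ^ 2 * min (S.q k m) (S.q l m) ^ 2))
      (fun l _ => by positivity) hk
  have h2 : ∑ l ∈ S.H m, S.Err α m B k l ^ 2 / (S.q k m ^ 2 * S.q l m ^ 2 * min (S.q k m) (S.q l m) ^ 2)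
      ≤ ∑ k ∈ S.H m, ∑ l ∈ S.H m, S.Err α m B k l ^ 2 / (S.q k m ^ 2 * S.q l m ^ 2 * min (S.q k m) (S.q l m) ^ 2) :=
    Finset.single_le_sum (f := fun k => ∑ l ∈ S.H m, S.Err α m B k l ^ 2 / (S.q k m ^ 2 * S.q l m ^ 2 * min (S.q k m) (S.q l m) ^ 2))
      (fun k _ => Finset.sum_nonneg fun l _ => by positivity) hk
  have h3 := h1.trans (h2.trans hX)
  rw [min_self, div_le_iff₀ (by positivity)] at h3
  have e : S.Err α m B k k = MB α B k k - S.q k m ^ 4 := by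
    simp [Sched.Err]
  rw [e] at h3
  have h4 : (MB α B k k - S.q k m ^ 4) ^ 2 ≤ (S.q k m ^ 3 / 100) ^ 2 := by
    calc _ ≤ _ := h3
      _ = _ := by ring
  exact abs_le_of_sq_le_sq h4 (by positivity)

/-- Blocks are large while something is corrected at the next level. -/
lemma Sched.card_ge_K (hα : ∀ v, ∑ i, α v i ^ 2 ≤ 1) {m : ℕ} {B : Finset V}
    (hX : S.Xf m (S.Err α m B) ≤ (1 / 100) ^ 2) (hH : (S.H (m + 1)).Nonempty) :
    (S.K m : ℝ) ≤ (B.card : ℝ) := by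
  obtain ⟨k, hk⟩ := hH
  have hk0 : k ∈ S.H m := S.H_succ_subset m hk
  have hd := S.diag_close α hX hk0
  have hq0 := S.q_pos hk0
  have hq1 := S.q_pos hk
  have hb := S.b_le_q hk
  have hb0 := S.b_ge (m + 1)
  have hb1 := S.b_le_q hk0
  have hb2 := S.b_ge m
  have hp : (2 : ℝ) ^ 42 ≥ 100 := by norm_num
  -- `M k k ≤ n`
  have hM : MB α B k k ≤ (B.card : ℝ) := by
    unfold MB
    have : ∀ v ∈ B, α v k * α v k ≤ 1 := by
      intro v _
      have h1 := hα v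
      have h2 : α v k ^ 2 ≤ ∑ i, α v i ^ 2 :=
        Finset.single_le_sum (f := fun i => α v i ^ 2) (fun i _ => sq_nonneg _) (Finset.mem_univ k)
      nlinarith
    calc ∑ v ∈ B, α v k * α v k ≤ ∑ _v ∈ B, (1 : ℝ) := Finset.sum_le_sum this
      _ = (B.card : ℝ) := by simp
  have h1 := (abs_le.mp hd).1
  -- `q (m) ^ 4 = K * q (m + 1) ^ 4`
  have h2 := S.q_succ_pow4 m k
  have hK := S.K_pos m
  have h3 : S.q k m ^ 4 = (S.K m : ℝ) * S.q k (m + 1) ^ 4 := by
    rw [h2]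
    field_simp
  have h4 : (1 : ℝ) ≤ S.q k (m + 1) := by linarith [hb, hb0, (by norm_num : (1 : ℝ) ≤ 2 ^ 42)]
  have h5 : (2 : ℝ) ≤ S.q k (m + 1) ^ 4 := by
    have : (2 : ℝ) ^ 42 ≤ S.q k (m + 1) := by linarith
    have h6 : (2 : ℝ) ≤ S.q k (m + 1) := by
      have : (2 : ℝ) ≤ 2 ^ 42 := by norm_num
      linarith
    nlinarith [pow_le_pow_left₀ (by norm_num : (0 : ℝ) ≤ 2) h6 4]
  have h7 : (100 : ℝ) ≤ S.q k m := by
    have : (100 : ℝ) ≤ 2 ^ 42 := by norm_num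
    linarith
  have h8 : S.q k m ^ 3 / 100 ≤ S.q k m ^ 4 / 2 := by
    have : S.q k m ^ 4 = S.q k m ^ 3 * S.q k m := by ring
    rw [this]
    have h9 : 0 < S.q k m ^ 3 := by positivity
    nlinarith
  have h9 : S.q k m ^ 4 / 2 ≤ (B.card : ℝ) := by linarith
  rw [h3] at h9
  nlinarith

lemma Sched.dcut_le_two (hα : ∀ v, ∑ i, α v i ^ 2 ≤ 1) {m : ℕ} {B : Finset V}
    (hX : S.Xf m (S.Err α m B) ≤ (1 / 100) ^ 2) (hH : (S.H (m + 1)).Nonempty) (s : ℕ) :
    dcut B (S.K m) s ≤ 2 / (S.K m : ℝ) := by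
  have hK := S.K_pos m
  have hn := S.card_ge_K α hα hX hH
  have hKn : 0 < S.K m := by exact_mod_cast hK
  have h := dcut_le B hKn s
  have h2 : 1 / (B.card : ℝ) ≤ 1 / (S.K m : ℝ) := one_div_le_one_div_of_le hK hn
  have e : 2 / (S.K m : ℝ) = 1 / (S.K m : ℝ) + 1 / (S.K m : ℝ) := by ring
  rw [e]
  linarith

end Vale.Agent.P262S
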