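import Vale.Agent.P262S.RoughR2

/-! # Rough split, piece R3: the corrected coordinates at a cut. -/

open Finset

namespace Vale.Agent.P262S

variable {d : ℕ} (S : Sched d)
variable {V : Type} [Fintype V] [DecidableEq V] (α : V → Fin d → ℝ)

/-- `x_s = (1 - t) p + t q + n_s` and the convexity of `Tf`. -/
theorem Sched.rough_T {m s : ℕ} {B : Finset V} {sub : V → ℕ} {p q : Fin d → ℝ}
    (hq : ∀ i, q i = p i + sm α B i) (hs : s ≤ S.K m)
    (hTp : S.Tf (m + 1) p ≤ 1 / 1000) (hTq : S.Tf (m + 1) q ≤ 1 / 1000)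
    (hn : S.Tf (m + 1) (fun i => rnz B sub (S.K m) s fun v => α v i) ≤ 1 / 1000) :
    S.Tf (m + 1) (fun i => p i + sm α (B.filter fun v => sub v < s) i) ≤ 1 / 100 := by
  have hKpos : 0 < S.K m := by exact_mod_cast S.K_pos m
  obtain ⟨ht0, ht1⟩ := tcut_mem B hKpos hs
  obtain ⟨t, ht⟩ : ∃ t, t = tcut B (S.K m) s := ⟨_, rfl⟩
  rw [← ht] at ht0 ht1
  have hx : ∀ i, p i + sm α (B.filter fun v => sub v < s) i
      = (1 - t) * p i + t * q i + rnz B sub (S.K m) s (fun v => α v i) := by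
    intro i
    unfold sm
    rw [cut_sum B sub (S.K m) s (fun v => α v i), hq i, ← ht]
    unfold sm
    ring
  have hterm : ∀ i, (p i + sm α (B.filter fun v => sub v < s) i) ^ 2
      ≤ 2 * (1 - t) * p i ^ 2 + 2 * t * q i ^ 2
        + 2 * rnz B sub (S.K m) s (fun v => α v i) ^ 2 := by
    intro i
    rw [hx]
    obtain ⟨n, hn'⟩ : ∃ n, n = rnz B sub (S.K m) s (fun v => α v i) := ⟨_, rfl⟩
    rw [← hn']
    nlinarith [sq_nonneg ((1 - t) * p i + t * q i - n), sq_nonneg (p i - q i),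
      mul_nonneg ht0 (sub_nonneg.mpr ht1)]
  have hsum : S.Tf (m + 1) (fun i => p i + sm α (B.filter fun v => sub v < s) i)
      ≤ 2 * (1 - t) * S.Tf (m + 1) p + 2 * t * S.Tf (m + 1) q
        + 2 * S.Tf (m + 1) (fun i => rnz B sub (S.K m) s fun v => α v i) := by
    unfold Sched.Tf
    rw [Finset.mul_sum, Finset.mul_sum, Finset.mul_sum, ← Finset.sum_add_distrib,
      ← Finset.sum_add_distrib]
    refine Finset.sum_le_sum fun i hi => ?_
    have hq0 := S.q_pos hi
    have h2 := div_le_div_of_nonneg_right (hterm i) (by positivity : (0 : ℝ) ≤ S.q i (m + 1) ^ 2)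
    refine h2.trans (le_of_eq ?_)
    field_simp
  have h1t : 0 ≤ 1 - t := by linarith
  have a1 := mul_le_mul_of_nonneg_left hTp (mul_nonneg (by norm_num : (0 : ℝ) ≤ 2) h1t)
  have a2 := mul_le_mul_of_nonneg_left hTq (mul_nonneg (by norm_num : (0 : ℝ) ≤ 2) ht0)
  linarith

end Vale.Agent.P262S
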