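import Vale.Agent.P262S.RoughR2

/-! # Rough split, piece R4: the near diagonality of a child. -/

open Finset

namespace Vale.Agent.P262S

variable {d : ℕ} (S : Sched d)
variable {V : Type} [Fintype V] [DecidableEq V] (α : V → Fin d → ℝ)

lemma Sched.r4_K_cast (m : ℕ) : (S.K m : ℝ) = ((2 : ℝ) ^ S.j m) ^ 4 := by
  unfold Sched.K
  push_cast
  rw [show (16 : ℝ) = 2 ^ 4 by norm_num, ← pow_mul, ← pow_mul, mul_comm]

lemma Sched.r4_T_ge (m : ℕ) : (2 : ℝ) ^ 32 ≤ (2 : ℝ) ^ S.j m :=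
  pow_le_pow_right₀ (by norm_num) (S.hj m)

lemma Sched.r4_K_natpos (m : ℕ) : 0 < S.K m := by
  unfold Sched.K; positivity

/-- Double sums on subsets. -/
lemma r4_dsum_mono {J₁ J₂ H : Finset (Fin d)} (h1 : J₁ ⊆ H) (h2 : J₂ ⊆ H) {t : Fin d → Fin d → ℝ}
    (ht : ∀ k l, 0 ≤ t k l) : ∑ k ∈ J₁, ∑ l ∈ J₂, t k l ≤ ∑ k ∈ H, ∑ l ∈ H, t k l := by
  calc ∑ k ∈ J₁, ∑ l ∈ J₂, t k l ≤ ∑ k ∈ J₁, ∑ l ∈ H, t k l :=
        Finset.sum_le_sum fun k _ =>
          Finset.sum_le_sum_of_subset_of_nonneg h2 fun l _ _ => ht k l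
    _ ≤ ∑ k ∈ H, ∑ l ∈ H, t k l :=
        Finset.sum_le_sum_of_subset_of_nonneg h1 fun k _ _ => Finset.sum_nonneg fun l _ => ht k l

lemma Sched.r4_Xf_add4 (m : ℕ) {E a b c e : Fin d → Fin d → ℝ}
    (h : ∀ k l, E k l = a k l + b k l + c k l - e k l) :
    S.Xf m E ≤ 4 * (S.Xf m a + S.Xf m b + S.Xf m c + S.Xf m e) := by
  unfold Sched.Xf
  simp only [← Finset.sum_add_distrib, Finset.mul_sum]
  refine Finset.sum_le_sum fun k _ => Finset.sum_le_sum fun l _ => ?_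
  rw [h]
  obtain ⟨w, hw⟩ : ∃ w, w = S.q k m ^ 2 * S.q l m ^ 2 * min (S.q k m) (S.q l m) ^ 2 := ⟨_, rfl⟩
  rw [← hw]
  have hw0 : 0 ≤ w := by rw [hw]; positivity
  have h1 : (a k l + b k l + c k l - e k l) ^ 2
      ≤ 4 * (a k l ^ 2 + b k l ^ 2 + c k l ^ 2 + e k l ^ 2) := by
    nlinarith [sq_nonneg (a k l - b k l), sq_nonneg (a k l - c k l), sq_nonneg (a k l + e k l),
      sq_nonneg (b k l - c k l), sq_nonneg (b k l + e k l), sq_nonneg (c k l + e k l)]
  have h2 := div_le_div_of_nonneg_right h1 hw0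
  refine h2.trans (le_of_eq ?_)
  ring

lemma Sched.r4_Xp_add3 (m : ℕ) {E a c e : Fin d → Fin d → ℝ}
    (h : ∀ k l, E k l = a k l + c k l - e k l) :
    S.Xp m E ≤ 3 * (S.Xp m a + S.Xp m c + S.Xp m e) := by
  unfold Sched.Xp
  simp only [← Finset.sum_add_distrib, Finset.mul_sum]
  refine Finset.sum_le_sum fun k _ => Finset.sum_le_sum fun l _ => ?_
  rw [h]
  obtain ⟨w, hw⟩ : ∃ w, w = S.q k m ^ 6 := ⟨_, rfl⟩
  rw [← hw]
  have hw0 : 0 ≤ w := by rw [hw]; positivity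
  have h1 : (a k l + c k l - e k l) ^ 2 ≤ 3 * (a k l ^ 2 + c k l ^ 2 + e k l ^ 2) := by
    nlinarith [sq_nonneg (a k l - c k l), sq_nonneg (a k l + e k l), sq_nonneg (c k l + e k l)]
  have h2 := div_le_div_of_nonneg_right h1 hw0
  refine h2.trans (le_of_eq ?_)
  ring

/-- The scale of a fraction. -/
lemma Sched.r4_delta {m : ℕ} {δ : ℝ} (h0 : 0 ≤ δ) (h2 : δ ≤ 2 / (S.K m : ℝ)) :
    δ ^ 2 * ((2 : ℝ) ^ S.j m) ^ 6 ≤ 1 / 2 ^ 60 := by
  have hT := S.r4_T_ge m
  obtain ⟨T, hTd⟩ : ∃ T, T = (2 : ℝ) ^ S.j m := ⟨_, rfl⟩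
  rw [← hTd] at hT ⊢
  have hTp : 0 < T := lt_of_lt_of_le (by norm_num) hT
  rw [S.r4_K_cast m, ← hTd] at h2
  have h3 : δ ^ 2 ≤ (2 / T ^ 4) ^ 2 := pow_le_pow_left₀ h0 h2 2
  calc δ ^ 2 * T ^ 6 ≤ (2 / T ^ 4) ^ 2 * T ^ 6 := by gcongr
    _ = 4 / T ^ 2 := by field_simp; norm_num
    _ ≤ 1 / 2 ^ 60 := by
      rw [div_le_div_iff₀ (by positivity) (by positivity)]
      have : ((2 : ℝ) ^ 32) ^ 2 ≤ T ^ 2 := pow_le_pow_left₀ (by norm_num) hT 2
      norm_num at this ⊢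
      linarith

/-- The weights of the forms under the change of level. -/
lemma Sched.r4_term (m : ℕ) (x : ℝ) (k l : Fin d) :
    x ^ 2 / (S.q k (m + 1) ^ 2 * S.q l (m + 1) ^ 2 * min (S.q k (m + 1)) (S.q l (m + 1)) ^ 2)
      = ((2 : ℝ) ^ S.j m) ^ 6
        * (x ^ 2 / (S.q k m ^ 2 * S.q l m ^ 2 * min (S.q k m) (S.q l m) ^ 2)) := by
  have hT : (0 : ℝ) < (2 : ℝ) ^ S.j m := by positivity
  rw [S.hqs k m, S.hqs l m, min_div_div_right hT.le]
  obtain ⟨T, hTd⟩ : ∃ T, T = (2 : ℝ) ^ S.j m := ⟨_, rfl⟩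
  rw [← hTd] at hT ⊢
  have e : (S.q k m / T) ^ 2 * (S.q l m / T) ^ 2 * (min (S.q k m) (S.q l m) / T) ^ 2
      = (S.q k m ^ 2 * S.q l m ^ 2 * min (S.q k m) (S.q l m) ^ 2) / T ^ 6 := by
    field_simp
  rw [e, div_div_eq_mul_div]
  ring

/-- The tilt term of the near diagonality form. -/
lemma Sched.r4_Xf_scale {m : ℕ} {δ : ℝ} (h0 : 0 ≤ δ) (h2 : δ ≤ 2 / (S.K m : ℝ))
    (E : Fin d → Fin d → ℝ) {x : ℝ} (hX : S.Xf m E ≤ x) :
    S.Xf (m + 1) (fun k l => δ * E k l) ≤ 1 / 2 ^ 60 * x := by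
  have hd := S.r4_delta h0 h2
  have hX0 : 0 ≤ S.Xf m E := by
    unfold Sched.Xf
    exact Finset.sum_nonneg fun k _ => Finset.sum_nonneg fun l _ => by positivity
  have hsub := S.H_succ_subset m
  calc S.Xf (m + 1) (fun k l => δ * E k l)
      = δ ^ 2 * ((2 : ℝ) ^ S.j m) ^ 6 * ∑ k ∈ S.H (m + 1), ∑ l ∈ S.H (m + 1),
          E k l ^ 2 / (S.q k m ^ 2 * S.q l m ^ 2 * min (S.q k m) (S.q l m) ^ 2) := by
        unfold Sched.Xf
        rw [Finset.mul_sum]
        refine Finset.sum_congr rfl fun k _ => ?_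
        rw [Finset.mul_sum]
        refine Finset.sum_congr rfl fun l _ => ?_
        rw [S.r4_term, mul_pow, mul_div_assoc]
        ring
    _ ≤ 1 / 2 ^ 60 * S.Xf m E := by
        refine mul_le_mul hd ?_ (Finset.sum_nonneg fun k _ => Finset.sum_nonneg fun l _ => by positivity)
          (by positivity)
        exact r4_dsum_mono hsub hsub (t := fun k l =>
          E k l ^ 2 / (S.q k m ^ 2 * S.q l m ^ 2 * min (S.q k m) (S.q l m) ^ 2))
          (fun k l => by positivity)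
    _ ≤ 1 / 2 ^ 60 * x := by gcongr

/-- The rounding of the size of a child, on a diagonal entry. -/
lemma Sched.r4_diag (hα : ∀ v, ∑ i, α v i ^ 2 ≤ 1) {m s : ℕ} {B : Finset V}
    (hX : S.Xf m (S.Err α m B) ≤ (1 / 100) ^ 2) {k : Fin d} (hk : k ∈ S.H (m + 1)) :
    ((dcut B (S.K m) s - 1 / (S.K m : ℝ)) * S.q k m ^ 4) ^ 2 ≤ 4 := by
  have hkm : k ∈ S.H m := S.H_succ_subset m hk
  have hq := S.q_pos hkm
  have hq1 : (1 : ℝ) ≤ S.q k m := le_trans (by norm_num) ((S.b_ge m).trans (S.b_le_q hkm))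
  have hd := S.diag_close α hX hkm
  have hdle : MB α B k k ≤ (B.card : ℝ) := by
    unfold MB
    calc ∑ v ∈ B, α v k * α v k ≤ ∑ v ∈ B, (1 : ℝ) := by
          refine Finset.sum_le_sum fun v _ => ?_
          have h1 := (Finset.single_le_sum (f := fun i => α v i ^ 2) (fun _ _ => sq_nonneg _)
            (Finset.mem_univ k)).trans (hα v)
          nlinarith
      _ = (B.card : ℝ) := by simp
  have hn : S.q k m ^ 4 / 2 ≤ (B.card : ℝ) := by
    have h1 := (abs_le.1 hd).1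
    have h2 : S.q k m ^ 3 ≤ S.q k m ^ 4 := by
      have := pow_pos hq 3
      nlinarith
    linarith
  have hnpos : 0 < (B.card : ℝ) := by
    have := pow_pos hq 4
    linarith
  have hBne : B.Nonempty := by
    rw [← Finset.card_pos]
    exact_mod_cast hnpos
  have habs := abs_dcut_sub B (S.r4_K_natpos m) hBne s
  have h2 : |(dcut B (S.K m) s - 1 / (S.K m : ℝ)) * S.q k m ^ 4| ≤ 2 := by
    rw [abs_mul, abs_of_pos (pow_pos hq 4)]
    calc |dcut B (S.K m) s - 1 / (S.K m : ℝ)| * S.q k m ^ 4 ≤ (1 / (B.card : ℝ)) * S.q k m ^ 4 := by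
          gcongr
      _ ≤ 2 := by
          rw [one_div, inv_mul_le_iff₀ hnpos]
          linarith
  calc ((dcut B (S.K m) s - 1 / (S.K m : ℝ)) * S.q k m ^ 4) ^ 2
      = |(dcut B (S.K m) s - 1 / (S.K m : ℝ)) * S.q k m ^ 4| ^ 2 := (sq_abs _).symm
    _ ≤ 2 ^ 2 := pow_le_pow_left₀ (abs_nonneg _) h2 2
    _ = 4 := by norm_num

/-- The diagonal rounding term. -/
lemma Sched.r4_Xf_diag (hα : ∀ v, ∑ i, α v i ^ 2 ≤ 1) {m s : ℕ} {B : Finset V}
    (hX : S.Xf m (S.Err α m B) ≤ (1 / 100) ^ 2) :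
    S.Xf (m + 1) (fun k l => if k = l then
        (dcut B (S.K m) s - 1 / (S.K m : ℝ)) * S.q k m ^ 4 else 0) ≤ 1 / 2 ^ 60 := by
  have hb := S.b_ge (m + 1)
  have hbp : 0 < S.b (m + 1) := lt_of_lt_of_le (by norm_num) hb
  have hinner : ∀ k ∈ S.H (m + 1), ∑ l ∈ S.H (m + 1),
      (if k = l then (dcut B (S.K m) s - 1 / (S.K m : ℝ)) * S.q k m ^ 4 else 0) ^ 2
        / (S.q k (m + 1) ^ 2 * S.q l (m + 1) ^ 2 * min (S.q k (m + 1)) (S.q l (m + 1)) ^ 2)
      ≤ 4 / S.b (m + 1) ^ 4 * (1 / S.q k (m + 1) ^ 2) := by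
    intro k hk
    rw [Finset.sum_eq_single k]
    · rw [if_pos rfl, min_self]
      have hqk := S.q_pos hk
      have hqb := S.b_le_q hk
      have h4 := S.r4_diag α hα (s := s) hX hk
      have e : S.q k (m + 1) ^ 2 * S.q k (m + 1) ^ 2 * S.q k (m + 1) ^ 2
          = S.q k (m + 1) ^ 4 * S.q k (m + 1) ^ 2 := by ring
      rw [e, ← div_div]
      have h5 : S.b (m + 1) ^ 4 ≤ S.q k (m + 1) ^ 4 := pow_le_pow_left₀ hbp.le hqb 4
      have h6 : ((dcut B (S.K m) s - 1 / (S.K m : ℝ)) * S.q k m ^ 4) ^ 2 / S.q k (m + 1) ^ 4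
          ≤ 4 / S.b (m + 1) ^ 4 := by
        exact div_le_div₀ (by norm_num) h4 (by positivity) h5
      calc ((dcut B (S.K m) s - 1 / (S.K m : ℝ)) * S.q k m ^ 4) ^ 2 / S.q k (m + 1) ^ 4
            / S.q k (m + 1) ^ 2
          ≤ 4 / S.b (m + 1) ^ 4 / S.q k (m + 1) ^ 2 := by gcongr
        _ = 4 / S.b (m + 1) ^ 4 * (1 / S.q k (m + 1) ^ 2) := by ring
    · intro l _ hlk
      rw [if_neg (Ne.symm hlk)]
      simp
    · intro h; exact absurd hk h
  calc S.Xf (m + 1) (fun k l => if k = l then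
        (dcut B (S.K m) s - 1 / (S.K m : ℝ)) * S.q k m ^ 4 else 0)
      ≤ ∑ k ∈ S.H (m + 1), 4 / S.b (m + 1) ^ 4 * (1 / S.q k (m + 1) ^ 2) :=
        Finset.sum_le_sum hinner
    _ = 4 / S.b (m + 1) ^ 4 * ∑ k ∈ S.H (m + 1), 1 / S.q k (m + 1) ^ 2 := by rw [Finset.mul_sum]
    _ ≤ 4 / S.b (m + 1) ^ 4 * (1 / S.b (m + 1)) := by
        have := S.sum_inv_q2 (m + 1)
        gcongr
    _ ≤ 1 / 2 ^ 60 := by
        have e : 4 / S.b (m + 1) ^ 4 * (1 / S.b (m + 1)) = 4 / S.b (m + 1) ^ 5 := by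
          field_simp
        rw [e, div_le_div_iff₀ (by positivity) (by positivity)]
        have h5 : ((2 : ℝ) ^ 42) ^ 5 ≤ S.b (m + 1) ^ 5 := pow_le_pow_left₀ (by norm_num) hb 5
        norm_num at h5 ⊢
        linarith

/-- `E(child) = δ E(B) + (δ K - 1) diag (q (m + 1) ^ 4) + n (s + 1) - n s` (`child_sum`, `q_succ_pow4`);
`Xf (m + 1) (δ E) ≤ δ² 2^(6 j) Xf m E` with `δ ≤ 2 / K` (`dcut_le_two`, `H_succ_subset`);
diagonal: `|δ - 1 / K| q (m) ^ 4 ≤ q ^ 4 / n ≤ 2` (`abs_dcut_sub`, `diag_close`, `MB k k ≤ n`), and `∑ 1 / q ^ 6 ≤ 1 / b ^ 5`;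
then `(a + b + c + d)² ≤ 4 (a² + b² + c² + d²)` termwise. If `H (m + 1)` is empty everything is `0`. -/
theorem Sched.rough_X (hα : ∀ v, ∑ i, α v i ^ 2 ≤ 1) {m s : ℕ} {B : Finset V} {sub : V → ℕ}
    (hX : S.Xf m (S.Err α m B) ≤ (1 / 100) ^ 2)
    (hn1 : S.Xf (m + 1) (fun k l => rnz B sub (S.K m) (s + 1) fun v => α v k * α v l) ≤ 1 / 10 ^ 10)
    (hn0 : S.Xf (m + 1) (fun k l => rnz B sub (S.K m) s fun v => α v k * α v l) ≤ 1 / 10 ^ 10) :
    S.Xf (m + 1) (S.Err α (m + 1) (B.filter fun v => sub v = s)) ≤ (1 / 1000) ^ 2 := by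
  by_cases hH : (S.H (m + 1)).Nonempty
  · have hKn := S.r4_K_natpos m
    have hid : ∀ k l, S.Err α (m + 1) (B.filter fun v => sub v = s) k l
        = dcut B (S.K m) s * S.Err α m B k l
          + (if k = l then (dcut B (S.K m) s - 1 / (S.K m : ℝ)) * S.q k m ^ 4 else 0)
          + rnz B sub (S.K m) (s + 1) (fun v => α v k * α v l)
          - rnz B sub (S.K m) s (fun v => α v k * α v l) := by
      intro k l
      unfold Sched.Err
      have h1 : MB α (B.filter fun v => sub v = s) k l = dcut B (S.K m) s * MB α B k l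
          + rnz B sub (S.K m) (s + 1) (fun v => α v k * α v l)
          - rnz B sub (S.K m) s (fun v => α v k * α v l) :=
        child_sum B sub (S.K m) s _
      rw [h1]
      split_ifs with hkl
      · subst hkl
        rw [S.q_succ_pow4]
        ring
      · ring
    have h0 := dcut_nonneg B hKn s
    have h2 := S.dcut_le_two α hα hX hH s
    have h3 := S.r4_Xf_scale h0 h2 (S.Err α m B) hX
    have h4 := S.r4_Xf_diag α hα (s := s) hX
    have h5 := S.r4_Xf_add4 (m + 1) hid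
    refine h5.trans ?_
    have h6 : 4 * ((1 : ℝ) / 2 ^ 60 * (1 / 100) ^ 2 + 1 / 2 ^ 60 + 1 / 10 ^ 10 + 1 / 10 ^ 10)
        ≤ (1 / 1000) ^ 2 := by norm_num
    refine le_trans ?_ h6
    gcongr
  · have hE := Finset.not_nonempty_iff_eq_empty.1 hH
    unfold Sched.Xf
    rw [hE]
    simp

/-- For `k ∈ H (m + 1)`, `c ∈ C (m + 1)`: `k ≠ c`, `q c (m) < q k (m)`, and the weight of `(k, c)` in `Xf m` is at least
`4^(-j) / 4 * δ² * 2^(6 j) / q k (m) ^ 6`. Then `(a + b + c)² ≤ 3 (a² + b² + c²)`. -/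
theorem Sched.rough_Xp (hα : ∀ v, ∑ i, α v i ^ 2 ≤ 1) {m s : ℕ} {B : Finset V} {sub : V → ℕ}
    (hX : S.Xf m (S.Err α m B) ≤ (1 / 100) ^ 2)
    (hn1 : S.Xp (m + 1) (fun k l => rnz B sub (S.K m) (s + 1) fun v => α v k * α v l)
      ≤ ((S.C (m + 1)).card : ℝ) / 10 ^ 10)
    (hn0 : S.Xp (m + 1) (fun k l => rnz B sub (S.K m) s fun v => α v k * α v l)
      ≤ ((S.C (m + 1)).card : ℝ) / 10 ^ 10) :
    S.Xp (m + 1) (MB α (B.filter fun v => sub v = s)) ≤ (1 / 10 ^ 4) ^ 2 * ((S.C (m + 1)).card : ℝ) := by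
  by_cases hH : (S.H (m + 1)).Nonempty
  · by_cases hC : (S.C (m + 1)).Nonempty
    · have hKn := S.r4_K_natpos m
      have hid : ∀ k l, MB α (B.filter fun v => sub v = s) k l
          = dcut B (S.K m) s * MB α B k l
            + rnz B sub (S.K m) (s + 1) (fun v => α v k * α v l)
            - rnz B sub (S.K m) s (fun v => α v k * α v l) :=
        fun k l => child_sum B sub (S.K m) s _
      have h0 := dcut_nonneg B hKn s
      have h2 := S.dcut_le_two α hα hX hH s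
      have hd := S.r4_delta h0 h2
      have h5 := S.r4_Xp_add3 (m + 1) hid
      -- the main term
      have hsubH := S.H_succ_subset m
      have hsubC : S.C (m + 1) ⊆ S.H m := by
        intro c hc
        rw [S.mem_C] at hc
        rw [S.mem_H]
        omega
      have hX0 : S.Xp (m + 1) (fun k l => dcut B (S.K m) s * MB α B k l) ≤ 1 / 2 ^ 60 * (1 / 100) ^ 2 := by
        have hterm : ∀ k ∈ S.H (m + 1), ∀ c ∈ S.C (m + 1),
            (dcut B (S.K m) s * MB α B k c) ^ 2 / S.q k (m + 1) ^ 6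
              ≤ 1 / 2 ^ 60 * (S.Err α m B k c ^ 2
                / (S.q k m ^ 2 * S.q c m ^ 2 * min (S.q k m) (S.q c m) ^ 2)) := by
          intro k hk c hc
          have hkm := hsubH hk
          have hcm := hsubC hc
          have hqk := S.q_pos hkm
          have hqc := S.q_pos hcm
          have hne : k ≠ c := by
            rintro rfl
            rw [S.mem_H] at hk
            rw [S.mem_C] at hc
            omega
          have hErr : S.Err α m B k c = MB α B k c := by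
            unfold Sched.Err
            rw [if_neg hne, sub_zero]
          -- `q c ≤ q k`
          have hqc' : S.q c (m + 1) < S.q k (m + 1) := by
            have hnot : c ∉ S.H (m + 1) := by
              rw [S.mem_H]
              rw [S.mem_C] at hc
              omega
            exact (S.q_lt_b hnot).trans_le (S.b_le_q hk)
          have hT : (0 : ℝ) < (2 : ℝ) ^ S.j m := by positivity
          have hqcle : S.q c m ≤ S.q k m := by
            rw [S.hqs c m, S.hqs k m] at hqc'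
            exact ((div_lt_div_iff_of_pos_right hT).1 hqc').le
          rw [hErr, min_eq_right hqcle]
          have hq' : S.q k (m + 1) ^ 6 = S.q k m ^ 6 / ((2 : ℝ) ^ S.j m) ^ 6 := by
            rw [S.hqs k m, div_pow]
          rw [hq', div_div_eq_mul_div, mul_pow]
          have hw : S.q k m ^ 2 * S.q c m ^ 2 * S.q c m ^ 2 ≤ S.q k m ^ 6 := by
            have h1 : S.q c m ^ 2 ≤ S.q k m ^ 2 := pow_le_pow_left₀ hqc.le hqcle 2
            have h2' : 0 < S.q k m ^ 2 := by positivity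
            calc S.q k m ^ 2 * S.q c m ^ 2 * S.q c m ^ 2
                ≤ S.q k m ^ 2 * S.q k m ^ 2 * S.q k m ^ 2 := by gcongr
              _ = S.q k m ^ 6 := by ring
          have hM : 0 ≤ MB α B k c ^ 2 := sq_nonneg _
          calc dcut B (S.K m) s ^ 2 * MB α B k c ^ 2 * ((2 : ℝ) ^ S.j m) ^ 6 / S.q k m ^ 6
              = (dcut B (S.K m) s ^ 2 * ((2 : ℝ) ^ S.j m) ^ 6) * (MB α B k c ^ 2 / S.q k m ^ 6) := by
                ring
            _ ≤ 1 / 2 ^ 60 * (MB α B k c ^ 2 / (S.q k m ^ 2 * S.q c m ^ 2 * S.q c m ^ 2)) := by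
                refine mul_le_mul hd ?_ (by positivity) (by positivity)
                exact div_le_div_of_nonneg_left hM (by positivity) hw
        calc S.Xp (m + 1) (fun k l => dcut B (S.K m) s * MB α B k l)
            ≤ ∑ k ∈ S.H (m + 1), ∑ c ∈ S.C (m + 1), 1 / 2 ^ 60 * (S.Err α m B k c ^ 2
                / (S.q k m ^ 2 * S.q c m ^ 2 * min (S.q k m) (S.q c m) ^ 2)) :=
              Finset.sum_le_sum fun k hk => Finset.sum_le_sum fun c hc => hterm k hk c hc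
          _ = 1 / 2 ^ 60 * ∑ k ∈ S.H (m + 1), ∑ c ∈ S.C (m + 1), (S.Err α m B k c ^ 2
                / (S.q k m ^ 2 * S.q c m ^ 2 * min (S.q k m) (S.q c m) ^ 2)) := by
              rw [Finset.mul_sum]
              refine Finset.sum_congr rfl fun k _ => ?_
              rw [Finset.mul_sum]
          _ ≤ 1 / 2 ^ 60 * S.Xf m (S.Err α m B) := by
              have := r4_dsum_mono hsubH hsubC (t := fun k l =>
                S.Err α m B k l ^ 2 / (S.q k m ^ 2 * S.q l m ^ 2 * min (S.q k m) (S.q l m) ^ 2))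
                (fun k l => by positivity)
              gcongr
              exact this
          _ ≤ 1 / 2 ^ 60 * (1 / 100) ^ 2 := by gcongr
      have hc1 : (1 : ℝ) ≤ ((S.C (m + 1)).card : ℝ) := by
        exact_mod_cast Finset.card_pos.2 hC
      refine h5.trans ?_
      have e : (1 / 10 ^ 4 : ℝ) ^ 2 * ((S.C (m + 1)).card : ℝ) = ((S.C (m + 1)).card : ℝ) / 10 ^ 8 := by
        ring
      rw [e]
      have h7 : (3 : ℝ) * (1 / 2 ^ 60 * (1 / 100) ^ 2) ≤ 1 / 10 ^ 9 := by norm_num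
      nlinarith
    · have hE := Finset.not_nonempty_iff_eq_empty.1 hC
      unfold Sched.Xp
      rw [hE]
      simp
  · have hE := Finset.not_nonempty_iff_eq_empty.1 hH
    unfold Sched.Xp
    rw [hE]
    simp only [sum_empty]
    positivity

end Vale.Agent.P262S
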