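import Vale.Agent.P262S.RoughR2

/-! # Rough split, piece R5: the counts and the masses of a child. -/

open Finset

namespace Vale.Agent.P262S

variable {d : ℕ} (S : Sched d)
variable {V : Type} [Fintype V] [DecidableEq V] (α : V → Fin d → ℝ)

/-- A row in `[0, 1]` on a child. -/
lemma Sched.child_row_bound {m s : ℕ} {B : Finset V} {sub : V → ℕ} {r : V → ℝ} {A : ℝ}
    (hr0 : ∀ v, 0 ≤ r v) (hr1 : ∀ v, r v ≤ 1) (hA : ∑ v ∈ B, r v ≤ A)
    (hn1 : (rnz B sub (S.K m) (s + 1) r) ^ 2 ≤ 27225 * (S.j m : ℝ))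
    (hn0 : (rnz B sub (S.K m) s r) ^ 2 ≤ 27225 * (S.j m : ℝ)) :
    ∑ v ∈ B.filter (fun v => sub v = s), r v ≤ A / (S.K m : ℝ) + 1 + 330 * √(S.j m : ℝ) := by
  have hK := S.K_pos m
  have hKn : 0 < S.K m := by exact_mod_cast hK
  rw [child_sum B sub (S.K m) s r]
  have hS0 : 0 ≤ ∑ v ∈ B, r v := Finset.sum_nonneg fun v _ => hr0 v
  have hSn : ∑ v ∈ B, r v ≤ (B.card : ℝ) := by
    calc ∑ v ∈ B, r v ≤ ∑ _v ∈ B, (1 : ℝ) := Finset.sum_le_sum fun v _ => hr1 v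
      _ = (B.card : ℝ) := by simp
  have hSn2 : 1 / (B.card : ℝ) * ∑ v ∈ B, r v ≤ 1 := by
    rcases Nat.eq_zero_or_pos B.card with h | h
    · simp [h]
    · have h' : (0 : ℝ) < B.card := by exact_mod_cast h
      rw [one_div, inv_mul_le_iff₀ h']
      linarith
  have hd := dcut_le B hKn s
  have h1 : dcut B (S.K m) s * ∑ v ∈ B, r v ≤ A / (S.K m : ℝ) + 1 := by
    calc dcut B (S.K m) s * ∑ v ∈ B, r v
        ≤ (1 / (S.K m : ℝ) + 1 / (B.card : ℝ)) * ∑ v ∈ B, r v :=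
          mul_le_mul_of_nonneg_right hd hS0
      _ = (∑ v ∈ B, r v) / (S.K m : ℝ) + 1 / (B.card : ℝ) * ∑ v ∈ B, r v := by ring
      _ ≤ A / (S.K m : ℝ) + 1 := by
          have := div_le_div_of_nonneg_right hA hK.le
          linarith
  have hsq : (0 : ℝ) ≤ 165 * √(S.j m : ℝ) := by positivity
  have hsq2 : (165 * √(S.j m : ℝ)) ^ 2 = 27225 * (S.j m : ℝ) := by
    rw [mul_pow, Real.sq_sqrt (by positivity)]
    norm_num
  have a1 := (abs_le.mp (abs_le_of_sq_le_sq (a := rnz B sub (S.K m) (s + 1) r)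
    (b := 165 * √(S.j m : ℝ)) (by rw [hsq2]; exact hn1) hsq)).2
  have a0 := (abs_le.mp (abs_le_of_sq_le_sq (a := rnz B sub (S.K m) s r)
    (b := 165 * √(S.j m : ℝ)) (by rw [hsq2]; exact hn0) hsq)).1
  linarith

lemma Sched.Rc_nonneg (m : ℕ) (v : V) : 0 ≤ S.Rc α m v :=
  le_min (S.uu_nonneg α (m + 1) v) zero_le_one

lemma Sched.Rc_le_one (m : ℕ) (v : V) : S.Rc α m v ≤ 1 := min_le_right _ _

/-- The clipped old mass of a block. -/
lemma Sched.sum_Rc_le {m : ℕ} {B : Finset V} {xb xp Ne M1 : ℝ} {Nh M2 : ℝ}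
    (hB : S.BlockInv α m B xb xp Nh Ne M1 M2) (hM20 : 0 ≤ M2) (hNe0 : 0 ≤ Ne) :
    ∑ v ∈ B, S.Rc α m v ≤ Nh + 2 * Ne + M2 := by
  classical
  have hsplit : ∑ v ∈ B, S.Rc α m v
      = ∑ v ∈ S.Sv α m B, S.Rc α m v + ∑ v ∈ S.Lv α m B, S.Rc α m v := by
    unfold Sched.Sv Sched.Lv
    exact (Finset.sum_filter_add_sum_filter_not B _ _).symm
  have h1 : ∑ v ∈ S.Sv α m B, S.Rc α m v ≤ Nh := by
    calc ∑ v ∈ S.Sv α m B, S.Rc α m v ≤ ∑ _v ∈ S.Sv α m B, (1 : ℝ) :=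
          Finset.sum_le_sum fun v _ => S.Rc_le_one α m v
      _ = ((S.Sv α m B).card : ℝ) := by simp
      _ ≤ Nh := hB.hNh
  have h2 : ∑ v ∈ S.Lv α m B, S.Rc α m v ≤ 2 * Ne + M2 := by
    cases m with
    | zero =>
      have : ∀ v ∈ S.Lv α 0 B, S.Rc α 0 v ≤ 0 := by
        intro v _
        have h0 := S.uu_one α v
        unfold Sched.Rc
        rw [zero_add, h0]
        exact min_le_left _ _
      have h3 := Finset.sum_nonpos this
      linarith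
    | succ c =>
      have hu : ∀ v, S.Rc α (c + 1) v ≤ 2 * S.uu α (c + 1) v + Row α (S.C c) v := by
        intro v
        rw [← S.uu_succ_succ α c v]
        exact min_le_left _ _
      have hRn : ∀ v, 0 ≤ Row α (S.C c) v := fun v =>
        Finset.sum_nonneg fun i _ => sq_nonneg _
      have hsub : S.Lv α (c + 1) B ⊆ B := by
        unfold Sched.Lv
        exact Finset.filter_subset _ _
      calc ∑ v ∈ S.Lv α (c + 1) B, S.Rc α (c + 1) v
          ≤ ∑ v ∈ S.Lv α (c + 1) B, (2 * S.uu α (c + 1) v + Row α (S.C c) v) :=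
            Finset.sum_le_sum fun v _ => hu v
        _ = 2 * ∑ v ∈ S.Lv α (c + 1) B, S.uu α (c + 1) v
              + ∑ v ∈ S.Lv α (c + 1) B, Row α (S.C c) v := by
            rw [Finset.sum_add_distrib, Finset.mul_sum]
        _ ≤ 2 * Ne + M2 := by
            have a1 := hB.hNe
            have a2 := hB.hM2 c rfl
            have a3 : ∑ v ∈ S.Lv α (c + 1) B, Row α (S.C c) v ≤ ∑ v ∈ B, Row α (S.C c) v :=
              Finset.sum_le_sum_of_subset_of_nonneg hsub fun v _ _ => hRn v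
            linarith
  rw [hsplit]
  linarith

/-- The count of heavy elements and the light trace of a child. -/
lemma Sched.sum_Rc_eq {m : ℕ} (C : Finset V) :
    ∑ v ∈ C, S.Rc α m v
      = ((S.Sv α (m + 1) C).card : ℝ) + ∑ v ∈ S.Lv α (m + 1) C, S.uu α (m + 1) v := by
  classical
  have hsplit : ∑ v ∈ C, S.Rc α m v
      = ∑ v ∈ S.Sv α (m + 1) C, S.Rc α m v + ∑ v ∈ S.Lv α (m + 1) C, S.Rc α m v := by
    unfold Sched.Sv Sched.Lv
    exact (Finset.sum_filter_add_sum_filter_not C _ _).symm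
  rw [hsplit]
  congr 1
  · have : ∀ v ∈ S.Sv α (m + 1) C, S.Rc α m v = 1 := by
      intro v hv
      unfold Sched.Sv at hv
      have hH := (Finset.mem_filter.mp hv).2
      exact min_eq_right (le_of_lt hH)
    rw [Finset.sum_congr rfl this]
    simp
  · refine Finset.sum_congr rfl fun v hv => ?_
    unfold Sched.Lv at hv
    have hH := (Finset.mem_filter.mp hv).2
    exact min_eq_left (not_lt.mp hH)

/-- `∑_B Rc ≤ Nb + 2 Nb + Mb2` (`uu_succ_succ`, heavy elements cost `1`); `δ ≤ 1 / K + 1 / n`, `Rc ≤ 1`, `NK`;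
`|Sv child| + ∑_{Lv child} uu = ∑_child Rc`; noise `≤ 2 * 165 √j`. -/
theorem Sched.rough_N {m s : ℕ} {B : Finset V} {sub : V → ℕ}
    (hB : S.BlockInv α m B (1 / 100) (1 / 1000) (S.Nb m) (S.Nb m) (S.Mb1 m) (S.Mb2 m))
    (hn1 : (rnz B sub (S.K m) (s + 1) (S.Rc α m)) ^ 2 ≤ 27225 * (S.j m : ℝ))
    (hn0 : (rnz B sub (S.K m) s (S.Rc α m)) ^ 2 ≤ 27225 * (S.j m : ℝ)) :
    ((S.Sv α (m + 1) (B.filter fun v => sub v = s)).card : ℝ) ≤ S.NbR (m + 1) ∧
    ∑ v ∈ S.Lv α (m + 1) (B.filter fun v => sub v = s), S.uu α (m + 1) v ≤ S.NbR (m + 1) := by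
  have hNb0 : 0 ≤ S.Nb m := by
    cases m with
    | zero => simp [Sched.Nb]
    | succ m => simp only [Sched.Nb]; positivity
  have hMb0 : 0 ≤ S.Mb2 m := by
    cases m with
    | zero => simp [Sched.Mb2]
    | succ m =>
      simp only [Sched.Mb2]
      have h1 := S.Mb1_nonneg m
      have h2 := S.K_pos m
      positivity
  have hA := S.sum_Rc_le α hB hMb0 hNb0
  have h1 := S.child_row_bound (r := S.Rc α m) (S.Rc_nonneg α m) (S.Rc_le_one α m) hA hn1 hn0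
  have hNK := S.NK m
  have hj := S.sqrt_j_ge m
  have hT := S.sum_Rc_eq α (m := m) (B.filter fun v => sub v = s)
  have hv0 : 0 ≤ ∑ v ∈ S.Lv α (m + 1) (B.filter fun v => sub v = s), S.uu α (m + 1) v :=
    Finset.sum_nonneg fun v _ => S.uu_nonneg α (m + 1) v
  have hc0 : (0 : ℝ) ≤ ((S.Sv α (m + 1) (B.filter fun v => sub v = s)).card : ℝ) := by positivity
  have hNbR : S.NbR (m + 1) = 340 * √(S.j m : ℝ) := rfl
  rw [hNbR]
  constructor <;> linarith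

lemma Row_nonneg' (Cl : Finset (Fin d)) (v : V) : 0 ≤ Row α Cl v :=
  Finset.sum_nonneg fun _ _ => sq_nonneg _

lemma Row_le_one' (hα : ∀ v, ∑ i, α v i ^ 2 ≤ 1) (Cl : Finset (Fin d)) (v : V) : Row α Cl v ≤ 1 := by
  refine le_trans ?_ (hα v)
  unfold Row
  exact Finset.sum_le_sum_of_subset_of_nonneg (Finset.subset_univ _) fun _ _ _ => sq_nonneg _

/-- `∑_B Row (C (m + 1)) ≤ 2 ∑_{C (m + 1)} q (m) ^ 4` (`diag_close`, `c ∈ H m`), `q_succ_pow4`; `δ ≤ 1 / K + 1 / n`, `Row ≤ 1`. -/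
theorem Sched.rough_M1 (hα : ∀ v, ∑ i, α v i ^ 2 ≤ 1) {m s : ℕ} {B : Finset V} {sub : V → ℕ}
    (hX : S.Xf m (S.Err α m B) ≤ (1 / 100) ^ 2)
    (hn1 : (rnz B sub (S.K m) (s + 1) (Row α (S.C (m + 1)))) ^ 2 ≤ 27225 * (S.j m : ℝ))
    (hn0 : (rnz B sub (S.K m) s (Row α (S.C (m + 1)))) ^ 2 ≤ 27225 * (S.j m : ℝ)) :
    ∑ v ∈ B.filter (fun v => sub v = s), Row α (S.C (m + 1)) v ≤ S.M1R m := by
  have hK := S.K_pos m
  have hA : ∑ v ∈ B, Row α (S.C (m + 1)) v ≤ 2 * ∑ c ∈ S.C (m + 1), S.q c m ^ 4 := by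
    have e : ∑ v ∈ B, Row α (S.C (m + 1)) v = ∑ c ∈ S.C (m + 1), MB α B c c := by
      unfold Row MB
      rw [Finset.sum_comm]
      refine Finset.sum_congr rfl fun c _ => Finset.sum_congr rfl fun v _ => ?_
      ring
    rw [e, Finset.mul_sum]
    refine Finset.sum_le_sum fun c hc => ?_
    have hcH : c ∈ S.H m := by
      rw [S.mem_H]
      have := S.mem_C.mp hc
      omega
    have hd := (abs_le.mp (S.diag_close α hX hcH)).2
    have hq0 := S.q_pos hcH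
    have hb1 := S.b_le_q hcH
    have hb2 := S.b_ge m
    have h100 : (1 : ℝ) ≤ S.q c m := by
      have : (1 : ℝ) ≤ 2 ^ 42 := by norm_num
      linarith
    have h3 : S.q c m ^ 3 / 100 ≤ S.q c m ^ 4 := by
      have : S.q c m ^ 4 = S.q c m ^ 3 * S.q c m := by ring
      rw [this]
      have h9 : 0 < S.q c m ^ 3 := by positivity
      nlinarith
    linarith
  have h1 := S.child_row_bound (r := Row α (S.C (m + 1))) (Row_nonneg' α _) (Row_le_one' α hα _)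
    hA hn1 hn0
  refine h1.trans (le_of_eq ?_)
  unfold Sched.M1R
  have e2 : 2 * ∑ c ∈ S.C (m + 1), S.q c m ^ 4 / (S.K m : ℝ) = 2 * ∑ c ∈ S.C (m + 1), S.q c (m + 1) ^ 4 := by
    congr 1
    refine Finset.sum_congr rfl fun c _ => ?_
    rw [S.q_succ_pow4]
  rw [mul_div_assoc, Finset.sum_div]
  rw [e2]

/-- `δ ≤ 1 / K + 1 / n`, `Row ≤ 1`. -/
theorem Sched.rough_M2 (hα : ∀ v, ∑ i, α v i ^ 2 ≤ 1) {m s : ℕ} {B : Finset V} {sub : V → ℕ}
    (hM : ∑ v ∈ B, Row α (S.C m) v ≤ S.Mb1 m)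
    (hn1 : (rnz B sub (S.K m) (s + 1) (Row α (S.C m))) ^ 2 ≤ 27225 * (S.j m : ℝ))
    (hn0 : (rnz B sub (S.K m) s (Row α (S.C m))) ^ 2 ≤ 27225 * (S.j m : ℝ)) :
    ∑ v ∈ B.filter (fun v => sub v = s), Row α (S.C m) v ≤ S.M2R m :=
  S.child_row_bound (r := Row α (S.C m)) (Row_nonneg' α _) (Row_le_one' α hα _) hM hn1 hn0

end Vale.Agent.P262S
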