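import Vale.Agent.P262S.RoughR2

/-! # Rough split, piece R6: the light sum of a child. -/

open Finset

namespace Vale.Agent.P262S

variable {d : ℕ} (S : Sched d)
variable {V : Type} [Fintype V] [DecidableEq V] (α : V → Fin d → ℝ)

/-- The new heavy elements of a child. -/
lemma Sched.exists_new_heavy (m : ℕ) (C : Finset V) :
    ∃ E ⊆ S.Sv α (m + 1) C, (∀ v ∈ E, S.uu α m v ≤ 1) ∧
      ∀ i, sm α (S.Lv α (m + 1) C) i = ∑ v ∈ C, S.lig α m i v - sm α E i := by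
  classical
  refine ⟨C.filter fun v => ¬ S.Hv α m v ∧ S.Hv α (m + 1) v, ?_, ?_, ?_⟩
  · intro v hv
    rw [mem_filter] at hv
    unfold Sched.Sv
    rw [mem_filter]
    exact ⟨hv.1, hv.2.2⟩
  · intro v hv
    rw [mem_filter] at hv
    have := hv.2.1
    unfold Sched.Hv at this
    linarith
  · intro i
    unfold sm Sched.Lv
    rw [sum_filter, sum_filter, eq_sub_iff_add_eq, ← sum_add_distrib]
    refine sum_congr rfl fun v _ => ?_
    unfold Sched.lig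
    have hmono : S.Hv α m v → S.Hv α (m + 1) v := by
      intro h
      unfold Sched.Hv at h ⊢
      linarith [S.uu_mono α m v]
    by_cases h1 : S.Hv α m v
    · have h2 := hmono h1
      simp [h1, h2]
    · by_cases h2 : S.Hv α (m + 1) v <;> simp [h1, h2]

/-- The light sum form of a sum of light elements. -/
lemma Sched.LFf_sm_le (hα : ∀ v, ∑ i, α v i ^ 2 ≤ 1) {m : ℕ} {E : Finset V} (hE : ∀ v ∈ E, S.uu α m v ≤ 1) :
    S.LFf (m + 1) (sm α E) ≤ (E.card : ℝ) ^ 2 * (5 * S.Θ m) := by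
  have h1 : ∀ i ∈ S.U (m + 1), S.ph (m + 1) i * sm α E i ^ 2
      ≤ (E.card : ℝ) * ∑ v ∈ E, S.ph (m + 1) i * α v i ^ 2 := by
    intro i _
    have hph : 0 ≤ S.ph (m + 1) i := by linarith [S.one_le_ph (m + 1) i]
    have h2 : sm α E i ^ 2 ≤ (E.card : ℝ) * ∑ v ∈ E, α v i ^ 2 := by
      unfold sm
      exact sq_sum_le_card_mul_sum_sq
    have h3 := mul_le_mul_of_nonneg_left h2 hph
    rw [mul_left_comm, mul_sum] at h3
    exact h3
  have h2 := sum_le_sum h1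
  rw [← mul_sum, sum_comm] at h2
  have h3 : ∑ v ∈ E, ∑ i ∈ S.U (m + 1), S.ph (m + 1) i * α v i ^ 2 ≤ (E.card : ℝ) * (5 * S.Θ m) := by
    have := sum_le_card_nsmul E (fun v => ∑ i ∈ S.U (m + 1), S.ph (m + 1) i * α v i ^ 2) (5 * S.Θ m)
      (fun v hv => S.light_ph_le α hα (hE v hv))
    simpa using this
  have h4 := mul_le_mul_of_nonneg_left h3 (Nat.cast_nonneg E.card : (0 : ℝ) ≤ E.card)
  unfold Sched.LFf
  calc _ ≤ _ := h2
    _ ≤ _ := h4
    _ = _ := by ring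

/-- The form on `δ A + b - c - e`. -/
lemma Sched.LF_child {m : ℕ} {x A n1 n0 e : Fin d → ℝ} {δ LF N E : ℝ} (hδ : ∀ i, x i = δ * A i + n1 i - n0 i - e i)
    (hA : S.LFf (m + 1) A ≤ LF) (hn1 : S.LFf (m + 1) n1 ≤ N) (hn0 : S.LFf (m + 1) n0 ≤ N)
    (he : S.LFf (m + 1) e ≤ E) :
    S.LFf (m + 1) x ≤ 3 * (δ ^ 2 * LF + 4 * N + E) := by
  have h1 : ∀ i ∈ S.U (m + 1), S.ph (m + 1) i * x i ^ 2
      ≤ 3 * δ ^ 2 * (S.ph (m + 1) i * A i ^ 2) + 6 * (S.ph (m + 1) i * n1 i ^ 2)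
        + 6 * (S.ph (m + 1) i * n0 i ^ 2) + 3 * (S.ph (m + 1) i * e i ^ 2) := by
    intro i _
    have hph : 0 ≤ S.ph (m + 1) i := by linarith [S.one_le_ph (m + 1) i]
    have h2 : x i ^ 2 ≤ 3 * δ ^ 2 * A i ^ 2 + 6 * n1 i ^ 2 + 6 * n0 i ^ 2 + 3 * e i ^ 2 := by
      rw [hδ i]
      obtain ⟨a, ha⟩ : ∃ a, a = δ * A i := ⟨_, rfl⟩
      have ha2 : 3 * δ ^ 2 * A i ^ 2 = 3 * a ^ 2 := by rw [ha]; ring
      rw [ha2, ← ha]
      nlinarith [sq_nonneg (a - (n1 i - n0 i)), sq_nonneg (a + e i), sq_nonneg (n1 i - n0 i + e i),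
        sq_nonneg (n1 i + n0 i)]
    have h3 := mul_le_mul_of_nonneg_left h2 hph
    nlinarith
  have h2 := sum_le_sum h1
  rw [sum_add_distrib, sum_add_distrib, sum_add_distrib, ← mul_sum, ← mul_sum, ← mul_sum,
    ← mul_sum] at h2
  unfold Sched.LFf at hA hn1 hn0 he ⊢
  have h3 : 3 * δ ^ 2 * ∑ i ∈ S.U (m + 1), S.ph (m + 1) i * A i ^ 2 ≤ 3 * δ ^ 2 * LF :=
    mul_le_mul_of_nonneg_left hA (by positivity)
  linarith

/-- `L(child) = δ L(B) + n (s + 1) - n s - sm E`, `E = child ∩ light_m ∩ heavy_{m+1} ⊆ Sv (m + 1) child` (`uu_mono`, `child_sum` with `lig`);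
`LFf (sm E) ≤ |E|² 5 Θ m` (`light_ph_le`, Cauchy), `δ ≤ 2 / K` (`dcut_le_two`), `(a + b + c)² ≤ 3 (a² + b² + c²)`, `(a - b)² ≤ 2 a² + 2 b²`. -/
theorem Sched.rough_LF (hα : ∀ v, ∑ i, α v i ^ 2 ≤ 1) {m s : ℕ} {B : Finset V} {sub : V → ℕ} {LF : ℝ}
    (hX : S.Xf m (S.Err α m B) ≤ (1 / 100) ^ 2) (hH : (S.H (m + 1)).Nonempty)
    (hLF : S.LFf (m + 1) (sm α (S.Lv α m B)) ≤ LF)
    (hn1 : S.LFf (m + 1) (fun i => rnz B sub (S.K m) (s + 1) (S.lig α m i)) ≤ S.LNw m)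
    (hn0 : S.LFf (m + 1) (fun i => rnz B sub (S.K m) s (S.lig α m i)) ≤ S.LNw m)
    (hcard : ((S.Sv α (m + 1) (B.filter fun v => sub v = s)).card : ℝ) ≤ S.NbR (m + 1)) :
    S.LFf (m + 1) (sm α (S.Lv α (m + 1) (B.filter fun v => sub v = s))) ≤ S.LFr LF m := by
  obtain ⟨E, hE, hE1, hE2⟩ := S.exists_new_heavy α m (B.filter fun v => sub v = s)
  have hΘ := S.Θ_pos m
  have hKpos := S.K_pos m
  have hKn : 0 < S.K m := by exact_mod_cast hKpos
  have hLF0 : 0 ≤ LF := by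
    refine le_trans ?_ hLF
    exact sum_nonneg fun i _ => mul_nonneg (by linarith [S.one_le_ph (m + 1) i]) (sq_nonneg _)
  have hδ0 := dcut_nonneg B hKn s
  have hδ2 := S.dcut_le_two α hα hX hH s
  have hcE : (E.card : ℝ) ≤ S.NbR (m + 1) := by
    refine le_trans ?_ hcard
    exact_mod_cast Finset.card_le_card hE
  have h3 : S.LFf (m + 1) (sm α E) ≤ 7 * S.NbR (m + 1) ^ 2 * S.Θ m := by
    refine (S.LFf_sm_le α hα hE1).trans ?_
    have h4 : (E.card : ℝ) ^ 2 ≤ S.NbR (m + 1) ^ 2 := pow_le_pow_left₀ (Nat.cast_nonneg _) hcE 2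
    have h5 : 0 ≤ S.NbR (m + 1) ^ 2 := sq_nonneg _
    have h6 := mul_le_mul_of_nonneg_right h4 (by positivity : 0 ≤ 5 * S.Θ m)
    nlinarith [mul_nonneg h5 hΘ.le]
  have h4 := S.LF_child (m := m) (x := sm α (S.Lv α (m + 1) (B.filter fun v => sub v = s)))
    (A := sm α (S.Lv α m B)) (n1 := fun i => rnz B sub (S.K m) (s + 1) (S.lig α m i))
    (n0 := fun i => rnz B sub (S.K m) s (S.lig α m i)) (e := sm α E)
    (δ := dcut B (S.K m) s) (LF := LF) (N := S.LNw m) (E := 7 * S.NbR (m + 1) ^ 2 * S.Θ m)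
    (fun i => by
      rw [hE2 i, child_sum B sub (S.K m) s (S.lig α m i)]
      have e1 : ∑ v ∈ B, S.lig α m i v = sm α (S.Lv α m B) i := by
        classical
        unfold sm Sched.Lv Sched.lig
        rw [sum_filter]
        refine sum_congr rfl fun v _ => ?_
        by_cases h : S.Hv α m v <;> simp [h]
      rw [e1]) hLF hn1 hn0 h3
  refine h4.trans ?_
  have h5 : dcut B (S.K m) s ^ 2 ≤ 4 / (S.K m : ℝ) ^ 2 := by
    have := pow_le_pow_left₀ hδ0 hδ2 2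
    refine this.trans (le_of_eq ?_)
    rw [div_pow]
    norm_num
  have h6 := mul_le_mul_of_nonneg_right h5 hLF0
  unfold Sched.LFr
  linarith

end Vale.Agent.P262S
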