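import Vale.Agent.P262S.RoughR2
import Vale.Agent.P262S.RoughHeavy

/-! # Rough split, piece R7: the position invariants of a child. -/

open Finset

namespace Vale.Agent.P262S

variable {d : ℕ} (S : Sched d)
variable {V : Type} [Fintype V] [DecidableEq V] (α : V → Fin d → ℝ)

/-- New heavy elements (light at level `m`): `(x + σ sm E)² ≤ (1 + a / 50) x² + (1 + 50 / a) (sm E)²`, `a = ag (m + 1) i`,
`Wk 4 * fa = Wk 5`, `Wk 4 ≤ 1`, `ph * ag = 1`, `51 ph ≥ 1 + 50 ph`, and `light_ph_le` with Cauchy: cost `≤ 255 |E|² Θ m`. -/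
theorem Sched.rough_new_heavy (hα : ∀ v, ∑ i, α v i ^ 2 ≤ 1) {m : ℕ} {E : Finset V}
    (hE : ∀ v ∈ E, S.uu α m v ≤ 1) {σ : ℝ} (hσ : σ = 1 ∨ σ = -1) (x : Fin d → ℝ) :
    S.Qf (m + 1) (S.Wk (m + 1) 4) (fun i => x i + σ * sm α E i)
      ≤ S.Qf (m + 1) (S.Wk (m + 1) 5) x + 255 * (E.card : ℝ) ^ 2 * S.Θ m :=
  S.new_heavy_cost α hα (by norm_num) hE x hσ

/-- The sum of a coordinate over the light elements of a block. -/
lemma Sched.sum_lig (m : ℕ) (F : Finset V) (i : Fin d) :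
    ∑ v ∈ F, S.lig α m i v = sm α F i - sm α (S.Sv α m F) i := by
  classical
  unfold sm Sched.Sv Sched.lig
  rw [Finset.sum_filter, ← Finset.sum_sub_distrib]
  refine Finset.sum_congr rfl fun v _ => ?_
  by_cases h : S.Hv α m v
  · simp [h]
  · simp [h]

/-- The convex combination of the centres at a cut. -/
lemma Sched.rough_center {m s : ℕ} {B : Finset V} {sub : V → ℕ} {p q : Fin d → ℝ} {Vb : ℝ}
    (hq : ∀ i, q i = p i + sm α B i) (hs : s ≤ S.K m)
    (hc1 : ∀ G ⊆ S.Sv α m B, S.Qf (m + 1) (S.Wk (m + 1) 5)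
        (fun i => p i + sm α G i + rnz B sub (S.K m) s (S.lig α m i)) ≤ Vb)
    (hc2 : ∀ G ⊆ S.Sv α m B, S.Qf (m + 1) (S.Wk (m + 1) 5)
        (fun i => q i - sm α G i + rnz B sub (S.K m) s (S.lig α m i)) ≤ Vb)
    {G : Finset V} (hG : G ⊆ S.Sv α m B) :
    S.Qf (m + 1) (S.Wk (m + 1) 5)
      (fun i => p i + sm α G i + ∑ v ∈ B.filter (fun v => sub v < s), S.lig α m i v) ≤ Vb := by
  have hK : 0 < S.K m := by exact_mod_cast S.K_pos m
  obtain ⟨ht0, ht1⟩ := tcut_mem B hK hs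
  have h := S.Qf_convex (u := m + 1) (w := S.Wk (m + 1) 5) (fun i => (S.Wk_pos _ _ _).le)
    (c₁ := fun i => p i + sm α G i) (c₂ := fun i => q i - sm α (S.Sv α m B \ G) i)
    (n := fun i => rnz B sub (S.K m) s (S.lig α m i)) ht0 ht1 (hc1 G hG)
    (hc2 (S.Sv α m B \ G) Finset.sdiff_subset)
  refine le_trans (le_of_eq ?_) h
  unfold Sched.Qf
  refine Finset.sum_congr rfl fun i _ => ?_
  congr 2
  beta_reduce
  have h1 : sm α (S.Sv α m B \ G) i = sm α (S.Sv α m B) i - sm α G i := by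
    unfold sm
    rw [← Finset.sum_sdiff hG]
    ring
  rw [h1, hq i]
  unfold rnz
  rw [S.sum_lig α m B i]
  ring

/-- Splitting a set into the heavy part and the light sum. -/
lemma Sched.sm_split (m : ℕ) (F : Finset V) (i : Fin d) :
    sm α F i = sm α (S.Sv α m F) i + ∑ v ∈ F, S.lig α m i v := by
  rw [S.sum_lig α m F i]
  ring

omit [Fintype V] in
/-- The size of the new heavy elements. -/
lemma Sched.new_heavy_sq {m : ℕ} {C G : Finset V} (hG : G ⊆ S.Sv α (m + 1) C) (A : Finset V)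
    (hcard : ((S.Sv α (m + 1) C).card : ℝ) ≤ S.NbR (m + 1)) :
    255 * (((G \ A).card : ℝ)) ^ 2 * S.Θ m ≤ 500 * S.NbR (m + 1) ^ 2 * S.Θ m := by
  have hΘ := S.Θ_pos m
  have h1 : ((G \ A).card : ℝ) ≤ S.NbR (m + 1) := by
    refine le_trans ?_ hcard
    exact_mod_cast Finset.card_le_card (Finset.sdiff_subset.trans hG)
  have h2 : ((G \ A).card : ℝ) ^ 2 ≤ S.NbR (m + 1) ^ 2 := pow_le_pow_left₀ (Nat.cast_nonneg _) h1 2
  have h3 : 0 ≤ S.NbR (m + 1) ^ 2 := sq_nonneg _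
  have h4 : 255 * ((G \ A).card : ℝ) ^ 2 ≤ 500 * S.NbR (m + 1) ^ 2 := by linarith
  exact mul_le_mul_of_nonneg_right h4 hΘ.le

/-- The left end of a child. `x_s + sm G = (1 - t) (p + sm G'') + t (q - sm (S \ G'')) + n_s + sm E`, `G'' = (Sv m B ∩ cut s) ∪ (G ∩ Sv m B)`, `E = G \ Sv m B`. -/
theorem Sched.rough_JL (hα : ∀ v, ∑ i, α v i ^ 2 ≤ 1) {m s : ℕ} {B : Finset V} {sub : V → ℕ} {p q : Fin d → ℝ} {Vb : ℝ}
    (hq : ∀ i, q i = p i + sm α B i) (hs : s ≤ S.K m)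
    (hcard : ((S.Sv α (m + 1) (B.filter fun v => sub v = s)).card : ℝ) ≤ S.NbR (m + 1))
    (hc1 : ∀ G ⊆ S.Sv α m B, S.Qf (m + 1) (S.Wk (m + 1) 5)
        (fun i => p i + sm α G i + rnz B sub (S.K m) s (S.lig α m i)) ≤ Vb)
    (hc2 : ∀ G ⊆ S.Sv α m B, S.Qf (m + 1) (S.Wk (m + 1) 5)
        (fun i => q i - sm α G i + rnz B sub (S.K m) s (S.lig α m i)) ≤ Vb) :
    S.JL α (m + 1) (m + 1) (S.Wk (m + 1) 4) (Vb + 500 * S.NbR (m + 1) ^ 2 * S.Θ m)
      (B.filter fun v => sub v = s) (fun i => p i + sm α (B.filter fun v => sub v < s) i) := by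
  classical
  intro G hG
  set C := B.filter fun v => sub v = s with hC
  set F := B.filter fun v => sub v < s with hF
  set S₀ := S.Sv α m B with hS₀
  have hGC : G ⊆ C := fun v hv => (Finset.mem_filter.1 (hG hv)).1
  have hGB : G ⊆ B := fun v hv => (Finset.mem_filter.1 (hGC hv)).1
  have hFB : F ⊆ B := Finset.filter_subset _ _
  -- the parts
  set G₁ := G ∩ S₀ with hG₁
  set E := G \ S₀ with hE
  set F₀ := S.Sv α m F with hF₀
  have hF₀S : F₀ ⊆ S₀ := by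
    intro v hv
    have h1 := Finset.mem_filter.1 hv
    exact Finset.mem_filter.2 ⟨hFB h1.1, h1.2⟩
  have hdis : Disjoint F₀ G₁ := by
    rw [Finset.disjoint_left]
    intro v h1 h2
    have h3 := (Finset.mem_filter.1 (Finset.mem_filter.1 h1).1).2
    have h4 := (Finset.mem_filter.1 (hGC (Finset.mem_inter.1 h2).1)).2
    omega
  have hG2 : F₀ ∪ G₁ ⊆ S₀ := Finset.union_subset hF₀S Finset.inter_subset_right
  have hlight : ∀ v ∈ E, S.uu α m v ≤ 1 := by
    intro v hv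
    have h1 := Finset.mem_sdiff.1 hv
    by_contra h2
    exact h1.2 (Finset.mem_filter.2 ⟨hGB h1.1, not_le.1 h2⟩)
  have h1 := S.rough_center α hq hs hc1 hc2 hG2
  have h2 := S.rough_new_heavy α hα hlight (Or.inl rfl)
    (fun i => p i + sm α (F₀ ∪ G₁) i + ∑ v ∈ F, S.lig α m i v)
  have h3 := S.new_heavy_sq α hG S₀ hcard
  have hsum : ∀ i, p i + sm α F i + sm α G i
      = p i + sm α (F₀ ∪ G₁) i + ∑ v ∈ F, S.lig α m i v + 1 * sm α E i := by
    intro i
    have e1 : sm α (F₀ ∪ G₁) i = sm α F₀ i + sm α G₁ i := by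
      unfold sm
      exact Finset.sum_union hdis
    have e2 : sm α G i = sm α G₁ i + sm α E i := by
      unfold sm
      rw [hG₁, hE, Finset.sum_inter_add_sum_sdiff]
    have e3 := S.sm_split α m F i
    rw [e1, e2, e3]
    ring
  refine le_trans (le_of_eq ?_) (h2.trans (add_le_add h1 h3))
  unfold Sched.Qf
  refine Finset.sum_congr rfl fun i _ => ?_
  beta_reduce
  rw [hsum i]

/-- The right end of a child. `x_{s+1} - sm G = (1 - t) (p + sm G'') + t (q - sm (S \ G'')) + n_{s+1} - sm E`, `G'' = (Sv m B ∩ cut (s + 1)) \ G`, `E = G \ Sv m B`. -/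
theorem Sched.rough_JR (hα : ∀ v, ∑ i, α v i ^ 2 ≤ 1) {m s : ℕ} {B : Finset V} {sub : V → ℕ} {p q : Fin d → ℝ} {Vb : ℝ}
    (hq : ∀ i, q i = p i + sm α B i) (hs : s + 1 ≤ S.K m)
    (hcard : ((S.Sv α (m + 1) (B.filter fun v => sub v = s)).card : ℝ) ≤ S.NbR (m + 1))
    (hc1 : ∀ G ⊆ S.Sv α m B, S.Qf (m + 1) (S.Wk (m + 1) 5)
        (fun i => p i + sm α G i + rnz B sub (S.K m) (s + 1) (S.lig α m i)) ≤ Vb)
    (hc2 : ∀ G ⊆ S.Sv α m B, S.Qf (m + 1) (S.Wk (m + 1) 5)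
        (fun i => q i - sm α G i + rnz B sub (S.K m) (s + 1) (S.lig α m i)) ≤ Vb) :
    S.JR α (m + 1) (m + 1) (S.Wk (m + 1) 4) (Vb + 500 * S.NbR (m + 1) ^ 2 * S.Θ m)
      (B.filter fun v => sub v = s) (fun i => p i + sm α (B.filter fun v => sub v < s + 1) i) := by
  classical
  intro G hG
  set C := B.filter fun v => sub v = s with hC
  set F := B.filter fun v => sub v < s + 1 with hF
  set S₀ := S.Sv α m B with hS₀
  have hGC : G ⊆ C := fun v hv => (Finset.mem_filter.1 (hG hv)).1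
  have hGB : G ⊆ B := fun v hv => (Finset.mem_filter.1 (hGC hv)).1
  have hFB : F ⊆ B := Finset.filter_subset _ _
  -- the parts
  set G₁ := G ∩ S₀ with hG₁
  set E := G \ S₀ with hE
  set F₀ := S.Sv α m F with hF₀
  have hF₀S : F₀ ⊆ S₀ := by
    intro v hv
    have h1 := Finset.mem_filter.1 hv
    exact Finset.mem_filter.2 ⟨hFB h1.1, h1.2⟩
  have hG₁F : G₁ ⊆ F₀ := by
    intro v hv
    have h1 := Finset.mem_inter.1 hv
    have h2 := (Finset.mem_filter.1 (hGC h1.1)).2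
    have h3 := Finset.mem_filter.1 h1.2
    refine Finset.mem_filter.2 ⟨Finset.mem_filter.2 ⟨h3.1, by omega⟩, h3.2⟩
  have hG2 : F₀ \ G₁ ⊆ S₀ := Finset.sdiff_subset.trans hF₀S
  have hlight : ∀ v ∈ E, S.uu α m v ≤ 1 := by
    intro v hv
    have h1 := Finset.mem_sdiff.1 hv
    by_contra h2
    exact h1.2 (Finset.mem_filter.2 ⟨hGB h1.1, not_le.1 h2⟩)
  have h1 := S.rough_center α hq hs hc1 hc2 hG2
  have h2 := S.rough_new_heavy α hα hlight (Or.inr rfl)
    (fun i => p i + sm α (F₀ \ G₁) i + ∑ v ∈ F, S.lig α m i v)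
  have h3 := S.new_heavy_sq α hG S₀ hcard
  have hsum : ∀ i, p i + sm α F i - sm α G i
      = p i + sm α (F₀ \ G₁) i + ∑ v ∈ F, S.lig α m i v + -1 * sm α E i := by
    intro i
    have e1 : sm α F₀ i = sm α (F₀ \ G₁) i + sm α G₁ i := by
      unfold sm
      rw [Finset.sum_sdiff hG₁F]
    have e2 : sm α G i = sm α G₁ i + sm α E i := by
      unfold sm
      rw [hG₁, hE, Finset.sum_inter_add_sum_sdiff]
    have e3 := S.sm_split α m F i
    rw [e2, e3, e1]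
    ring
  refine le_trans (le_of_eq ?_) (h2.trans (add_le_add h1 h3))
  unfold Sched.Qf
  refine Finset.sum_congr rfl fun i _ => ?_
  beta_reduce
  rw [hsum i]

end Vale.Agent.P262S
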