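import Mathlib

/-!
# The tilt at a re-split (notes/P262_sqrtd.md, section 4, corrected coordinates)

Abstract lemmas, with no schedule: a finite family `α` of vectors on `Fin d`, the rounded elements `Λ`,
the corrected coordinates `H`, the ideal diagonal `D`.
-/

open Finset

namespace Vale.Agent.P262S

variable {d : ℕ} {V : Type*} (α : V → Fin d → ℝ) (Λ : Finset V) (H : Finset (Fin d))

/-- Second moments of the rounded elements. -/
noncomputable def MML (k l : Fin d) : ℝ := ∑ v ∈ Λ, α v k * α v l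

/-- The deviation from the ideal diagonal. -/
noncomputable def EEL (D : Fin d → ℝ) (k l : Fin d) : ℝ :=
  MML α Λ k l - if k = l then D k else 0

/-- The linear tilt attached to `a`. -/
noncomputable def shL (a : Fin d → ℝ) (v : V) : ℝ := ∑ k ∈ H, a k * α v k

lemma MML_comm (k l : Fin d) : MML α Λ k l = MML α Λ l k := by
  unfold MML
  exact Finset.sum_congr rfl fun v _ => mul_comm _ _

/-- Energy of the tilt, as a quadratic form. -/
lemma shL_energy (w : Fin d → ℝ) :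
    ∑ v ∈ Λ, shL α H w v ^ 2 = ∑ k ∈ H, ∑ l ∈ H, w k * w l * MML α Λ k l := by
  unfold shL MML
  simp only [sq, Finset.sum_mul_sum]
  rw [Finset.sum_comm]
  refine Finset.sum_congr rfl fun k _ => ?_
  rw [Finset.sum_comm]
  refine Finset.sum_congr rfl fun l _ => ?_
  rw [Finset.mul_sum]
  refine Finset.sum_congr rfl fun v _ => ?_
  ring

/-- The spill of the tilt on a coordinate: `∑ sh α_j = ∑ a_k M_kj`. -/
lemma spill_eq (a : Fin d → ℝ) (j : Fin d) :
    ∑ v ∈ Λ, shL α H a v * α v j = ∑ k ∈ H, a k * MML α Λ k j := by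
  unfold shL MML
  simp only [Finset.sum_mul, Finset.mul_sum]
  rw [Finset.sum_comm]
  refine Finset.sum_congr rfl fun k _ => Finset.sum_congr rfl fun v _ => ?_
  ring

variable {α Λ H}

variable (D : Fin d → ℝ)

/-- The hypothesis: small relative Frobenius norm. -/
def RelSmall (α : V → Fin d → ℝ) (Λ : Finset V) (H : Finset (Fin d)) (D : Fin d → ℝ) : Prop :=
  ∑ k ∈ H, ∑ l ∈ H, EEL α Λ D k l ^ 2 / (D k * D l) ≤ 1 / 4

variable {D}

/-- Coercivity. -/
lemma coercive (hD : ∀ k ∈ H, 0 < D k) (hE : RelSmall α Λ H D) (w : Fin d → ℝ) :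
    1 / 2 * ∑ k ∈ H, D k * w k ^ 2 ≤ ∑ v ∈ Λ, shL α H w v ^ 2 := by
  classical
  rw [shL_energy]
  set S := ∑ k ∈ H, D k * w k ^ 2 with hS
  have hS0 : 0 ≤ S := Finset.sum_nonneg fun k hk => mul_nonneg (hD k hk).le (sq_nonneg _)
  have e1 : ∑ k ∈ H, ∑ l ∈ H, w k * w l * MML α Λ k l
      = S + ∑ k ∈ H, ∑ l ∈ H, w k * w l * EEL α Λ D k l := by
    have e2 : S = ∑ k ∈ H, ∑ l ∈ H, w k * w l * (if k = l then D k else 0) := by
      rw [hS]
      refine Finset.sum_congr rfl fun k hk => ?_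
      rw [Finset.sum_eq_single k]
      · simp; ring
      · intro l _ hl
        simp [Ne.symm hl]
      · intro h
        exact absurd hk h
    rw [e2, ← Finset.sum_add_distrib]
    refine Finset.sum_congr rfl fun k _ => ?_
    rw [← Finset.sum_add_distrib]
    refine Finset.sum_congr rfl fun l _ => ?_
    unfold EEL
    ring
  rw [e1]
  have hC : (∑ k ∈ H, ∑ l ∈ H, w k * w l * EEL α Λ D k l) ^ 2
      ≤ (∑ k ∈ H, ∑ l ∈ H, (D k * w k ^ 2) * (D l * w l ^ 2))
        * (∑ k ∈ H, ∑ l ∈ H, EEL α Λ D k l ^ 2 / (D k * D l)) := by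
    simp only [← Finset.sum_product']
    refine Finset.sum_sq_le_sum_mul_sum_of_sq_le_mul _ ?_ ?_ ?_
    · rintro ⟨k, l⟩ h
      have hk := hD k (Finset.mem_product.1 h).1
      have hl := hD l (Finset.mem_product.1 h).2
      positivity
    · rintro ⟨k, l⟩ h
      have hk := hD k (Finset.mem_product.1 h).1
      have hl := hD l (Finset.mem_product.1 h).2
      positivity
    · rintro ⟨k, l⟩ h
      have hk := hD k (Finset.mem_product.1 h).1
      have hl := hD l (Finset.mem_product.1 h).2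
      apply le_of_eq
      simp only
      field_simp
  have hP : ∑ k ∈ H, ∑ l ∈ H, (D k * w k ^ 2) * (D l * w l ^ 2) = S ^ 2 := by
    rw [sq, hS, Finset.sum_mul_sum]
  rw [hP] at hC
  have hC2 : (∑ k ∈ H, ∑ l ∈ H, w k * w l * EEL α Λ D k l) ^ 2 ≤ S ^ 2 * (1 / 4) :=
    hC.trans (mul_le_mul_of_nonneg_left hE (sq_nonneg _))
  have hab : |∑ k ∈ H, ∑ l ∈ H, w k * w l * EEL α Λ D k l| ≤ S / 2 := by
    apply abs_le_of_sq_le_sq' _ (by positivity) |> fun h => abs_le.2 h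
    nlinarith
  have := (abs_le.1 hab).1
  linarith

/-- **Solving the tilt equation**, with energy bounds. -/
theorem solve_tilt_gen (hD : ∀ k ∈ H, 0 < D k) (hE : RelSmall α Λ H D) (c : Fin d → ℝ) :
    ∃ a : Fin d → ℝ, (∀ k, k ∉ H → a k = 0) ∧
      (∀ k ∈ H, ∑ l ∈ H, MML α Λ k l * a l = - c k) ∧
      ∑ k ∈ H, D k * a k ^ 2 ≤ 4 * ∑ k ∈ H, c k ^ 2 / D k ∧
      ∑ v ∈ Λ, shL α H a v ^ 2 ≤ 2 * ∑ k ∈ H, c k ^ 2 / D k := by
  classical
  let T : Matrix (Fin d) (Fin d) ℝ := fun i k =>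
    if i ∈ H then (if k ∈ H then MML α Λ i k else 0) else (if i = k then 1 else 0)
  have hT : ∀ (w : Fin d → ℝ) (i : Fin d), (T.mulVecLin w) i =
      if i ∈ H then ∑ k ∈ H, MML α Λ i k * w k else w i := by
    intro w i
    rw [Matrix.mulVecLin_apply]
    simp only [Matrix.mulVec, dotProduct, T]
    by_cases hi : i ∈ H
    · simp only [hi, if_true]
      rw [← Finset.sum_filter_add_sum_filter_not Finset.univ (· ∈ H)]
      have h1 : ∑ x ∈ Finset.univ.filter (· ∈ H), (if x ∈ H then MML α Λ i x else 0) * w x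
          = ∑ k ∈ H, MML α Λ i k * w k := by
        rw [Finset.filter_mem_eq_inter, Finset.univ_inter]
        exact Finset.sum_congr rfl fun k hk => by simp [hk]
      have h2 : ∑ x ∈ Finset.univ.filter (fun x => ¬ x ∈ H), (if x ∈ H then MML α Λ i x else 0) * w x
          = 0 := by
        refine Finset.sum_eq_zero fun k hk => ?_
        simp [(Finset.mem_filter.1 hk).2]
      rw [h1, h2, add_zero]
    · simp [hi]
  have hQ2 : ∀ (w : Fin d → ℝ), ∑ v ∈ Λ, shL α H w v ^ 2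
      = ∑ k ∈ H, w k * ∑ l ∈ H, MML α Λ k l * w l := by
    intro w
    rw [shL_energy]
    refine Finset.sum_congr rfl fun k _ => ?_
    rw [Finset.mul_sum]
    refine Finset.sum_congr rfl fun l _ => ?_
    ring
  have hinj : Function.Injective T.mulVecLin := by
    rw [injective_iff_map_eq_zero]
    intro w hw
    have h0 : ∀ i, (T.mulVecLin w) i = 0 := fun i => by rw [hw]; rfl
    have hQ : ∑ v ∈ Λ, shL α H w v ^ 2 = 0 := by
      rw [hQ2]
      refine Finset.sum_eq_zero fun k hk => ?_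
      have := h0 k
      rw [hT, if_pos hk] at this
      rw [this, mul_zero]
    have hlow := coercive hD hE w
    rw [hQ] at hlow
    have hsum : ∑ k ∈ H, D k * w k ^ 2 ≤ 0 := by linarith
    have hterm : ∀ k ∈ H, 0 ≤ D k * w k ^ 2 :=
      fun k hk => mul_nonneg (hD k hk).le (sq_nonneg _)
    have hz := (Finset.sum_eq_zero_iff_of_nonneg hterm).mp (le_antisymm hsum (Finset.sum_nonneg hterm))
    funext k
    by_cases hk : k ∈ H
    · have h1 := hz k hk
      have h2 := hD k hk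
      have h3 : w k ^ 2 = 0 := by
        rcases mul_eq_zero.mp h1 with h | h
        · exact absurd h h2.ne'
        · exact h
      simpa using h3
    · have := h0 k
      rw [hT, if_neg hk] at this
      exact this
  have hsurj := LinearMap.injective_iff_surjective.mp hinj
  obtain ⟨a, ha⟩ := hsurj (fun i => if i ∈ H then - c i else 0)
  have ha0 : ∀ i, (T.mulVecLin a) i = if i ∈ H then - c i else 0 := fun i => by rw [ha]
  have hsa : ∀ k, k ∉ H → a k = 0 := by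
    intro k hk
    have := ha0 k
    rw [hT, if_neg hk, if_neg hk] at this
    exact this
  have hsol : ∀ k ∈ H, ∑ l ∈ H, MML α Λ k l * a l = - c k := by
    intro k hk
    have := ha0 k
    rw [hT, if_pos hk, if_pos hk] at this
    exact this
  refine ⟨a, hsa, hsol, ?_⟩
  have hlow := coercive hD hE a
  have hQ : ∑ v ∈ Λ, shL α H a v ^ 2 = ∑ k ∈ H, a k * (- c k) := by
    rw [hQ2]
    exact Finset.sum_congr rfl fun k hk => by rw [hsol k hk]
  have hup : ∑ k ∈ H, a k * (- c k)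
      ≤ 1 / 4 * ∑ k ∈ H, D k * a k ^ 2 + ∑ k ∈ H, c k ^ 2 / D k := by
    rw [Finset.mul_sum, ← Finset.sum_add_distrib]
    refine Finset.sum_le_sum fun k hk => ?_
    have hl := hD k hk
    have e : 1 / 4 * (D k * a k ^ 2) + c k ^ 2 / D k - a k * (- c k)
        = (D k * a k / 2 + c k) ^ 2 / D k := by
      field_simp
      ring
    have : 0 ≤ (D k * a k / 2 + c k) ^ 2 / D k := by positivity
    linarith
  rw [hQ] at hlow ⊢
  constructor <;> linarith

/-- A single value of the tilt is bounded by the total energy. -/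
lemma shL_sq_le (a : Fin d → ℝ) {v : V} (hv : v ∈ Λ) :
    shL α H a v ^ 2 ≤ ∑ u ∈ Λ, shL α H a u ^ 2 :=
  Finset.single_le_sum (f := fun u => shL α H a u ^ 2) (fun _ _ => sq_nonneg _) hv

/-- Weighted bound for the solution: from `D a = - c - E a`. -/
lemma weighted_sol (hD : ∀ k ∈ H, 0 < D k) (c a w : Fin d → ℝ) (hw : ∀ k ∈ H, 0 ≤ w k)
    (hsol : ∀ k ∈ H, ∑ l ∈ H, MML α Λ k l * a l = - c k) :
    ∑ k ∈ H, w k * (D k * a k) ^ 2 ≤ 2 * ∑ k ∈ H, w k * c k ^ 2
      + 2 * ((∑ k ∈ H, ∑ l ∈ H, w k * (EEL α Λ D k l ^ 2 / D l)) * ∑ l ∈ H, D l * a l ^ 2) := by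
  classical
  have hk1 : ∀ k ∈ H, D k * a k = - c k - ∑ l ∈ H, EEL α Λ D k l * a l := by
    intro k hk
    have h1 := hsol k hk
    have h2 : ∑ l ∈ H, MML α Λ k l * a l
        = D k * a k + ∑ l ∈ H, EEL α Λ D k l * a l := by
      have h3 : D k * a k = ∑ l ∈ H, (if k = l then D k else 0) * a l := by
        rw [Finset.sum_eq_single k]
        · simp
        · intro l _ hl
          simp [Ne.symm hl]
        · intro h
          exact absurd hk h
      rw [h3, ← Finset.sum_add_distrib]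
      refine Finset.sum_congr rfl fun l _ => ?_
      unfold EEL
      ring
    linarith
  have hk2 : ∀ k ∈ H, (∑ l ∈ H, EEL α Λ D k l * a l) ^ 2
      ≤ (∑ l ∈ H, EEL α Λ D k l ^ 2 / D l) * ∑ l ∈ H, D l * a l ^ 2 := by
    intro k _
    refine Finset.sum_sq_le_sum_mul_sum_of_sq_le_mul _ ?_ ?_ ?_
    · intro l hl
      have := hD l hl
      positivity
    · intro l hl
      have := hD l hl
      positivity
    · intro l hl
      have := hD l hl
      apply le_of_eq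
      field_simp
  calc ∑ k ∈ H, w k * (D k * a k) ^ 2
      ≤ ∑ k ∈ H, (2 * (w k * c k ^ 2) + 2 * (w k * ((∑ l ∈ H, EEL α Λ D k l ^ 2 / D l)
          * ∑ l ∈ H, D l * a l ^ 2))) := by
        refine Finset.sum_le_sum fun k hk => ?_
        rw [hk1 k hk]
        have h0 := hw k hk
        have h3 := hk2 k hk
        set y := ∑ l ∈ H, EEL α Λ D k l * a l
        have h4 : (-c k - y) ^ 2 ≤ 2 * c k ^ 2 + 2 * y ^ 2 := by nlinarith [sq_nonneg (c k - y)]
        have h5 : w k * (-c k - y) ^ 2 ≤ w k * (2 * c k ^ 2 + 2 * y ^ 2) :=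
          mul_le_mul_of_nonneg_left h4 h0
        have h6 : w k * y ^ 2 ≤ w k * ((∑ l ∈ H, EEL α Λ D k l ^ 2 / D l)
          * ∑ l ∈ H, D l * a l ^ 2) := mul_le_mul_of_nonneg_left h3 h0
        nlinarith
    _ = 2 * ∑ k ∈ H, w k * c k ^ 2
      + 2 * ((∑ k ∈ H, ∑ l ∈ H, w k * (EEL α Λ D k l ^ 2 / D l)) * ∑ l ∈ H, D l * a l ^ 2) := by
        have h : ∑ k ∈ H, ∑ l ∈ H, w k * (EEL α Λ D k l ^ 2 / D l)
            = ∑ k ∈ H, w k * ∑ l ∈ H, EEL α Λ D k l ^ 2 / D l :=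
          Finset.sum_congr rfl fun k _ => (Finset.mul_sum _ _ _).symm
        rw [h, Finset.sum_mul, Finset.mul_sum, Finset.mul_sum, ← Finset.sum_add_distrib]
        refine Finset.sum_congr rfl fun k _ => ?_
        ring

/-- The third moment term, entry by entry. -/
lemma tau_sq_le (a : Fin d → ℝ) (k l : Fin d) :
    (∑ v ∈ Λ, shL α H a v * (α v k * α v l)) ^ 2
      ≤ (∑ v ∈ Λ, shL α H a v ^ 2) * ∑ v ∈ Λ, (α v k * α v l) ^ 2 :=
  Finset.sum_mul_sq_le_sq_mul_sq _ _ _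

/-- The fourth moment of two coordinates is at most the energy of one of them. -/
lemma fourth_le (hα : ∀ v ∈ Λ, ∑ i, α v i ^ 2 ≤ 1) (k l : Fin d) :
    ∑ v ∈ Λ, (α v k * α v l) ^ 2 ≤ MML α Λ l l := by
  unfold MML
  refine Finset.sum_le_sum fun v hv => ?_
  have h1 : α v k ^ 2 ≤ 1 :=
    (Finset.single_le_sum (f := fun i => α v i ^ 2) (fun _ _ => sq_nonneg _) (Finset.mem_univ k)).trans
      (hα v hv)
  have h2 : 0 ≤ α v l ^ 2 := sq_nonneg _
  nlinarith

/-- Frobenius bound for the third moment with weights `f k l ≥ 0`, in terms of any `g` dominating the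
fourth moments. -/
lemma tau_frob (a : Fin d → ℝ) (f g : Fin d → Fin d → ℝ) (hf : ∀ k ∈ H, ∀ l ∈ H, 0 ≤ f k l)
    (hg : ∀ k ∈ H, ∀ l ∈ H, ∑ v ∈ Λ, (α v k * α v l) ^ 2 ≤ g k l) :
    ∑ k ∈ H, ∑ l ∈ H, f k l * (∑ v ∈ Λ, shL α H a v * (α v k * α v l)) ^ 2
      ≤ (∑ v ∈ Λ, shL α H a v ^ 2) * ∑ k ∈ H, ∑ l ∈ H, f k l * g k l := by
  rw [Finset.mul_sum]
  refine Finset.sum_le_sum fun k hk => ?_
  rw [Finset.mul_sum]
  refine Finset.sum_le_sum fun l hl => ?_
  have h1 := tau_sq_le (Λ := Λ) (α := α) (H := H) a k l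
  have h2 : (∑ v ∈ Λ, shL α H a v ^ 2) * ∑ v ∈ Λ, (α v k * α v l) ^ 2
      ≤ (∑ v ∈ Λ, shL α H a v ^ 2) * g k l :=
    mul_le_mul_of_nonneg_left (hg k hk l hl) (Finset.sum_nonneg fun _ _ => sq_nonneg _)
  have h3 := mul_le_mul_of_nonneg_left (h1.trans h2) (hf k hk l hl)
  linarith

/-- Spill on a coordinate by Cauchy in `v`. -/
lemma spill_sq_le_energy (a : Fin d → ℝ) (j : Fin d) :
    (∑ v ∈ Λ, shL α H a v * α v j) ^ 2 ≤ (∑ v ∈ Λ, shL α H a v ^ 2) * ∑ v ∈ Λ, α v j ^ 2 :=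
  Finset.sum_mul_sq_le_sq_mul_sq _ _ _

/-- Weighted spill on a set `J` of coordinates by Cauchy in `v`. -/
lemma spill_weighted (a φ : Fin d → ℝ) (J : Finset (Fin d)) (hφ : ∀ j ∈ J, 0 ≤ φ j) :
    ∑ j ∈ J, φ j * (∑ v ∈ Λ, shL α H a v * α v j) ^ 2
      ≤ (∑ v ∈ Λ, shL α H a v ^ 2) * ∑ v ∈ Λ, ∑ j ∈ J, φ j * α v j ^ 2 := by
  have h1 : ∑ v ∈ Λ, ∑ j ∈ J, φ j * α v j ^ 2 = ∑ j ∈ J, φ j * ∑ v ∈ Λ, α v j ^ 2 := by
    rw [Finset.sum_comm]
    exact Finset.sum_congr rfl fun j _ => (Finset.mul_sum _ _ _).symm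
  rw [h1, Finset.mul_sum]
  refine Finset.sum_le_sum fun j hj => ?_
  have h2 := spill_sq_le_energy (Λ := Λ) (α := α) (H := H) a j
  have h3 := mul_le_mul_of_nonneg_left h2 (hφ j hj)
  calc φ j * (∑ v ∈ Λ, shL α H a v * α v j) ^ 2
      ≤ φ j * ((∑ v ∈ Λ, shL α H a v ^ 2) * ∑ v ∈ Λ, α v j ^ 2) := h3
    _ = (∑ v ∈ Λ, shL α H a v ^ 2) * (φ j * ∑ v ∈ Λ, α v j ^ 2) := by ring

/-- Spill on a set `J` of coordinates by Cauchy in `k`: the cross moments `M_kj` of `X'`. -/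
lemma spill_cross (a ψ : Fin d → ℝ) (J : Finset (Fin d)) (hψ : ∀ k ∈ H, 0 < ψ k) :
    ∑ j ∈ J, (∑ v ∈ Λ, shL α H a v * α v j) ^ 2
      ≤ (∑ k ∈ H, ψ k * a k ^ 2) * ∑ k ∈ H, ∑ j ∈ J, MML α Λ k j ^ 2 / ψ k := by
  have h1 : ∑ k ∈ H, ∑ j ∈ J, MML α Λ k j ^ 2 / ψ k = ∑ j ∈ J, ∑ k ∈ H, MML α Λ k j ^ 2 / ψ k :=
    Finset.sum_comm
  rw [h1, Finset.mul_sum]
  refine Finset.sum_le_sum fun j _ => ?_
  rw [spill_eq]
  refine Finset.sum_sq_le_sum_mul_sum_of_sq_le_mul _ ?_ ?_ ?_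
  · intro k hk
    have := hψ k hk
    positivity
  · intro k hk
    have := hψ k hk
    positivity
  · intro k hk
    have := hψ k hk
    apply le_of_eq
    field_simp

end Vale.Agent.P262S
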