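import Vale.Agent.P262S.Basic
import Vale.Agent.P262S.Tilt

/-! # Near diagonal solve (notes/P262_sqrtd.md, section 4). -/

open Finset

namespace Vale.Agent.P262S

variable {d : ℕ} {V : Type} [DecidableEq V]

lemma MML_eq_MB (α : V → Fin d → ℝ) (Λ : Finset V) (k l : Fin d) : MML α Λ k l = MB α Λ k l := rfl

/-- Tilt: `A = ∑_{v ∈ Λ} α_v α_vᵀ` on `H`, `D k = 2 g k`, `g k = q k ^ 4`, `E = A - D`. If the relative
Frobenius norm of `E` is at most `1/2` then `A a = -c` has a solution with the bounds below.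
Only `a` on `H` matters: `a k = 0` outside `H`. `sh v = ∑ k ∈ H, a k * α v k`. -/
theorem solve_tilt (H : Finset (Fin d)) (q : Fin d → ℝ) (hq : ∀ k ∈ H, 0 < q k)
    (Λ : Finset V) (α : V → Fin d → ℝ) (c : Fin d → ℝ)
    (hF : ∑ k ∈ H, ∑ l ∈ H,
      (MB α Λ k l - if k = l then 2 * q k ^ 4 else 0) ^ 2 / (2 * q k ^ 4 * (2 * q l ^ 4)) ≤ 1 / 4) :
    ∃ a : Fin d → ℝ, (∀ k, k ∉ H → a k = 0) ∧
      (∀ k ∈ H, ∑ l ∈ H, MB α Λ k l * a l = - c k) ∧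
      (∑ k ∈ H, 2 * q k ^ 4 * a k ^ 2 ≤ 4 * ∑ k ∈ H, c k ^ 2 / (2 * q k ^ 4)) ∧
      (∑ v ∈ Λ, (∑ k ∈ H, a k * α v k) ^ 2 ≤ 4 * ∑ k ∈ H, c k ^ 2 / (2 * q k ^ 4)) := by
  have hD : ∀ k ∈ H, 0 < (fun k => 2 * q k ^ 4) k := fun k hk => by
    have := hq k hk
    positivity
  have hE : RelSmall α Λ H (fun k => 2 * q k ^ 4) := hF
  obtain ⟨a, h0, hs, h1, h2⟩ := solve_tilt_gen (D := fun k => 2 * q k ^ 4) hD hE c
  refine ⟨a, h0, hs, h1, ?_⟩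
  have h3 : 0 ≤ ∑ k ∈ H, c k ^ 2 / (2 * q k ^ 4) := by
    refine Finset.sum_nonneg fun k hk => ?_
    have := hq k hk
    positivity
  have h4 : ∑ v ∈ Λ, (∑ k ∈ H, a k * α v k) ^ 2 = ∑ v ∈ Λ, shL α H a v ^ 2 := rfl
  rw [h4]
  linarith

end Vale.Agent.P262S
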